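import Crest.Agent.R65.D3Defs

/-! Row 65, `d = 3`: the pencil lemma for families, in the coordinates of `D3Defs`. -/

set_option autoImplicit false

open Finset Matrix
open scoped Classical

namespace Crest.Agent.R65.D3

/-- the points of `g` through which some pencil of `G` containing `g` has at least `σ` members -/
noncomputable def hvy (P₁ P₂ : Finset V3) (G : Finset Pt) (σ : ℝ) (g : Pt) : Finset Pt :=
  (mt P₁ P₂ g).filter fun x => ∃ l : Set V3, IsLine l ∧ g.1 ∈ l ∧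
    σ ≤ ((G.filter fun h => On h x ∧ h.1 ∈ l).card : ℝ)

/-- Pencil lemma: heavy incidences are a small fraction (`C₀` does not depend on `M`). -/
def PenFamStmt : Prop :=
  ∃ δ : ℝ, 0 < δ ∧ ∀ θ : ℝ, 0 < θ → ∃ C₀ : ℝ, ∀ M : ℝ, ∃ D₀ : ℕ, ∀ D : ℕ, D₀ ≤ D →
    ∀ P₁ P₂ : Finset V3, ND P₁ D → ND P₂ D →
    (P₁.card : ℝ) ^ 2 ≤ M * (D : ℝ) ^ 3 → (P₂.card : ℝ) ^ 2 ≤ M * (D : ℝ) ^ 3 →
    ∀ (G G' : Finset Pt) (r σ : ℝ), (∀ h ∈ G, r ≤ ((mt P₁ P₂ h).card : ℝ)) → C₀ * D ≤ r →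
      (D : ℝ) ^ (2 - δ) ≤ σ * r → (D : ℝ) ^ (5 - δ) ≤ G'.card * r ^ 2 →
      ∑ g ∈ G', ((hvy P₁ P₂ G σ g).card : ℝ) ≤ θ * G'.card * r

end Crest.Agent.R65.D3
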