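import Crest.Agent.R65.Pen.CircP

/-! Row 65, `d = 3`, pencils: circles in space. -/

set_option autoImplicit false

namespace Crest.Agent.R65.Pen

open Finset
open scoped Classical
open Crest.Agent.R33 (E2 InCell)

namespace CircAAux

theorem foot {m : Set E3} (hm : IsLine m) (q : E3) :
    ∃ o u : E3, u ≠ 0 ∧ m = ln o u ∧ orb m q = circ o u (dist q o) := by
  obtain ⟨o₀, u, hu, rfl⟩ := hm
  have hn : inner ℝ u u ≠ 0 := inner_self_ne_zero.2 hu
  have hmem : o₀ + (inner ℝ u (q - o₀) / inner ℝ u u) • u ∈ ln o₀ u := ⟨_, rfl⟩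
  have h0 : inner ℝ u (q - (o₀ + (inner ℝ u (q - o₀) / inner ℝ u u) • u)) = 0 := by
    rw [← sub_sub, inner_sub_right u (q - o₀), real_inner_smul_right, div_mul_cancel₀ _ hn,
      sub_self]
  generalize o₀ + (inner ℝ u (q - o₀) / inner ℝ u u) • u = o at hmem h0
  refine ⟨o, u, hu, (ln_eq_of_mem hmem).symm, ?_⟩
  rw [← ln_eq_of_mem hmem]
  ext x
  change Coax (ln o u) q x ↔ inner ℝ u (x - o) = 0 ∧ dist x o = dist q o
  rw [coax_ln, ← sub_add_sub_cancel x q o, inner_add_right, h0, add_zero, dist_comm o q,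
    dist_comm o x, eq_comm (a := dist q o)]

theorem orth_of_dist {z o a : E3} (h : dist z (o + a) = dist z (o - a)) :
    inner ℝ (z - o) a = 0 := by
  rw [dist_eq_norm, dist_eq_norm, ← sub_sub, ← sub_add] at h
  have h1 := norm_sub_sq_real (z - o) a
  have h2 := norm_add_sq_real (z - o) a
  rw [h] at h1
  linarith

theorem four {o u : E3} {ρ : ℝ} (hu : u ≠ 0) (hρ : 0 < ρ) : ∃ a b : E3,
    inner ℝ u a = 0 ∧ inner ℝ u b = 0 ∧ inner ℝ a b = 0 ∧ a ≠ 0 ∧ b ≠ 0 ∧
    o + a ∈ circ o u ρ ∧ o - a ∈ circ o u ρ ∧ o + b ∈ circ o u ρ ∧ o - b ∈ circ o u ρ := by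
  obtain ⟨a, b, h1, h2, h3, h4, h5, h6⟩ := circ_param (o := o) hu hρ
  refine ⟨a, b, h1, h2, h3, norm_pos_iff.1 (h4 ▸ hρ), norm_pos_iff.1 (h5 ▸ hρ), ?_⟩
  rw [h6]
  exact ⟨⟨1, 0, by norm_num, by module⟩, ⟨-1, 0, by norm_num, by module⟩,
    ⟨0, 1, by norm_num, by module⟩, ⟨0, -1, by norm_num, by module⟩⟩

theorem mem_axis {m : Set E3} (hm : IsLine m) {q z : E3} (hc : IsCirc (orb m q))
    (hz : ∀ x ∈ orb m q, ∀ y ∈ orb m q, dist z x = dist z y) : z ∈ m := by
  obtain ⟨o, u, hu, h1, h2⟩ := foot hm q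
  have hρ : 0 < dist q o := by
    refine lt_of_le_of_ne dist_nonneg fun h0 => ?_
    obtain ⟨o', u', ρ', hu', hρ', h3⟩ := hc
    obtain ⟨a, b, -, -, -, ha, -, m1, m2, -⟩ := four (o := o') hu' hρ'
    rw [← h3, h2, ← h0] at m1 m2
    have e1 := dist_eq_zero.1 m1.2
    have e2 := dist_eq_zero.1 m2.2
    refine ha ?_
    have e3 : a = (1 / 2 : ℝ) • ((o' + a) - (o' - a)) := by module
    rw [e3, e1, e2, sub_self, smul_zero]
  obtain ⟨a, b, a1, a2, a3, ha, hb, m1, m2, m3, m4⟩ := four (o := o) hu hρ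
  rw [← h2] at m1 m2 m3 m4
  have hi : ∀ s t : ℝ, s • a + t • b = 0 → s = 0 ∧ t = 0 := by
    intro s t h
    have e1 := congrArg (inner ℝ a) h
    have e2 := congrArg (inner ℝ b) h
    rw [inner_add_right, real_inner_smul_right, real_inner_smul_right, inner_zero_right] at e1 e2
    rw [a3, mul_zero, add_zero] at e1
    rw [real_inner_comm, a3, mul_zero, zero_add] at e2
    exact ⟨(mul_eq_zero.1 e1).resolve_right (inner_self_ne_zero.2 ha),
      (mul_eq_zero.1 e2).resolve_right (inner_self_ne_zero.2 hb)⟩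
  obtain ⟨c, hc⟩ := orth_unique hi hu a1 a2 (orth_of_dist (hz _ m1 _ m2))
    (orth_of_dist (hz _ m3 _ m4))
  rw [h1]
  exact ⟨c, by rw [← hc, add_sub_cancel]⟩

end CircAAux

/-- with the foot `o` of `q` on `m` as base point, `orb m q = circ o u (dist q o)` (`coax_ln`) -/
theorem isCirc_orb {m : Set E3} (hm : IsLine m) {q q' : E3} (h : q' ∈ orb m q) (hne : q' ≠ q) :
    IsCirc (orb m q) := by
  obtain ⟨o, u, hu, -, h2⟩ := CircAAux.foot hm q
  refine ⟨o, u, dist q o, hu, lt_of_le_of_ne dist_nonneg fun h0 => hne ?_, h2⟩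
  rw [h2, ← h0] at h
  rw [dist_eq_zero.1 h.2, dist_eq_zero.1 h0.symm]

theorem mem_orb_self (m : Set E3) (q : E3) : q ∈ orb m q := fun _ _ => rfl

theorem orb_eq {m : Set E3} {q q' : E3} (h : q' ∈ orb m q) : orb m q' = orb m q :=
  Set.ext fun _ => ⟨fun hx y hy => (h y hy).trans (hx y hy),
    fun hx y hy => (h y hy).symm.trans (hx y hy)⟩

/-- the axis is the set of the points equidistant from all points of the circle -/
theorem axis_unique {m m' : Set E3} (hm : IsLine m) (hm' : IsLine m') {q q' : E3}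
    (hc : IsCirc (orb m q)) (h : orb m q = orb m' q') : m = m' := by
  refine (hm'.eq_of_subset hm fun z hz => CircAAux.mem_axis hm hc fun x hx y hy => ?_).symm
  rw [h] at hx hy
  exact (hx z hz).symm.trans (hy z hz)

theorem card_orb_le {P : Finset E3} {B : ℝ} (hB : PlaneBd P B) {m : Set E3} (hm : IsLine m) (q : E3) :
    ((on P (orb m q)).card : ℝ) ≤ B := by
  obtain ⟨o, u, hu, rfl⟩ := hm
  refine le_trans (Nat.cast_le.2 (card_le_card fun x hx => ?_)) (hB u (inner ℝ u q) hu)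
  obtain ⟨h1, h2⟩ := mem_on.1 hx
  have h3 := (coax_ln.1 h2).1
  rw [inner_sub_right, sub_eq_zero] at h3
  exact mem_filter.2 ⟨h1, h3⟩

end Crest.Agent.R65.Pen
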