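import Crest.Agent.R65.Pen.IsoC
import Crest.Agent.R65.Pen.CircA

/-! Row 65, `d = 3`, pencils: a heavy pencil gives many coaxial pairs. -/

set_option autoImplicit false

namespace Crest.Agent.R65.Pen

open Finset
open scoped Classical
open Crest.Agent.R33 (E2 InCell)

namespace MatchAux

theorem fib {ι α : Type} [DecidableEq α] {M M₀ : Finset ι} (hM : M₀ ⊆ M) (π : ι → α) (n : ι → ℕ)
    (h : ∀ a ∈ M, (M.filter fun b => π b = π a).card = n a) (A : Finset α)
    (hA : ∀ a ∈ M₀, π a ∈ A) (f : α → ℝ) (hf : ∀ q, 0 ≤ f q) :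
    ∑ a ∈ M₀, f (π a) / n a ≤ ∑ q ∈ A, f q := by
  rw [← sum_fiberwise_of_maps_to hA]
  refine sum_le_sum fun q _ => ?_
  have e : ∀ a ∈ M₀.filter fun a => π a = q,
      f (π a) / n a = f q / ((M.filter fun b => π b = q).card : ℝ) := fun a ha => by
    obtain ⟨h1, h2⟩ := mem_filter.1 ha
    rw [← h a (hM h1), h2]
  rw [sum_congr rfl e, sum_const, nsmul_eq_mul, ← mul_div_assoc, mul_comm, mul_div_assoc]
  refine mul_le_of_le_one_right (hf q) (div_le_one_of_le₀ ?_ (Nat.cast_nonneg _))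
  exact_mod_cast card_le_card (filter_subset_filter _ hM)

theorem pos {ι α : Type} [DecidableEq α] {M : Finset ι} (π : ι → α) (n : ι → ℕ)
    (h : ∀ a ∈ M, (M.filter fun b => π b = π a).card = n a) {a : ι} (ha : a ∈ M) :
    (0 : ℝ) < n a := by
  rw [← h a ha]
  exact Nat.cast_pos.2 (card_pos.2 ⟨a, mem_filter.2 ⟨ha, rfl⟩⟩)

theorem small {ι α : Type} [DecidableEq α] {M : Finset ι} (π : ι → α) (n : ι → ℕ)
    (h : ∀ a ∈ M, (M.filter fun b => π b = π a).card = n a) (A : Finset α)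
    (hA : ∀ a ∈ M, π a ∈ A) {κ : ℝ} (hκ : 0 ≤ κ) :
    ((M.filter fun a => (n a : ℝ) < κ).card : ℝ) ≤ κ * A.card := by
  have := fib (filter_subset (fun a => (n a : ℝ) < κ) M) π n h A
    (fun a ha => hA a (mem_filter.1 ha).1) (fun _ => κ) fun _ => hκ
  rw [sum_const, nsmul_eq_mul, mul_comm] at this
  refine le_trans ?_ this
  rw [card_eq_sum_ones, Nat.cast_sum]
  refine sum_le_sum fun a ha => ?_
  obtain ⟨h1, h2⟩ := mem_filter.1 ha
  rw [Nat.cast_one, le_div_iff₀ (pos π n h h1), one_mul]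
  exact h2.le

theorem mem_MM {P P' : Finset E3} {g : Iso} {m : Set E3} {a : E3 × E3} :
    a ∈ MM P P' g m ↔ a.1 ∈ P ∧ a.2 ∈ P' ∧ ∀ x ∈ m, dist x a.1 = dist (g x) a.2 := by
  simp [MM, and_assoc]

theorem fib_snd {P P' : Finset E3} {g : Iso} {m : Set E3} (a : E3 × E3) (ha : a ∈ MM P P' g m) :
    ((MM P P' g m).filter fun b => b.2 = a.2).card = (on P (orb m a.1)).card := by
  obtain ⟨-, h2, h3⟩ := mem_MM.1 ha
  refine card_bij (fun b _ => b.1) (fun b hb => ?_) (fun b hb c hc e => ?_) fun q hq => ?_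
  · obtain ⟨h4, h5⟩ := mem_filter.1 hb
    obtain ⟨h6, -, h7⟩ := mem_MM.1 h4
    exact mem_on.2 ⟨h6, fun x hx => by rw [h3 x hx, h7 x hx, h5]⟩
  · exact Prod.ext e ((mem_filter.1 hb).2.trans (mem_filter.1 hc).2.symm)
  · obtain ⟨h4, h5⟩ := mem_on.1 hq
    exact ⟨(q, a.2), mem_filter.2 ⟨mem_MM.2 ⟨h4, h2, fun x hx => by
      rw [← h3 x hx]; exact (h5 x hx).symm⟩, rfl⟩, rfl⟩

theorem fib_fst {P P' : Finset E3} {g : Iso} {m : Set E3} (a : E3 × E3) (ha : a ∈ MM P P' g m) :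
    ((MM P P' g m).filter fun b => b.1 = a.1).card = (on P' (orb (g '' m) a.2)).card := by
  obtain ⟨h2, -, h3⟩ := mem_MM.1 ha
  refine card_bij (fun b _ => b.2) (fun b hb => ?_) (fun b hb c hc e => ?_) fun q hq => ?_
  · obtain ⟨h4, h5⟩ := mem_filter.1 hb
    obtain ⟨-, h6, h7⟩ := mem_MM.1 h4
    refine mem_on.2 ⟨h6, ?_⟩
    rintro _ ⟨x, hx, rfl⟩
    rw [← h3 x hx, ← h7 x hx, h5]
  · exact Prod.ext ((mem_filter.1 hb).2.trans (mem_filter.1 hc).2.symm) e
  · obtain ⟨h4, h5⟩ := mem_on.1 hq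
    exact ⟨(a.1, q), mem_filter.2 ⟨mem_MM.2 ⟨h2, h4, fun x hx => by
      rw [h3 x hx]; exact h5 _ ⟨x, hx, rfl⟩⟩, rfl⟩, rfl⟩

end MatchAux

/-- `(h, q) ↦ (q, h q)` for `h ∈ pen`, `q ∈ mat h \ m` (at least `r - 2D ≥ r/2` points, `card_on_line`) lands in
`MM` and is at most `2`-to-`1` (`iso_two`) -/
theorem pen_le_MM {P P' : Finset E3} {D : ℕ} (hP : Few P D) {𝒢 : Finset Iso} {r : ℝ}
    (hr : ∀ h ∈ 𝒢, r ≤ ((mat P P' h).card : ℝ)) (hD : 4 * (D : ℝ) ≤ r) (g : Iso) {m : Set E3}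
    (hm : IsLine m) : ((pen 𝒢 g m).card : ℝ) * r / 4 ≤ (MM P P' g m).card := by
  set S := (pen 𝒢 g m).sigma fun h => (mat P P' h).filter (· ∉ m) with hS
  have h1 : S.card ≤ 2 * (MM P P' g m).card := by
    refine card_le_mul_card_image_of_maps_to (f := fun a => (a.2, a.1 a.2)) (fun a ha => ?_) 2
      fun b _ => ?_
    · obtain ⟨a1, a2⟩ := mem_sigma.1 ha
      obtain ⟨a3, a4⟩ := mem_mat.1 (mem_filter.1 a2).1
      refine MatchAux.mem_MM.2 ⟨a3, a4, fun x hx => ?_⟩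
      rw [← (mem_filter.1 a1).2 x hx, a.1.dist_map]
    · rcases (S.filter fun a => (a.2, a.1 a.2) = b).eq_empty_or_nonempty with h | ⟨a₀, h₀⟩
      · rw [h]; simp
      have hb : b.1 ∉ m := by
        obtain ⟨a1, a2⟩ := mem_filter.1 h₀
        rw [← a2]
        exact (mem_filter.1 (mem_sigma.1 a1).2).2
      rw [← card_image_of_injOn (f := fun a => a.1)]
      · refine iso_two hm hb g b.2 _ fun h hh => ?_
        obtain ⟨a, ha, rfl⟩ := mem_image.1 hh
        obtain ⟨a1, a2⟩ := mem_filter.1 ha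
        exact ⟨(mem_filter.1 (mem_sigma.1 a1).1).2, by rw [← a2]⟩
      · rintro ⟨h, q⟩ ha ⟨h', q'⟩ ha' e
        have e1 := (mem_filter.1 ha).2
        have e2 := (mem_filter.1 ha').2
        simp only at e e1 e2
        have e3 : q = q' := congrArg Prod.fst (e1.trans e2.symm)
        subst e e3
        rfl
  have h2 : ((pen 𝒢 g m).card : ℝ) * (r / 2) ≤ S.card := by
    rw [hS, card_sigma, Nat.cast_sum, ← nsmul_eq_mul]
    refine card_nsmul_le_sum _ _ _ fun h hh => ?_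
    have a1 := hr h (mem_filter.1 hh).1
    have a2 := card_filter_add_card_filter_not (s := mat P P' h) (· ∈ m)
    have a3 : ((mat P P' h).filter (· ∈ m)).card ≤ 2 * D :=
      (card_le_card (filter_subset_filter _ (filter_subset _ _))).trans (card_on_line hP hm)
    have a4 : ((mat P P' h).card : ℝ) ≤ 2 * D + ((mat P P' h).filter (· ∉ m)).card := by
      exact_mod_cast (by omega)
    linarith
  have h3 : (S.card : ℝ) ≤ 2 * (MM P P' g m).card := by exact_mod_cast h1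
  linarith

/-- Write `c q = #on P (orb m q)`, `c' q' = #on P' (orb (g '' m) q')`.  For `(q, q') ∈ MM` the partners of `q'` are
exactly `on P (orb m q)`, those of `q` exactly `on P' (orb (g '' m) q')`.  So the pairs with `c q < κ` number
`≤ κ #P'`, those with `c' q' < κ` number `≤ κ #P`.  For the set `M₀` of the others
`∑_{M₀} c q / c' q' ≤ SS P κ m`, `∑_{M₀} c' q' / c q ≤ SS P' κ (g '' m)`, and Cauchy–Schwarz. -/
theorem MM_le (P P' : Finset E3) (g : Iso) (m : Set E3) {κ : ℝ} (hκ : 0 ≤ κ) :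
    ((MM P P' g m).card : ℝ) ≤
      κ * (P.card + P'.card) + √((SS P κ m : ℝ) * SS P' κ (g '' m)) := by
  set M := MM P P' g m
  set c : E3 × E3 → ℕ := fun a => (on P (orb m a.1)).card with hc
  set c' : E3 × E3 → ℕ := fun a => (on P' (orb (g '' m) a.2)).card with hc'
  have h1 := MatchAux.small (M := M) Prod.snd c MatchAux.fib_snd P'
    (fun a ha => (MatchAux.mem_MM.1 ha).2.1) hκ
  have h2 := MatchAux.small (M := M) Prod.fst c' MatchAux.fib_fst P
    (fun a ha => (MatchAux.mem_MM.1 ha).1) hκ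
  set M₀ := M.filter fun a => κ ≤ (c a : ℝ) ∧ κ ≤ (c' a : ℝ)
  have h3 := MatchAux.fib (M₀ := M₀) (filter_subset _ M) Prod.fst c' MatchAux.fib_fst
    (P.filter fun q => κ ≤ ((on P (orb m q)).card : ℝ))
    (fun a ha => mem_filter.2 ⟨(MatchAux.mem_MM.1 (mem_filter.1 ha).1).1, (mem_filter.1 ha).2.1⟩)
    (fun q => ((on P (orb m q)).card : ℝ)) fun _ => Nat.cast_nonneg _
  have h4 := MatchAux.fib (M₀ := M₀) (filter_subset _ M) Prod.snd c MatchAux.fib_snd
    (P'.filter fun q => κ ≤ ((on P' (orb (g '' m) q)).card : ℝ))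
    (fun a ha => mem_filter.2 ⟨(MatchAux.mem_MM.1 (mem_filter.1 ha).1).2.1,
      (mem_filter.1 ha).2.2⟩)
    (fun q => ((on P' (orb (g '' m) q)).card : ℝ)) fun _ => Nat.cast_nonneg _
  have h5 : (M₀.card : ℝ) ≤ √((SS P κ m : ℝ) * SS P' κ (g '' m)) := by
    refine Real.le_sqrt_of_sq_le ?_
    have := sum_sq_le_sum_mul_sum_of_sq_eq_mul M₀ (r := fun _ => (1 : ℝ))
      (f := fun a => (c a : ℝ) / c' a) (g := fun a => (c' a : ℝ) / c a)
      (fun _ _ => by positivity) (fun _ _ => by positivity) fun a ha => by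
        have a1 := MatchAux.pos (M := M) Prod.snd c MatchAux.fib_snd (mem_filter.1 ha).1
        have a2 := MatchAux.pos (M := M) Prod.fst c' MatchAux.fib_fst (mem_filter.1 ha).1
        field_simp
    rw [sum_const, nsmul_eq_mul, mul_one] at this
    refine this.trans ?_
    simp only [SS, Nat.cast_sum]
    exact mul_le_mul h3 h4 (sum_nonneg fun _ _ => by positivity)
      (sum_nonneg fun _ _ => Nat.cast_nonneg _)
  have h6 : M.card ≤ (M.filter fun a => (c a : ℝ) < κ).card +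
      (M.filter fun a => (c' a : ℝ) < κ).card + M₀.card := by
    refine le_trans (card_le_card fun a ha => ?_)
      ((card_union_le _ _).trans (Nat.add_le_add_right (card_union_le _ _) _))
    simp only [mem_union, mem_filter, M₀, ha, true_and]
    by_cases a1 : (c a : ℝ) < κ
    · exact Or.inl (Or.inl a1)
    by_cases a2 : (c' a : ℝ) < κ
    · exact Or.inl (Or.inr a2)
    exact Or.inr ⟨not_lt.1 a1, not_lt.1 a2⟩
  have h7 : (M.card : ℝ) ≤ (M.filter fun a => (c a : ℝ) < κ).card +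
      (M.filter fun a => (c' a : ℝ) < κ).card + M₀.card := by exact_mod_cast h6
  linarith

end Crest.Agent.R65.Pen
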