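import Crest.Agent.R65.Pen.Core
import Crest.Agent.R65.Pen.Match

/-! Row 65, `d = 3`, pencils: the pencil lemma. -/

set_option autoImplicit false

namespace Crest.Agent.R65.Pen

open Finset
open scoped Classical
open Crest.Agent.R33 (E2 InCell)

theorem SS_le (P : Finset E3) (κ : ℝ) (m : Set E3) : (SS P κ m : ℝ) ≤ (P.card : ℝ) ^ 2 := by
  have h : SS P κ m ≤ P.card * P.card :=
    (sum_le_card_nsmul _ _ P.card fun q _ => card_filter_le _ _).trans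
      (Nat.mul_le_mul_right _ (card_filter_le _ _))
  rw [sq]
  exact_mod_cast h

theorem le_of_sq_le_sq' {a b : ℝ} (h : a ^ 2 ≤ b ^ 2) (hb : 0 ≤ b) : a ≤ b :=
  le_of_abs_le (abs_le_of_sq_le_sq' h hb |> abs_le.2)

theorem exists_box (A B : ℕ) : ∃ R : Finset (ℕ × ℕ), R.card = (A + 1) * (B + 1) ∧
    ∀ c : ℕ × ℕ, c.1 ≤ A → c.2 ≤ B → c ∈ R :=
  ⟨range (A + 1) ×ˢ range (B + 1), by rw [card_product, card_range, card_range], fun _ h1 h2 =>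
    mem_product.2 ⟨mem_range.2 (Nat.lt_succ_of_le h1), mem_range.2 (Nat.lt_succ_of_le h2)⟩⟩

/-- the side `SS P (ax) ≥ SS P' (g '' ax)`: classes `i ≤ 3602`, `j ≤ 1201` (`exists_nat_pow_near`), `core` -/
theorem side : ∃ t₀ : ℝ, ∀ t : ℝ, t₀ ≤ t → ∀ (P P' : Finset E3) (D : ℕ), Few P D → Few P' D →
    (D : ℝ) ≤ t ^ 1200 → (P.card : ℝ) ≤ t ^ 1801 → (P'.card : ℝ) ≤ t ^ 1801 →
    ∀ (𝒢 : Finset Iso) (J : Iso → Finset E3) (ax : Iso → E3 → Set E3),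
    (∀ g ∈ 𝒢, J g ⊆ mat P P' g ∧ ∀ p ∈ J g, IsLine (ax g p) ∧ p ∈ ax g p ∧
      t ^ 4795 ≤ (SS P (t ^ 596) (ax g p) : ℝ) * SS P' (t ^ 596) (g '' ax g p) ∧
      SS P' (t ^ 596) (g '' ax g p) ≤ SS P (t ^ 596) (ax g p)) →
    ∑ g ∈ 𝒢, ((J g).card : ℝ) ≤ 3603 * 1202 * (2 * D * 𝒢.card + √(𝒢.card * t ^ 5958)) := by
  obtain ⟨t₀, h₀⟩ := core
  refine ⟨max t₀ 2, ?_⟩
  intro t ht P P' D hP hP' hD hn hn' 𝒢 J ax hJ
  obtain ⟨a1, a2⟩ := max_le_iff.1 ht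
  have ht1 : (1 : ℝ) < t := by linarith
  have ht0 : (0 : ℝ) < t := by linarith
  have hex : ∀ x : ℝ, ∃ i : ℕ, 1 ≤ x → t ^ i ≤ x ∧ x < t ^ (i + 1) := fun x => by
    by_cases hx : 1 ≤ x
    · obtain ⟨i, hi⟩ := exists_nat_pow_near hx ht1
      exact ⟨i, fun _ => hi⟩
    · exact ⟨0, fun h => absurd h hx⟩
  choose lg hlg using hex
  obtain ⟨R, hR1, hR2⟩ := exists_box 3602 1201
  set cl : Iso → E3 → ℕ × ℕ := fun g p =>
    (lg (SS P (t ^ 596) (ax g p)), lg ((on P' (g '' ax g p)).card)) with hcl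
  have key : ∀ g ∈ 𝒢, ∀ p ∈ J g, cl g p ∈ R ∧ 2397 ≤ (cl g p).1 ∧
      t ^ (cl g p).1 ≤ (SS P (t ^ 596) (ax g p) : ℝ) ∧
      t ^ 4794 ≤ (SS P' (t ^ 596) (g '' ax g p) : ℝ) * t ^ (cl g p).1 ∧
      t ^ (cl g p).2 ≤ ((on P' (g '' ax g p)).card : ℝ) ∧
      ((on P' (g '' ax g p)).card : ℝ) ≤ t ^ ((cl g p).2 + 1) := by
    intro g hg p hp
    obtain ⟨b1, b2, b3, b4⟩ := (hJ g hg).2 p hp
    have b5 := mem_mat.1 ((hJ g hg).1 hp)
    set S : ℝ := ((SS P (t ^ 596) (ax g p) : ℕ) : ℝ) with hS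
    set S' : ℝ := ((SS P' (t ^ 596) (g '' ax g p) : ℕ) : ℝ) with hS'
    have hS0 : 0 ≤ S := Nat.cast_nonneg _
    have hS0' : 0 ≤ S' := Nat.cast_nonneg _
    have b4' : S' ≤ S := by rw [hS, hS']; exact_mod_cast b4
    have c1 : t ^ 2397 ≤ S := by
      refine le_of_sq_le_sq' ?_ hS0
      calc (t ^ 2397) ^ 2 = t ^ 4794 := by ring
        _ ≤ t ^ 4795 := pow_le_pow_right₀ ht1.le (by norm_num)
        _ ≤ S * S' := b3
        _ ≤ S * S := mul_le_mul_of_nonneg_left b4' hS0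
        _ = S ^ 2 := by ring
    have c2 : S ≤ t ^ 3602 :=
      calc S ≤ (P.card : ℝ) ^ 2 := SS_le P _ _
        _ ≤ (t ^ 1801) ^ 2 := pow_le_pow_left₀ (Nat.cast_nonneg _) hn 2
        _ = _ := by ring
    obtain ⟨c3, c4⟩ := hlg S ((one_le_pow₀ ht1.le).trans c1)
    have c5 : (1 : ℝ) ≤ (on P' (g '' ax g p)).card := by
      exact_mod_cast card_pos.2 ⟨g p, mem_on.2 ⟨b5.2, Set.mem_image_of_mem _ b2⟩⟩
    obtain ⟨c6, c7⟩ := hlg _ c5
    have c8 : ((on P' (g '' ax g p)).card : ℝ) ≤ t ^ 1201 :=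
      calc ((on P' (g '' ax g p)).card : ℝ) ≤ 2 * D := by
            exact_mod_cast card_on_line hP' (b1.image g)
        _ ≤ t * t ^ 1200 := by gcongr
        _ = _ := by ring
    have d1 := (pow_le_pow_iff_right₀ ht1).1 (c3.trans c2)
    have d2 := (pow_le_pow_iff_right₀ ht1).1 (c6.trans c8)
    have d3 := (pow_lt_pow_iff_right₀ ht1).1 (c1.trans_lt c4)
    refine ⟨hR2 _ d1 d2, Nat.le_of_lt_succ d3, c3, ?_, c6, c7.le⟩
    have d4 : t ^ 4794 * t ≤ S' * t ^ lg S * t :=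
      calc t ^ 4794 * t = t ^ 4795 := by ring
        _ ≤ S * S' := b3
        _ ≤ t ^ (lg S + 1) * S' := mul_le_mul_of_nonneg_right c4.le hS0'
        _ = _ := by ring
    exact le_of_mul_le_mul_right d4 ht0
  have h1 : ∀ g ∈ 𝒢, ((J g).card : ℝ) =
      ∑ c ∈ R, (((J g).filter fun p => cl g p = c).card : ℝ) := by
    intro g hg
    have e := card_eq_sum_card_fiberwise (f := cl g) (s := J g) (t := R)
      fun p hp => mem_coe.2 (key g hg p (mem_coe.1 hp)).1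
    rw [e, Nat.cast_sum]
  rw [sum_congr rfl h1, sum_comm]
  have h2 : ∀ c ∈ R,
      ∑ g ∈ 𝒢, (((J g).filter fun p => cl g p = c).card : ℝ) ≤
        2 * D * 𝒢.card + √(𝒢.card * t ^ 5958) := by
    intro c _
    by_cases hc : 2397 ≤ c.1
    · refine h₀ t a1 P P' D hP hP' hD hn hn' 𝒢 _ ax c.1 c.2 hc fun g hg =>
        ⟨(filter_subset _ _).trans (hJ g hg).1, fun p hp => ?_⟩
      obtain ⟨hp', e⟩ := mem_filter.1 hp
      rw [← e]
      exact ⟨((hJ g hg).2 p hp').1, ((hJ g hg).2 p hp').2.1, (key g hg p hp').2.2⟩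
    · rw [sum_eq_zero fun g hg => ?_]
      · exact add_nonneg (mul_nonneg (mul_nonneg zero_le_two (Nat.cast_nonneg _))
          (Nat.cast_nonneg _)) (Real.sqrt_nonneg _)
      · rw [filter_false_of_mem, card_empty, Nat.cast_zero]
        rintro p hp rfl
        exact hc (key g hg p hp).2.1
  refine (sum_le_card_nsmul _ _ _ h2).trans (le_of_eq ?_)
  rw [hR1, nsmul_eq_mul]
  push_cast
  ring

/-- **Pencil lemma.** -/
theorem pencil (θ : ℝ) (hθ : 0 < θ) : ∃ C₀ t₀ : ℝ, ∀ t : ℝ, t₀ ≤ t → ∀ (P P' : Finset E3) (D : ℕ),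
    Few P D → Few P' D → (D : ℝ) ≤ t ^ 1200 → (P.card : ℝ) ≤ t ^ 1801 → (P'.card : ℝ) ≤ t ^ 1801 →
    ∀ (𝒢 𝒢' : Finset Iso) (r σ : ℝ), (∀ h ∈ 𝒢, r ≤ ((mat P P' h).card : ℝ)) → 0 < r → C₀ * D ≤ r →
    t ^ 2399 ≤ σ * r → t ^ 5999 ≤ 𝒢'.card * r ^ 2 →
    ∑ g ∈ 𝒢', ((hv P P' 𝒢 σ g).card : ℝ) ≤ θ * 𝒢'.card * r := by
  obtain ⟨t₀, h₀⟩ := side
  refine ⟨max 4 (8 * (3603 * 1202) / θ), max t₀ (max 6 (4 * (3603 * 1202) / θ)), ?_⟩
  intro t ht P P' D hP hP' hD hn hn' 𝒢 𝒢' r σ hr hr0 hC hσ hG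
  simp only [max_le_iff] at ht
  obtain ⟨a1, a2, a3⟩ := ht
  have ht0 : (0 : ℝ) < t := by linarith
  have hD0 : (0 : ℝ) ≤ D := Nat.cast_nonneg _
  have hC1 : 4 * (D : ℝ) ≤ r := (mul_le_mul_of_nonneg_right (le_max_left _ _) hD0).trans hC
  have hC2 : 8 * (3603 * 1202) / θ * (D : ℝ) ≤ r :=
    (mul_le_mul_of_nonneg_right (le_max_right _ _) hD0).trans hC
  have hex : ∀ (g : Iso) (p : E3), ∃ m : Set E3, Heavy 𝒢 σ g p →
      IsLine m ∧ p ∈ m ∧ σ ≤ ((pen 𝒢 g m).card : ℝ) := fun g p => by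
    by_cases h : Heavy 𝒢 σ g p
    · obtain ⟨m, hm⟩ := h
      exact ⟨m, fun _ => hm⟩
    · exact ⟨∅, fun h' => absurd h' h⟩
  choose ax hax using hex
  have key : ∀ g, ∀ p ∈ hv P P' 𝒢 σ g, IsLine (ax g p) ∧ p ∈ ax g p ∧
      t ^ 4795 ≤ (SS P (t ^ 596) (ax g p) : ℝ) * SS P' (t ^ 596) (g '' ax g p) := by
    intro g p hp
    obtain ⟨b1, b2, b3⟩ := hax g p (mem_filter.1 hp).2
    refine ⟨b1, b2, ?_⟩
    have c1 := pen_le_MM hP hr hC1 g b1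
    have c2 := MM_le P P' g (ax g p) (κ := t ^ 596) (by positivity)
    have c3 := mul_le_mul_of_nonneg_right b3 hr0.le
    have c4 : t ^ 596 * ((P.card : ℝ) + P'.card) ≤ 2 * t ^ 2397 :=
      calc _ ≤ t ^ 596 * (t ^ 1801 + t ^ 1801) := by gcongr
        _ = _ := by ring
    have c5 : t ^ 2398 + 2 * t ^ 2397 ≤ t ^ 2399 / 4 := by
      have e1 : t ^ 2398 = t ^ 2397 * t := by ring
      have e2 : t ^ 2399 = t ^ 2397 * t ^ 2 := by ring
      have e3 : 0 < t ^ 2397 := by positivity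
      have e4 : 0 ≤ t ^ 2 / 4 - t - 2 := by nlinarith
      rw [e1, e2]
      nlinarith [mul_nonneg e3.le e4]
    have c6 : t ^ 2398 ≤ √((SS P (t ^ 596) (ax g p) : ℝ) * SS P' (t ^ 596) (g '' ax g p)) := by
      linarith
    rw [Real.le_sqrt (by positivity) (by positivity)] at c6
    calc t ^ 4795 ≤ t ^ 4796 := pow_le_pow_right₀ (by linarith) (by norm_num)
      _ = (t ^ 2398) ^ 2 := by ring
      _ ≤ _ := c6
  set J₁ : Iso → Finset E3 := fun g => (hv P P' 𝒢 σ g).filter fun p =>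
    SS P' (t ^ 596) (g '' ax g p) ≤ SS P (t ^ 596) (ax g p) with hJ₁
  set J₂ : Iso → Finset E3 := fun g => (hv P P' 𝒢 σ g).filter fun p =>
    ¬ SS P' (t ^ 596) (g '' ax g p) ≤ SS P (t ^ 596) (ax g p) with hJ₂
  have h1 := h₀ t a1 P P' D hP hP' hD hn hn' 𝒢' J₁ ax fun g _ =>
    ⟨(filter_subset _ _).trans (filter_subset _ _), fun p hp =>
      ⟨(key g p (mem_filter.1 hp).1).1, (key g p (mem_filter.1 hp).1).2.1,
        (key g p (mem_filter.1 hp).1).2.2, (mem_filter.1 hp).2⟩⟩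
  have hinj : Function.Injective (AffineIsometryEquiv.symm : Iso → Iso) := fun g h e => by
    simpa using congrArg AffineIsometryEquiv.symm e
  have h2 := h₀ t a1 P' P D hP' hP hD hn' hn (𝒢'.image AffineIsometryEquiv.symm)
    (fun h => (J₂ h.symm).image h.symm) (fun h q => h.symm '' ax h.symm (h q)) (by
      intro h hh
      obtain ⟨g, -, rfl⟩ := mem_image.1 hh
      simp only [AffineIsometryEquiv.symm_symm]
      refine ⟨fun q hq => ?_, fun q hq => ?_⟩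
      · obtain ⟨p, hp, rfl⟩ := mem_image.1 hq
        have := mem_mat.1 (mem_filter.1 (mem_filter.1 hp).1).1
        exact mem_mat.2 ⟨this.2, by simpa using this.1⟩
      · obtain ⟨p, hp, rfl⟩ := mem_image.1 hq
        obtain ⟨hp1, hp2⟩ := mem_filter.1 hp
        obtain ⟨b1, b2, b3⟩ := key g p hp1
        have e : g.symm '' (g '' ax g p) = ax g p := by
          rw [Set.image_image]
          simp
        rw [AffineIsometryEquiv.symm_apply_apply, e]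
        exact ⟨b1.image g, Set.mem_image_of_mem _ b2, by rwa [mul_comm], (not_le.1 hp2).le⟩)
  rw [sum_image fun g _ h _ e => hinj e, card_image_of_injective _ hinj] at h2
  simp only [AffineIsometryEquiv.symm_symm] at h2
  have h3 : ∑ g ∈ 𝒢', ((hv P P' 𝒢 σ g).card : ℝ) =
      ∑ g ∈ 𝒢', ((J₁ g).card : ℝ) + ∑ g ∈ 𝒢', (((J₂ g).image g).card : ℝ) := by
    rw [← sum_add_distrib]
    refine sum_congr rfl fun g _ => ?_
    rw [card_image_of_injective _ g.injective]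
    exact_mod_cast (card_filter_add_card_filter_not _).symm
  have hG0 : (0 : ℝ) ≤ 𝒢'.card := Nat.cast_nonneg _
  have h4 : 3603 * 1202 * (2 * (D : ℝ) * 𝒢'.card) ≤ θ * 𝒢'.card * r / 4 := by
    rw [div_mul_eq_mul_div, div_le_iff₀ hθ] at hC2
    nlinarith [mul_le_mul_of_nonneg_right hC2 hG0]
  have h5 : √(𝒢'.card * t ^ 5958) ≤ θ * 𝒢'.card * r / (4 * (3603 * 1202)) := by
    rw [Real.sqrt_le_left (by positivity)]
    rw [div_le_iff₀ hθ] at a3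
    have e1 : 1 ≤ (θ / (4 * (3603 * 1202))) * t := by
      rw [div_mul_eq_mul_div, le_div_iff₀ (by norm_num)]
      linarith
    have e2 : t ^ 5958 ≤ (θ / (4 * (3603 * 1202))) ^ 2 * t ^ 5999 :=
      calc t ^ 5958 ≤ t ^ 5997 * 1 := by
            rw [mul_one]
            exact pow_le_pow_right₀ (by linarith) (by norm_num)
        _ ≤ t ^ 5997 * ((θ / (4 * (3603 * 1202))) * t) ^ 2 :=
            mul_le_mul_of_nonneg_left (one_le_pow₀ e1) (by positivity)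
        _ = _ := by ring
    calc 𝒢'.card * t ^ 5958
        ≤ 𝒢'.card * ((θ / (4 * (3603 * 1202))) ^ 2 * (𝒢'.card * r ^ 2)) :=
          mul_le_mul_of_nonneg_left (e2.trans (by gcongr)) hG0
      _ = _ := by ring
  rw [le_div_iff₀ (by norm_num)] at h5
  rw [h3]
  linarith

/-- the same in terms of `D`, with `D + 1` distances (`0` included); `t = (2 D) ^ (1 / 1200)` -/
theorem pencilD (θ : ℝ) (hθ : 0 < θ) : ∃ C₀ : ℝ, ∀ K : ℝ, ∃ D₀ : ℕ, ∀ (P P' : Finset E3) (D : ℕ),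
    D₀ ≤ D → Few P (D + 1) → Few P' (D + 1) →
    (P.card : ℝ) ^ 2 ≤ K * (D : ℝ) ^ 3 → (P'.card : ℝ) ^ 2 ≤ K * (D : ℝ) ^ 3 →
    ∀ (𝒢 𝒢' : Finset Iso) (r σ : ℝ), (∀ h ∈ 𝒢, r ≤ ((mat P P' h).card : ℝ)) → C₀ * D ≤ r →
    (D : ℝ) ^ ((2 : ℝ) - 1 / 2400) ≤ σ * r → (D : ℝ) ^ ((5 : ℝ) - 1 / 2400) ≤ 𝒢'.card * r ^ 2 →
    ∑ g ∈ 𝒢', ((hv P P' 𝒢 σ g).card : ℝ) ≤ θ * 𝒢'.card * r := by
  obtain ⟨C₀, t₀, h₀⟩ := pencil θ hθ
  refine ⟨2 * max C₀ 1, fun K => ?_⟩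
  have ev : ∀ M : ℝ, ∀ᶠ X : ℕ in Filter.atTop, M ≤ (X : ℝ) ^ ((1 : ℝ) / 2400) := fun M =>
    ((tendsto_rpow_atTop (by norm_num)).comp tendsto_natCast_atTop_atTop).eventually_ge_atTop M
  obtain ⟨D₀, hD₀⟩ := Filter.eventually_atTop.1
    ((ev (max (max t₀ K) 32)).and (Filter.eventually_ge_atTop 1))
  refine ⟨D₀, fun P P' D hD hP hP' hn hn' 𝒢 𝒢' r σ hr hC hσ hG => ?_⟩
  obtain ⟨b1, b2⟩ := hD₀ D hD
  simp only [max_le_iff] at b1
  obtain ⟨⟨b3, b4⟩, b5⟩ := b1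
  have hD1 : (1 : ℝ) ≤ D := by exact_mod_cast b2
  set s : ℝ := (D : ℝ) ^ ((1 : ℝ) / 2400) with hs
  have hs1 : 1 ≤ s := by linarith
  have hp : ∀ k : ℕ, s ^ k = (D : ℝ) ^ ((k : ℝ) / 2400) := fun k => by
    rw [hs, ← Real.rpow_natCast, ← Real.rpow_mul (by linarith)]
    congr 1
    ring
  have hsD : s ^ 2400 = D := by
    rw [hp]
    norm_num
  set w : ℝ := (2 : ℝ) ^ ((1 : ℝ) / 1200) with hw
  have hw1 : 1 ≤ w := Real.one_le_rpow (by norm_num) (by norm_num)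
  have hw2 : w ^ 1200 = 2 := by
    rw [hw, ← Real.rpow_natCast, ← Real.rpow_mul (by norm_num)]
    norm_num
  have hss : s ≤ w * s ^ 2 := by nlinarith
  have hcard : ∀ n : ℝ, n ^ 2 ≤ K * (D : ℝ) ^ 3 → n ≤ (w * s ^ 2) ^ 1801 := fun n h => by
    refine le_of_sq_le_sq' (h.trans ?_) (by positivity)
    calc K * (D : ℝ) ^ 3 ≤ s * (s ^ 2400) ^ 3 := by rw [hsD]; gcongr
      _ = s ^ 7201 := by ring
      _ ≤ s ^ 7204 := pow_le_pow_right₀ hs1 (by norm_num)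
      _ = ((1 * s ^ 2) ^ 1801) ^ 2 := by ring
      _ ≤ _ := by gcongr
  have hbig : ∀ k : ℕ, k ≤ 6000 → (w * s ^ 2) ^ k ≤ s ^ (2 * k + 1) := fun k hk =>
    calc (w * s ^ 2) ^ k = w ^ k * s ^ (2 * k) := by rw [mul_pow, ← pow_mul]
      _ ≤ w ^ 6000 * s ^ (2 * k) := by gcongr
      _ = (w ^ 1200) ^ 5 * s ^ (2 * k) := by ring
      _ = 32 * s ^ (2 * k) := by rw [hw2]; norm_num
      _ ≤ s * s ^ (2 * k) := by gcongr
      _ = _ := by ring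
  have hm1 : (1 : ℝ) ≤ max C₀ 1 := le_max_right _ _
  have hm2 : C₀ ≤ max C₀ 1 := le_max_left _ _
  refine h₀ (w * s ^ 2) (b3.trans hss) P P' (D + 1) hP hP' ?_ (hcard _ hn) (hcard _ hn') 𝒢 𝒢' r σ hr
    (by nlinarith) ?_ ((hbig 2399 (by norm_num)).trans (le_trans (le_of_eq ?_) hσ))
    ((hbig 5999 (by norm_num)).trans (le_trans (le_of_eq ?_) hG))
  · rw [mul_pow, hw2, ← pow_mul, show 2 * 1200 = 2400 from rfl, hsD]
    push_cast
    linarith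
  · push_cast
    nlinarith
  · rw [hp]
    norm_num
  · rw [hp]
    norm_num

end Crest.Agent.R65.Pen
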