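import Crest.Agent.R65.Pen.FamDef
import Crest.Agent.R65.Pen.Main

/-! Row 65, `d = 3`: the pencil lemma and Szemeredi-Trotter in the coordinates of `D3Defs`. -/

set_option autoImplicit false

open Finset Matrix
open scoped Classical

namespace Crest.Agent.R65.D3

namespace BridgeAux

open Crest.Agent.R65.Pen (E3 Iso)

/-- coordinates to Euclidean space -/
noncomputable def te (v : V3) : E3 := WithLp.toLp 2 v

theorem te_inj : Function.Injective te := WithLp.toLp_injective 2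

theorem te_surj (x : E3) : ∃ v, te v = x := ⟨x.ofLp, rfl⟩

theorem te_add_smul (a v : V3) (c : ℝ) : te (a + c • v) = te a + c • te v := rfl

theorem te_ne {v : V3} (hv : v ≠ 0) : te v ≠ 0 := fun h => hv (te_inj h)

theorem dist_te (p q : V3) : dist (te p) (te q) = √((p - q) ⬝ᵥ (p - q)) := by
  rw [EuclideanSpace.dist_eq]
  congr 1
  refine sum_congr rfl fun i _ => ?_
  rw [Real.dist_eq, sq_abs, sq]
  rfl

theorem few {P : Finset V3} {D : ℕ} (h : ND P D) : Pen.Few (P.image te) (D + 1) := by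
  obtain ⟨T, hT, h⟩ := h
  refine ⟨insert 0 (T.image Real.sqrt), (card_insert_le _ _).trans
    (Nat.succ_le_succ (card_image_le.trans hT)), fun x hx y hy => ?_⟩
  obtain ⟨p, hp, rfl⟩ := mem_image.1 hx
  obtain ⟨q, hq, rfl⟩ := mem_image.1 hy
  by_cases e : p = q
  · rw [e, dist_self]
    exact mem_insert_self _ _
  · rw [dist_te]
    exact mem_insert_of_mem (mem_image_of_mem _ (h p hp q hq e))

theorem image_ln (a v : V3) : te '' ln a v = Pen.ln (te a) (te v) := by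
  ext x
  constructor
  · rintro ⟨y, ⟨c, rfl⟩, rfl⟩
    exact ⟨c, rfl⟩
  · rintro ⟨c, rfl⟩
    exact ⟨a + c • v, ⟨c, rfl⟩, rfl⟩

theorem isLine {l : Set V3} (h : IsLine l) : Pen.IsLine (te '' l) := by
  obtain ⟨a, v, hv, rfl⟩ := h
  exact ⟨te a, te v, te_ne hv, image_ln a v⟩

theorem card_on (Q : Finset V3) (l : Set V3) : (Pen.on (Q.image te) (te '' l)).card = cnt Q l := by
  have h : Pen.on (Q.image te) (te '' l) = (Q.filter (· ∈ l)).image te := by
    ext x
    simp only [Pen.mem_on, mem_image, mem_filter]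
    constructor
    · rintro ⟨⟨p, hp, rfl⟩, q, hq, e⟩
      exact ⟨p, ⟨hp, te_inj e ▸ hq⟩, rfl⟩
    · rintro ⟨p, ⟨hp, hl⟩, rfl⟩
      exact ⟨⟨p, hp, rfl⟩, p, hl, rfl⟩
  rw [h, card_image_of_injective _ te_inj, cnt]

/-- lines with at least two points: pairs of points -/
theorem sum_cnt_le (P : Finset E3) (Λ : Finset (Set E3)) (hΛ : ∀ m ∈ Λ, Pen.IsLine m)
    (h2 : ∀ m ∈ Λ, 2 ≤ (Pen.on P m).card) :
    ∑ m ∈ Λ, (Pen.on P m).card ≤ P.card * P.card := by
  have h1 : ∑ m ∈ Λ, (Pen.on P m).card ≤ ∑ m ∈ Λ, (Pen.on P m).offDiag.card :=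
    sum_le_sum fun m hm => by
      rw [offDiag_card]
      have := Nat.mul_le_mul_right (Pen.on P m).card (h2 m hm)
      omega
  refine h1.trans ?_
  rw [← card_biUnion, ← card_product]
  · refine card_le_card fun a ha => ?_
    obtain ⟨m, -, ha⟩ := mem_biUnion.1 ha
    obtain ⟨b1, b2, -⟩ := mem_offDiag.1 ha
    exact mem_product.2 ⟨(Pen.mem_on.1 b1).1, (Pen.mem_on.1 b2).1⟩
  · intro m hm m' hm' hne
    refine disjoint_left.2 fun a ha ha' => hne ?_
    obtain ⟨b1, b2, b3⟩ := mem_offDiag.1 ha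
    obtain ⟨c1, c2, -⟩ := mem_offDiag.1 ha'
    exact (hΛ m hm).eq_of_two (hΛ m' hm') b3 (Pen.mem_on.1 b1).2 (Pen.mem_on.1 b2).2
      (Pen.mem_on.1 c1).2 (Pen.mem_on.1 c2).2

/-- inverse of `1 + s × ·` -/
noncomputable def cay (s w : V3) : V3 := (1 + s ⬝ᵥ s)⁻¹ • (w - s ⨯₃ w + (s ⬝ᵥ w) • s)

theorem one_add_ne (s : V3) : 1 + s ⬝ᵥ s ≠ 0 := by
  have : 0 ≤ s ⬝ᵥ s := sum_nonneg fun i _ => mul_self_nonneg _
  linarith

theorem cay_left (s v : V3) : cay s (v + s ⨯₃ v) = v := by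
  have h := one_add_ne s
  rw [cay, inv_smul_eq_iff₀ h]
  ext i
  fin_cases i <;>
    simp [cross_apply, dotProduct, Fin.sum_univ_three, Matrix.vecHead, Matrix.vecTail] <;> ring

theorem cay_right (s w : V3) : cay s w + s ⨯₃ cay s w = w := by
  have h := one_add_ne s
  rw [cay, map_smul, ← smul_add, inv_smul_eq_iff₀ h]
  ext i
  fin_cases i <;>
    simp [cross_apply, dotProduct, Fin.sum_univ_three, Matrix.vecHead, Matrix.vecTail] <;> ring

theorem on_iff (g : Pt) (p p' : V3) : On g (p, p') ↔ p' = cay g.1 (p - g.1 ⨯₃ p - g.2) := by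
  have e : On g (p, p') ↔ p' + g.1 ⨯₃ p' = p - g.1 ⨯₃ p - g.2 := by
    unfold On
    rw [map_add]
    constructor <;> intro h
    · linear_combination -h
    · linear_combination -h
  rw [e]
  constructor
  · intro h
    rw [← h, cay_left]
  · rintro rfl
    exact cay_right _ _

theorem on_swap (g : Pt) (p p' : V3) : On (-g.1, -g.2) (p', p) ↔ On g (p, p') := by
  unfold On
  simp only [map_neg, LinearMap.neg_apply, add_comm p' p]
  constructor <;> intro h
  · linear_combination -h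
  · linear_combination -h

theorem on_dist {g : Pt} {p p' q q' : V3} (h1 : On g (p, p')) (h2 : On g (q, q')) :
    (p' - q') ⬝ᵥ (p' - q') = (p - q) ⬝ᵥ (p - q) := by
  unfold On at h1 h2
  have h3 : (p - q) - (p' - q') = g.1 ⨯₃ ((p - q) + (p' - q')) := by
    have e : (p - q) + (p' - q') = (p + p') - (q + q') := by abel
    rw [e, map_sub]
    linear_combination h1 - h2
  have h4 : ((p - q) + (p' - q')) ⬝ᵥ ((p - q) - (p' - q')) = 0 := by
    rw [h3]
    exact dot_cross_self _ _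
  generalize p - q = a at h4 ⊢
  generalize p' - q' = b at h4 ⊢
  rw [add_dotProduct, dotProduct_sub, dotProduct_sub, dotProduct_comm b a] at h4
  linarith

theorem exists_iso (g : Pt) : ∃ φ : Iso, ∀ p p', On g (p, p') ↔ φ (te p) = te p' := by
  let f : E3 → E3 := fun x => te (cay g.1 (x.ofLp - g.1 ⨯₃ x.ofLp - g.2))
  have hf : ∀ p p', On g (p, p') ↔ f (te p) = te p' := fun p p' => by
    rw [on_iff]
    exact ⟨fun h => congrArg te h.symm, fun h => (te_inj h).symm⟩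
  have h1 : Isometry f := Isometry.of_dist_eq fun x y => by
    obtain ⟨p, rfl⟩ := te_surj x
    obtain ⟨q, rfl⟩ := te_surj y
    obtain ⟨p', hp⟩ := te_surj (f (te p))
    obtain ⟨q', hq⟩ := te_surj (f (te q))
    rw [← hp, ← hq, dist_te, dist_te, on_dist ((hf _ _).2 hp.symm) ((hf _ _).2 hq.symm)]
  have h2 : Function.Surjective f := fun y => by
    obtain ⟨p', rfl⟩ := te_surj y
    exact ⟨te _, (hf _ _).1 ((on_swap g _ p').1 ((on_iff _ _ _).2 rfl))⟩
  exact ⟨(IsometryEquiv.mk (Equiv.ofBijective f ⟨h1.injective, h2⟩) h1).toRealAffineIsometryEquiv,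
    hf⟩

theorem flat_ext {g h : Pt} (H : ∀ p p', On g (p, p') → On h (p, p')) : g = h := by
  have key : ∀ b : V3, g.1 ⨯₃ b + g.2 = h.1 ⨯₃ b + h.2 := fun b => by
    have e1 : (1 / 2 : ℝ) • (b + (g.1 ⨯₃ b + g.2)) + (1 / 2 : ℝ) • (b - (g.1 ⨯₃ b + g.2)) = b := by
      module
    have e2 : (1 / 2 : ℝ) • (b + (g.1 ⨯₃ b + g.2)) - (1 / 2 : ℝ) • (b - (g.1 ⨯₃ b + g.2)) =
        g.1 ⨯₃ b + g.2 := by module
    have := H ((1 / 2 : ℝ) • (b + (g.1 ⨯₃ b + g.2))) ((1 / 2 : ℝ) • (b - (g.1 ⨯₃ b + g.2)))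
      (by unfold On; rw [e1, e2])
    unfold On at this
    rwa [e1, e2] at this
  have h2 : g.2 = h.2 := by simpa using key 0
  have h3 : ∀ b : V3, g.1 ⨯₃ b = h.1 ⨯₃ b := fun b => by
    have := key b
    rwa [h2, add_left_inj] at this
  have a := h3 ![1, 0, 0]
  have b := h3 ![0, 1, 0]
  have a1 := congrFun a 1
  have a2 := congrFun a 2
  have b2 := congrFun b 2
  simp [cross_apply] at a1 a2 b2
  refine Prod.ext ?_ h2
  ext i
  fin_cases i <;> simpa

theorem on_axis {h : Pt} {s v p p' : V3} {τ : ℝ} (hs : h.1 = s + τ • v) (hx : On h (p, p'))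
    (c : ℝ) : On h (p + c • (v + s ⨯₃ v), p' + c • (v - s ⨯₃ v)) := by
  unfold On at hx ⊢
  have e : p + c • (v + s ⨯₃ v) + (p' + c • (v - s ⨯₃ v)) = (p + p') + (2 * c) • v := by module
  have e2 : h.1 ⨯₃ v = s ⨯₃ v := by
    rw [hs, map_add, map_smul, LinearMap.add_apply, LinearMap.smul_apply, cross_self, smul_zero,
      add_zero]
  dsimp only at hx ⊢
  rw [e, map_add, map_smul, e2]
  linear_combination (norm := module) hx

end BridgeAux

open BridgeAux

theorem stStmt : STStmt := by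
  obtain ⟨C, hC, h⟩ := Pen.st3
  refine ⟨3 * C + 88 ^ 2, by linarith, fun Q k L hk hL => ?_⟩
  have hinj : Function.Injective fun l : Set V3 => te '' l := Set.image_injective.2 te_inj
  have e : ∑ l ∈ L, (cnt Q l : ℝ) =
      ∑ m ∈ L.image (fun l => te '' l), ((Pen.on (Q.image te) m).card : ℝ) := by
    rw [sum_image fun a _ b _ e => hinj e]
    exact sum_congr rfl fun l _ => by rw [card_on]
  have h1 : ∀ m ∈ L.image (fun l => te '' l), Pen.IsLine m ∧ k ≤ (Pen.on (Q.image te) m).card := by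
    intro m hm
    obtain ⟨l, hl, rfl⟩ := mem_image.1 hm
    rw [card_on]
    exact ⟨isLine (hL l hl).1, (hL l hl).2⟩
  have hk0 : (0 : ℝ) < k := by exact_mod_cast (by omega : 0 < k)
  have hn : (0 : ℝ) ≤ Q.card := Nat.cast_nonneg _
  have hx : (0 : ℝ) ≤ (Q.card : ℝ) ^ 2 / (k : ℝ) ^ 2 := by positivity
  rw [e]
  rcases le_total (88 : ℝ) k with hk' | hk'
  · obtain ⟨h2, h3⟩ := h (Q.image te) _ fun m hm => (h1 m hm).1
    have h4 := h2 k hk' fun m hm => by exact_mod_cast (h1 m hm).2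
    have h5 := h3 k hk'
    rw [card_image_of_injective _ te_inj] at h4 h5
    have h6 := mul_le_mul_of_nonneg_left h4 (by positivity : (0 : ℝ) ≤ 2 * k)
    have h7 : 2 * (k : ℝ) * (C * ((Q.card : ℝ) ^ 2 / (k : ℝ) ^ 3 + Q.card / k)) =
        2 * C * ((Q.card : ℝ) ^ 2 / (k : ℝ) ^ 2 + Q.card) := by
      field_simp
    nlinarith
  · have h2 := sum_cnt_le (Q.image te) _ (fun m hm => (h1 m hm).1) fun m hm => hk.trans (h1 m hm).2
    rw [card_image_of_injective _ te_inj] at h2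
    have h3 : ∑ m ∈ L.image (fun l => te '' l), ((Pen.on (Q.image te) m).card : ℝ) ≤
        (Q.card : ℝ) ^ 2 := by
      rw [sq]
      exact_mod_cast h2
    have h4 : (Q.card : ℝ) ^ 2 ≤ 88 ^ 2 * ((Q.card : ℝ) ^ 2 / (k : ℝ) ^ 2) := by
      rw [← mul_div_assoc, le_div_iff₀ (by positivity), mul_comm]
      gcongr
    nlinarith [mul_nonneg hC.le hx, mul_nonneg hC.le hn]

theorem penFam : PenFamStmt := by
  refine ⟨1 / 2400, by norm_num, fun θ hθ => ?_⟩
  obtain ⟨C₀, h₀⟩ := Pen.pencilD θ hθ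
  refine ⟨C₀, fun M => ?_⟩
  obtain ⟨D₀, h₁⟩ := h₀ M
  refine ⟨D₀, fun D hD P₁ P₂ hP₁ hP₂ hn₁ hn₂ G G' r σ hr hC hσ hG => ?_⟩
  choose φ hφ using exists_iso
  have hinj : Function.Injective φ := fun g h e =>
    flat_ext fun p p' hp => (hφ h p p').2 (e ▸ (hφ g p p').1 hp)
  have hmem : ∀ g, ∀ x ∈ mt P₁ P₂ g, te x.1 ∈ Pen.mat (P₁.image te) (P₂.image te) (φ g) := by
    intro g x hx
    obtain ⟨a, b⟩ := mem_filter.1 hx
    obtain ⟨a1, a2⟩ := mem_product.1 a
    refine Pen.mem_mat.2 ⟨mem_image_of_mem _ a1, ?_⟩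
    rw [(hφ g x.1 x.2).1 b]
    exact mem_image_of_mem _ a2
  have hio : ∀ g, Set.InjOn (fun x : Pt => te x.1) (mt P₁ P₂ g : Set Pt) := by
    intro g x hx y hy e
    have a := (hφ g x.1 x.2).1 (mem_filter.1 (mem_coe.1 hx)).2
    have b := (hφ g y.1 y.2).1 (mem_filter.1 (mem_coe.1 hy)).2
    dsimp only at e
    exact Prod.ext (te_inj e) (te_inj (by rw [← a, ← b, e]))
  have h2 := h₁ (P₁.image te) (P₂.image te) D hD (few hP₁) (few hP₂)
    (by rwa [card_image_of_injective _ te_inj]) (by rwa [card_image_of_injective _ te_inj])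
    (G.image φ) (G'.image φ) r σ (fun h hh => by
      obtain ⟨g, hg, rfl⟩ := mem_image.1 hh
      refine (hr g hg).trans ?_
      exact_mod_cast card_le_card_of_injOn _ (fun x hx => mem_coe.2 (hmem g x (mem_coe.1 hx)))
        (hio g)) hC hσ (by rwa [card_image_of_injective _ hinj])
  rw [sum_image fun a _ b _ e => hinj e, card_image_of_injective _ hinj] at h2
  refine le_trans (sum_le_sum fun g _ => ?_) h2
  refine Nat.cast_le.2 (card_le_card_of_injOn (fun x : Pt => te x.1) (fun x hx => ?_)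
    ((hio g).mono (coe_subset.2 (filter_subset _ _))))
  obtain ⟨hx1, l, ⟨a, v, hv, rfl⟩, ⟨c₀, hc₀⟩, hx2⟩ := mem_filter.1 (mem_coe.1 hx)
  have hne : v + g.1 ⨯₃ v ≠ 0 := fun e => hv (by
    have := cay_left g.1 v
    rw [e] at this
    rw [← this]
    simp [cay])
  refine mem_coe.2 (mem_filter.2 ⟨hmem g x hx1, Pen.ln (te x.1) (te (v + g.1 ⨯₃ v)),
    ⟨_, _, te_ne hne, rfl⟩, Pen.self_mem_ln _ _, hx2.trans ?_⟩)
  refine Nat.cast_le.2 (card_le_card_of_injOn φ (fun h hh => ?_) hinj.injOn)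
  obtain ⟨b1, b2, c, hc⟩ := mem_filter.1 (mem_coe.1 hh)
  refine mem_coe.2 (mem_filter.2 ⟨mem_image_of_mem _ b1, ?_⟩)
  rintro y ⟨t, rfl⟩
  have e1 : h.1 = g.1 + (c - c₀) • v := by
    rw [hc, hc₀]
    module
  have e2 : g.1 = g.1 + (0 : ℝ) • v := by simp
  rw [← te_add_smul, (hφ h _ _).1 (on_axis e1 b2 t),
    (hφ g _ _).1 (on_axis e2 (mem_filter.1 hx1).2 t)]

end Crest.Agent.R65.D3
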