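import Crest.Agent.R65.Pen.Defs
import Crest.Agent.R33.Cross

/-! Row 65, `d = 3`, pencils: ellipses are curves. -/

set_option autoImplicit false

namespace Crest.Agent.R65.Pen

open Finset
open scoped Classical
open Crest.Agent.R33 (E2 InCell)

namespace CrvEAux

/-- rational parametrisation -/
noncomputable def gam (c a b : E2) (t : ℝ) : E2 :=
  c + ((1 - t ^ 2) / (1 + t ^ 2)) • a + (2 * t / (1 + t ^ 2)) • b

theorem gam_apply (c a b : E2) (t : ℝ) (k : Fin 2) :
    gam c a b t k = c k + (1 - t ^ 2) / (1 + t ^ 2) * a k + 2 * t / (1 + t ^ 2) * b k := rfl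

theorem gam_mem (c a b : E2) (t : ℝ) : gam c a b t ∈ ell c a b := by
  refine ⟨_, _, ?_, rfl⟩
  have : 1 + t ^ 2 ≠ 0 := by positivity
  field_simp
  ring

theorem surj {c a b p : E2} (hp : p ∈ ell c a b) : p = c - a ∨ ∃ t, p = gam c a b t := by
  obtain ⟨α, β, h1, rfl⟩ := hp
  by_cases hx : 1 + α = 0
  · left
    have h2 : α = -1 := by linarith
    have h3 : β = 0 := by
      have : β ^ 2 = 0 := by rw [h2] at h1; linarith
      exact pow_eq_zero_iff two_ne_zero |>.1 this
    rw [h2, h3, zero_smul, add_zero, neg_one_smul, sub_eq_add_neg]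
  · right
    refine ⟨β / (1 + α), ?_⟩
    set t := β / (1 + α) with ht
    have ht' : β = t * (1 + α) := by rw [ht, div_mul_cancel₀ _ hx]
    have h4 : (1 + t ^ 2) * (1 + α) = 2 := by
      apply mul_right_cancel₀ hx
      rw [ht'] at h1
      linear_combination h1
    have h0 : 1 + t ^ 2 ≠ 0 := by positivity
    have h5 : α = (1 - t ^ 2) / (1 + t ^ 2) := by
      rw [eq_div_iff h0]
      linear_combination h4
    have h6 : β = 2 * t / (1 + t ^ 2) := by
      rw [eq_div_iff h0]
      linear_combination (1 + t ^ 2) * ht' + t * h4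
    show _ = c + ((1 - t ^ 2) / (1 + t ^ 2)) • a + (2 * t / (1 + t ^ 2)) • b
    rw [← h5, ← h6]

theorem par (c a b : E2) (f : MvPolynomial (Fin 2) ℝ) :
    ∃ g : Polynomial ℝ, g.natDegree ≤ 2 * f.totalDegree ∧
      ∀ t, g.eval t = (1 + t ^ 2) ^ f.totalDegree * ev f (gam c a b t) := by
  have h2 : ∀ a b c : ℝ, (Polynomial.C a * Polynomial.X ^ 2 + Polynomial.C b * Polynomial.X +
      Polynomial.C c).natDegree ≤ 2 := fun a b c => Polynomial.natDegree_quadratic_le
  obtain ⟨g, hg1, hg2⟩ := Crest.Agent.R33.cross_hom f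
    (fun k => Polynomial.C (c k - a k) * Polynomial.X ^ 2 + Polynomial.C (2 * b k) * Polynomial.X +
        Polynomial.C (c k + a k))
    (Polynomial.C 1 * Polynomial.X ^ 2 + Polynomial.C 0 * Polynomial.X + Polynomial.C 1)
    (fun k => h2 _ _ _) (h2 _ _ _)
  refine ⟨g, hg1, fun t => ?_⟩
  have h0 : 1 + t ^ 2 ≠ 0 := by positivity
  have h3 : (Polynomial.C 1 * Polynomial.X ^ 2 + Polynomial.C 0 * Polynomial.X +
      Polynomial.C 1 : Polynomial ℝ).eval t = 1 + t ^ 2 := by
    simp only [Polynomial.eval_add, Polynomial.eval_mul, Polynomial.eval_C, Polynomial.eval_pow,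
      Polynomial.eval_X]
    ring
  rw [hg2 t (fun k => gam c a b t k) fun k => ?_, h3]
  · rfl
  · rw [h3, gam_apply]
    simp only [Polynomial.eval_add, Polynomial.eval_mul, Polynomial.eval_C, Polynomial.eval_pow,
      Polynomial.eval_X]
    field_simp
    ring

theorem cross (c a b : E2) {j : ℕ} (f : Fin j → MvPolynomial (Fin 2) ℝ) :
    (univ.filter fun sg : Fin j → Bool => ∃ p ∈ ell c a b, InCell f sg p).card ≤
      2 * (∑ i, (f i).totalDegree) + 2 := by
  choose g hg1 hg2 using fun i => par c a b (f i)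
  have h1 := Crest.Agent.R33.cross_card_sign g
  have h3 : ∑ i, (g i).natDegree ≤ 2 * ∑ i, (f i).totalDegree := by
    rw [mul_sum]
    exact sum_le_sum fun i _ => hg1 i
  refine le_trans (card_le_card (t := insert
    (fun i => decide (0 < ev (f i) (c - a)))
    (univ.filter fun sg : Fin j → Bool =>
      ∃ t : ℝ, ∀ i, if sg i then 0 < (g i).eval t else (g i).eval t < 0)) fun sg hsg => ?_)
    ((card_insert_le _ _).trans (by omega))
  obtain ⟨p, hp, hin⟩ := (mem_filter.1 hsg).2
  rw [mem_insert]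
  rcases surj hp with rfl | ⟨t, rfl⟩
  · left
    funext i
    have : if sg i then 0 < ev (f i) (c - a) else ev (f i) (c - a) < 0 := hin i
    split_ifs at this with h
    · rw [h, decide_eq_true this]
    · rw [Bool.eq_false_iff.2 h, decide_eq_false (not_lt.2 this.le)]
  · right
    refine mem_filter.2 ⟨mem_univ _, t, fun i => ?_⟩
    have h6 : 0 < (1 + t ^ 2) ^ (f i).totalDegree := by positivity
    have : if sg i then 0 < ev (f i) (gam c a b t) else ev (f i) (gam c a b t) < 0 := hin i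
    rw [hg2]
    split_ifs at this ⊢
    · exact mul_pos h6 this
    · exact mul_neg_of_pos_of_neg h6 this

theorem zero (c a b : E2) (f : MvPolynomial (Fin 2) ℝ) {t₀ : ℝ} (h : ev f (gam c a b t₀) ≠ 0)
    (T : Finset E2) (hT : ∀ p ∈ T, p ∈ ell c a b ∧ ev f p = 0) :
    T.card ≤ 2 * f.totalDegree + 1 := by
  obtain ⟨g, hg1, hg2⟩ := par c a b f
  have hg : g ≠ 0 := fun h0 => by
    have h1 := hg2 t₀
    rw [h0, Polynomial.eval_zero] at h1
    have h2 : (1 + t₀ ^ 2) ^ f.totalDegree ≠ 0 := by positivity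
    exact mul_ne_zero h2 h h1.symm
  have h1 : T ⊆ insert (c - a) (g.roots.toFinset.image (gam c a b)) := fun p hp => by
    rcases surj (hT p hp).1 with h2 | ⟨t, h2⟩
    · exact mem_insert.2 (Or.inl h2)
    · refine mem_insert.2 (Or.inr (mem_image.2 ⟨t, ?_, h2.symm⟩))
      rw [Multiset.mem_toFinset, Polynomial.mem_roots hg, Polynomial.IsRoot.def, hg2, ← h2,
        (hT p hp).2, mul_zero]
  have h2 : g.roots.toFinset.card ≤ g.natDegree :=
    (Multiset.toFinset_card_le _).trans (Polynomial.card_roots' _)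
  have h3 := card_image_le (s := g.roots.toFinset) (f := gam c a b)
  have h4 := card_le_card h1
  have h5 := card_insert_le (c - a) (g.roots.toFinset.image (gam c a b))
  omega

theorem neg_eq (c a b : E2) : ell c a b = ell c (-a) b := by
  have key : ∀ a : E2, ell c a b ⊆ ell c (-a) b := by
    rintro a p ⟨α, β, h1, rfl⟩
    exact ⟨-α, β, by rw [neg_sq]; exact h1, by rw [neg_smul_neg]⟩
  refine Set.Subset.antisymm (key a) ?_
  have := key (-a)
  rwa [neg_neg] at this

theorem ev_aeval (A : MvPolynomial (Fin 2) ℝ) (r : Polynomial ℝ) (x : Fin 2 → ℝ) :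
    MvPolynomial.eval x (Polynomial.aeval A r) = r.eval (MvPolynomial.eval x A) := by
  induction r using Polynomial.induction_on' with
  | add p q hp hq => rw [map_add, map_add, hp, hq, Polynomial.eval_add]
  | monomial n a =>
    rw [Polynomial.aeval_monomial, map_mul, map_pow, Polynomial.eval_monomial,
      MvPolynomial.algebraMap_eq, MvPolynomial.eval_C]

theorem red (A B : MvPolynomial (Fin 2) ℝ) (c a b : E2)
    (hX : ∀ k, MvPolynomial.X k =
      MvPolynomial.C (c k) + MvPolynomial.C (a k) * A + MvPolynomial.C (b k) * B)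
    (f : MvPolynomial (Fin 2) ℝ) : ∃ (g : MvPolynomial (Fin 2) ℝ) (r₀ r₁ : Polynomial ℝ),
      f = (A ^ 2 + B ^ 2 - 1) * g + Polynomial.aeval A r₀ + B * Polynomial.aeval A r₁ := by
  induction f using MvPolynomial.induction_on with
  | C x =>
    refine ⟨0, Polynomial.C x, 0, ?_⟩
    rw [Polynomial.aeval_C, map_zero, mul_zero, mul_zero, zero_add, add_zero,
      MvPolynomial.algebraMap_eq]
  | add p q hp hq =>
    obtain ⟨g, r₀, r₁, rfl⟩ := hp
    obtain ⟨g', r₀', r₁', rfl⟩ := hq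
    refine ⟨g + g', r₀ + r₀', r₁ + r₁', ?_⟩
    rw [map_add, map_add]
    ring
  | mul_X p k hp =>
    obtain ⟨g, r₀, r₁, rfl⟩ := hp
    refine ⟨g * MvPolynomial.X k + MvPolynomial.C (b k) * Polynomial.aeval A r₁,
      r₀ * (Polynomial.C (c k) + Polynomial.C (a k) * Polynomial.X) +
        Polynomial.C (b k) * (1 - Polynomial.X ^ 2) * r₁,
      r₁ * (Polynomial.C (c k) + Polynomial.C (a k) * Polynomial.X) + Polynomial.C (b k) * r₀, ?_⟩
    simp only [map_add, map_mul, map_sub, map_one, map_pow, Polynomial.aeval_C, Polynomial.aeval_X,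
      MvPolynomial.algebraMap_eq]
    rw [hX k]
    ring

theorem coords {c a b : E2} (h : a 0 * b 1 - a 1 * b 0 ≠ 0) :
    ∃ A B : MvPolynomial (Fin 2) ℝ, (∀ k, MvPolynomial.X k =
      MvPolynomial.C (c k) + MvPolynomial.C (a k) * A + MvPolynomial.C (b k) * B) ∧
      ∀ α β : ℝ, ev A (c + α • a + β • b) = α ∧ ev B (c + α • a + β • b) = β := by
  refine ⟨MvPolynomial.C (a 0 * b 1 - a 1 * b 0)⁻¹ *
      ((MvPolynomial.X 0 - MvPolynomial.C (c 0)) * MvPolynomial.C (b 1) -
        (MvPolynomial.X 1 - MvPolynomial.C (c 1)) * MvPolynomial.C (b 0)),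
    MvPolynomial.C (a 0 * b 1 - a 1 * b 0)⁻¹ *
      (MvPolynomial.C (a 0) * (MvPolynomial.X 1 - MvPolynomial.C (c 1)) -
        MvPolynomial.C (a 1) * (MvPolynomial.X 0 - MvPolynomial.C (c 0))), ?_, fun α β => ?_⟩
  · have h1 : (MvPolynomial.C (a 0 * b 1 - a 1 * b 0)⁻¹ : MvPolynomial (Fin 2) ℝ) *
        (MvPolynomial.C (a 0) * MvPolynomial.C (b 1) -
          MvPolynomial.C (a 1) * MvPolynomial.C (b 0)) = 1 := by
      rw [← map_mul, ← map_mul, ← map_sub, ← map_mul, inv_mul_cancel₀ h, map_one]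
    rw [Fin.forall_fin_two]
    constructor
    · linear_combination (-(MvPolynomial.X 0 - MvPolynomial.C (c 0))) * h1
    · linear_combination (-(MvPolynomial.X 1 - MvPolynomial.C (c 1))) * h1
  · have e : ∀ k, (c + α • a + β • b) k = c k + α * a k + β * b k := fun k => rfl
    constructor
    · show MvPolynomial.eval _ _ = _
      simp only [map_mul, map_sub, MvPolynomial.eval_C, MvPolynomial.eval_X, e]
      field_simp
      ring
    · show MvPolynomial.eval _ _ = _
      simp only [map_mul, map_sub, MvPolynomial.eval_C, MvPolynomial.eval_X, e]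
      field_simp
      ring

end CrvEAux

/-- `cross`, `zero`: as in `R33.cross_cells`, with the parametrisation
`c + ((1 - t²) a + 2 t b) / (1 + t²)` of all points but `c - a` (`R33.cross_hom`, `C = 1 + t²`).  For `zero`: if the
polynomial in `t` is `0` then `f` vanishes on the ellipse minus one point, hence (continuity, `t → ∞`, or use the second
parametrisation with `-a`) everywhere on it.  `dvd`: `Δ = a₀ b₁ - a₁ b₀`, `α = ((X₀ - c₀) b₁ - (X₁ - c₁) b₀) / Δ`,
`β = (a₀ (X₁ - c₁) - a₁ (X₀ - c₀)) / Δ`, `Q = α² + β² - 1`.  By induction on `f`: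
`f = Q g + r₀(α) + β r₁(α)` with `r₀, r₁ : ℝ[X]` (`X_k = c_k + a_k α + b_k β`, `β² = Q + 1 - α²`).  If `f` vanishes on
the ellipse, then `r₀(s) ± √(1 - s²) r₁(s) = 0` for `s ∈ (-1, 1)`, so `r₀ = r₁ = 0`
(`Polynomial.eq_zero_of_infinite_isRoot`). -/
theorem isCrv_ell {c a b : E2} (h : a 0 * b 1 - a 1 * b 0 ≠ 0) : IsCrv (ell c a b) := by
  obtain ⟨A, B, hX, hAB⟩ := CrvEAux.coords (c := c) h
  have hQ : ∀ p, ev (A ^ 2 + B ^ 2 - 1) p = ev A p ^ 2 + ev B p ^ 2 - 1 := fun p => by
    show MvPolynomial.eval _ _ = _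
    rw [map_sub, map_add, map_pow, map_pow, map_one]
    rfl
  refine ⟨fun f => CrvEAux.cross c a b f, fun f ⟨p, hp, hf⟩ T hT => ?_, ?_,
    A ^ 2 + B ^ 2 - 1, fun p => ⟨fun hp => ?_, ?_⟩, fun f hf => ?_⟩
  · rcases CrvEAux.surj hp with h1 | ⟨t, h1⟩
    · rw [CrvEAux.neg_eq] at hT
      refine CrvEAux.zero c (-a) b f (t₀ := 0) ?_ T hT
      have h2 : CrvEAux.gam c (-a) b 0 = p := by
        rw [h1]
        ext k
        rw [CrvEAux.gam_apply]
        show c k + _ * (-a k) + _ = c k - a k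
        ring
      rwa [h2]
    · exact CrvEAux.zero c a b f (t₀ := t) (h1 ▸ hf) T hT
  · refine Set.infinite_of_injective_forall_mem (f := CrvEAux.gam c a b) (fun s t hst => ?_)
      (CrvEAux.gam_mem c a b)
    have h1 : (1 - s ^ 2) / (1 + s ^ 2) = (1 - t ^ 2) / (1 + t ^ 2) :=
      (hAB _ _).1.symm.trans ((congrArg (ev A) hst).trans (hAB _ _).1)
    have h2 : 2 * s / (1 + s ^ 2) = 2 * t / (1 + t ^ 2) :=
      (hAB _ _).2.symm.trans ((congrArg (ev B) hst).trans (hAB _ _).2)
    have h3 : 1 + s ^ 2 ≠ 0 := by positivity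
    have h4 : 1 + t ^ 2 ≠ 0 := by positivity
    rw [div_eq_div_iff h3 h4] at h1 h2
    have h5 : t ^ 2 = s ^ 2 := by linarith
    rw [h5] at h2
    have h6 := mul_right_cancel₀ h3 h2
    linarith
  · refine ⟨ev A p, ev B p, by rw [hQ] at hp; linarith, ?_⟩
    ext k
    have h1 := congrArg (MvPolynomial.eval fun k => p k) (hX k)
    rw [map_add, map_add, map_mul, map_mul, MvPolynomial.eval_C, MvPolynomial.eval_C,
      MvPolynomial.eval_C, MvPolynomial.eval_X] at h1
    show p k = c k + ev A p * a k + ev B p * b k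
    rw [h1, mul_comm (a k), mul_comm (b k)]
    rfl
  · rintro ⟨α, β, h1, rfl⟩
    rw [hQ, (hAB _ _).1, (hAB _ _).2, h1, sub_self]
  · obtain ⟨g, r₀, r₁, rfl⟩ := CrvEAux.red A B c a b hX f
    have h1 : ∀ α β : ℝ, α ^ 2 + β ^ 2 = 1 → r₀.eval α + β * r₁.eval α = 0 := by
      intro α β h1
      have h2 := hf _ ⟨α, β, h1, rfl⟩
      have h3 : ev ((A ^ 2 + B ^ 2 - 1) * g + Polynomial.aeval A r₀ + B * Polynomial.aeval A r₁)
          (c + α • a + β • b) = ev (A ^ 2 + B ^ 2 - 1) (c + α • a + β • b) *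
            ev g (c + α • a + β • b) + r₀.eval (ev A (c + α • a + β • b)) +
            ev B (c + α • a + β • b) * r₁.eval (ev A (c + α • a + β • b)) := by
        show MvPolynomial.eval _ _ = _
        rw [map_add, map_add, map_mul, map_mul, CrvEAux.ev_aeval, CrvEAux.ev_aeval]
        rfl
      rw [h3, hQ, (hAB _ _).1, (hAB _ _).2, h1, sub_self, zero_mul, zero_add] at h2
      exact h2
    have h2 : ∀ s ∈ Set.Ioo (-1 : ℝ) 1, r₀.eval s = 0 ∧ r₁.eval s = 0 := by
      intro s hs
      have h3 : 0 < 1 - s ^ 2 := by nlinarith [hs.1, hs.2]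
      have h4 : √(1 - s ^ 2) ^ 2 = 1 - s ^ 2 := Real.sq_sqrt h3.le
      have h5 := h1 s (√(1 - s ^ 2)) (by linarith)
      have h6 := h1 s (-√(1 - s ^ 2)) (by rw [neg_sq]; linarith)
      have h7 : √(1 - s ^ 2) * r₁.eval s = 0 := by linarith
      exact ⟨by linarith, (mul_eq_zero.1 h7).resolve_left (Real.sqrt_pos.2 h3).ne'⟩
    have h3 : (Set.Ioo (-1 : ℝ) 1).Infinite := Set.Ioo_infinite (by norm_num)
    have h4 : r₀ = 0 := Polynomial.eq_zero_of_infinite_isRoot _ (h3.mono fun s hs => (h2 s hs).1)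
    have h5 : r₁ = 0 := Polynomial.eq_zero_of_infinite_isRoot _ (h3.mono fun s hs => (h2 s hs).2)
    rw [h4, h5, map_zero, mul_zero, add_zero, add_zero]
    exact dvd_mul_right _ _

end Crest.Agent.R65.Pen
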