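import Crest.Agent.R65.Pen.Line

/-! Row 65, `d = 3`, pencils: projections, points in a plane. -/

set_option autoImplicit false

namespace Crest.Agent.R65.Pen

open Finset
open scoped Classical
open Crest.Agent.R33 (E2 InCell)

/-- orthogonal projection along `u` (extend `u / ‖u‖` to an orthonormal basis,
`Orthonormal.exists_orthonormalBasis_extension_of_card_eq`, `OrthonormalBasis.sum_sq_inner_right`) -/
theorem exists_pr {u : E3} (hu : u ≠ 0) : ∃ L : E3 →ₗ[ℝ] E2,
    ∀ x : E3, ‖L x‖ ^ 2 = ‖x‖ ^ 2 - (inner ℝ u x) ^ 2 / ‖u‖ ^ 2 := by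
  have : Fact (Module.finrank ℝ E3 = 2 + 1) := ⟨by simp⟩
  let U := (OrthonormalBasis.fromOrthogonalSpanSingleton (𝕜 := ℝ) 2 hu).repr
  refine ⟨U.toLinearEquiv.toLinearMap ∘ₗ ((ℝ ∙ u)ᗮ.orthogonalProjectionOnto).toLinearMap,
    fun x => ?_⟩
  have h1 := Submodule.norm_sq_eq_add_norm_sq_starProjection x (ℝ ∙ u)
  have h2 : ‖(U.toLinearEquiv.toLinearMap ∘ₗ ((ℝ ∙ u)ᗮ.orthogonalProjectionOnto).toLinearMap) x‖ =
      ‖(ℝ ∙ u)ᗮ.starProjection x‖ := U.norm_map _
  have hu' : ‖u‖ ≠ 0 := norm_ne_zero_iff.2 hu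
  have h3 : ‖(ℝ ∙ u).starProjection x‖ ^ 2 = (inner ℝ u x) ^ 2 / ‖u‖ ^ 2 := by
    rw [Submodule.starProjection_singleton, norm_smul, mul_pow, Real.norm_eq_abs, sq_abs]
    simp only [RCLike.ofReal_real_eq_id, id]
    field_simp
  rw [h2, h1, h3]
  ring

/-- equality in Cauchy–Schwarz -/
theorem pr_eq_zero {u : E3} (hu : u ≠ 0) {L : E3 →ₗ[ℝ] E2}
    (hL : ∀ x : E3, ‖L x‖ ^ 2 = ‖x‖ ^ 2 - (inner ℝ u x) ^ 2 / ‖u‖ ^ 2) (x : E3) :
    L x = 0 ↔ ∃ t : ℝ, x = t • u := by
  have hu' : ‖u‖ ≠ 0 := norm_ne_zero_iff.2 hu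
  have key : ‖x - (inner ℝ u x / ‖u‖ ^ 2) • u‖ ^ 2 = ‖L x‖ ^ 2 := by
    rw [hL, norm_sub_sq_real, norm_smul, mul_pow, Real.norm_eq_abs, sq_abs, real_inner_smul_right,
      real_inner_comm u x]
    field_simp
    ring
  constructor
  · intro h
    rw [h, norm_zero] at key
    have : x - (inner ℝ u x / ‖u‖ ^ 2) • u = 0 := by
      apply norm_eq_zero.1
      have h0 : (0 : ℝ) ^ 2 = 0 := by norm_num
      rw [h0] at key
      exact pow_eq_zero_iff (two_ne_zero) |>.1 key
    exact ⟨_, sub_eq_zero.1 this⟩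
  · rintro ⟨t, rfl⟩
    have : ‖L (t • u)‖ ^ 2 = 0 := by
      rw [hL, real_inner_smul_right, real_inner_self_eq_norm_sq, norm_smul, mul_pow,
        Real.norm_eq_abs, sq_abs]
      field_simp
      ring
    exact norm_eq_zero.1 (pow_eq_zero_iff (two_ne_zero) |>.1 this)

/-- finitely many non-zero functions that are polynomial along every line have a common non-zero
(induction: `v` good for the first ones, `w` for the new one, consider `v + s (w - v)`) -/
theorem exists_generic {ι : Type} (I : Finset ι) (G : ι → E3 → ℝ)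
    (hG : ∀ i ∈ I, ∀ v w : E3, ∃ p : Polynomial ℝ, ∀ s : ℝ, G i (v + s • w) = p.eval s)
    (h0 : ∀ i ∈ I, ∃ v, G i v ≠ 0) : ∃ v, ∀ i ∈ I, G i v ≠ 0 := by
  induction I using Finset.induction_on with
  | empty => exact ⟨0, by simp⟩
  | insert a I ha ih =>
    obtain ⟨v, hv⟩ := ih (fun i hi => hG i (mem_insert_of_mem hi))
      (fun i hi => h0 i (mem_insert_of_mem hi))
    obtain ⟨w, hw⟩ := h0 a (mem_insert_self _ _)
    have hp : ∀ i ∈ insert a I, ∃ p : Polynomial ℝ, p ≠ 0 ∧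
        ∀ s : ℝ, G i (v + s • (w - v)) = p.eval s := by
      intro i hi
      obtain ⟨p, hp⟩ := hG i hi v (w - v)
      refine ⟨p, ?_, hp⟩
      rintro rfl
      rcases mem_insert.1 hi with rfl | hi'
      · have := hp 1
        rw [one_smul, add_sub_cancel, Polynomial.eval_zero] at this
        exact hw this
      · have := hp 0
        rw [zero_smul, add_zero, Polynomial.eval_zero] at this
        exact hv i hi' this
    choose! p hp0 hp using hp
    have hP : ∏ i ∈ insert a I, p i ≠ 0 := Finset.prod_ne_zero_iff.2 hp0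
    obtain ⟨s, hs⟩ : ∃ s : ℝ, (∏ i ∈ insert a I, p i).eval s ≠ 0 := by
      by_contra hcon
      push Not at hcon
      exact hP (Polynomial.funext (by simpa using hcon))
    refine ⟨v + s • (w - v), fun i hi => ?_⟩
    rw [hp i hi]
    rw [Polynomial.eval_prod] at hs
    exact Finset.prod_ne_zero_iff.1 hs i hi

end Crest.Agent.R65.Pen
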