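import Crest.Agent.R65.Pen.Rich
import Crest.Agent.R65.Pen.CrvE
import Crest.Agent.R65.Pen.FrameA
import Crest.Agent.R65.Pen.CircA

/-! Row 65, `d = 3`, pencils: rich circles in space. -/

set_option autoImplicit false

namespace Crest.Agent.R65.Pen

open Finset
open scoped Classical
open Crest.Agent.R33 (E2 InCell)

namespace CircAux

/-- generic properties of a vector -/
def Gen (Q : E3 → Prop) : Prop :=
  ∃ G : E3 → ℝ, (∀ v w : E3, ∃ p : Polynomial ℝ, ∀ s : ℝ, G (v + s • w) = p.eval s) ∧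
    (∃ v, G v ≠ 0) ∧ ∀ v, G v ≠ 0 → Q v

theorem Gen.mono {Q Q' : E3 → Prop} (h : Gen Q) (h' : ∀ v, Q v → Q' v) : Gen Q' := by
  obtain ⟨G, h1, h2, h3⟩ := h
  exact ⟨G, h1, h2, fun v hv => h' v (h3 v hv)⟩

theorem Gen.ex {Q : E3 → Prop} (h : Gen Q) : ∃ v, Q v := by
  obtain ⟨G, -, ⟨v, hv⟩, h3⟩ := h
  exact ⟨v, h3 v hv⟩

theorem Gen.triv {Q : E3 → Prop} (h : ∀ v, Q v) : Gen Q :=
  ⟨fun _ => 1, fun _ _ => ⟨1, by simp⟩, ⟨0, one_ne_zero⟩, fun v _ => h v⟩

theorem Gen.all {ι : Type} (I : Finset ι) (Q : ι → E3 → Prop) (h : ∀ i ∈ I, Gen (Q i)) :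
    Gen fun v => ∀ i ∈ I, Q i v := by
  choose! G h1 h2 h3 using h
  refine ⟨fun v => ∏ i ∈ I, G i v, fun v w => ?_, ?_, fun v hv i hi =>
    h3 i hi v (prod_ne_zero_iff.1 hv i hi)⟩
  · choose! p hp using fun i hi => h1 i hi v w
    exact ⟨∏ i ∈ I, p i, fun s => by
      rw [Polynomial.eval_prod]; exact prod_congr rfl fun i hi => hp i hi s⟩
  · obtain ⟨v, hv⟩ := exists_generic I G h1 h2
    exact ⟨v, prod_ne_zero_iff.2 hv⟩

theorem Gen.and {Q Q' : E3 → Prop} (h : Gen Q) (h' : Gen Q') : Gen fun v => Q v ∧ Q' v :=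
  (Gen.all (univ : Finset Bool) (fun b => cond b Q Q') fun b _ => by cases b <;> assumption).mono
    fun _ hv => ⟨hv true (mem_univ _), hv false (mem_univ _)⟩

theorem gen_inner {u : E3} (hu : u ≠ 0) : Gen fun v => inner ℝ u v ≠ 0 :=
  ⟨fun v => inner ℝ u v, fun v w => ⟨Polynomial.C (inner ℝ u v) +
    Polynomial.X * Polynomial.C (inner ℝ u w), fun s => by
      simp only [inner_add_right, inner_smul_right, Polynomial.eval_add, Polynomial.eval_mul,
        Polynomial.eval_C, Polynomial.eval_X]⟩,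
    ⟨u, fun h => hu (inner_self_eq_zero.1 h)⟩, fun _ h => h⟩

theorem gen_par (y : E3) : Gen fun v => ∀ t : ℝ, y = t • v → y = 0 := by
  obtain ⟨w, h1, h2, -⟩ := exists_orth y y
  refine (gen_inner (u := w) (by rintro rfl; simp at h1)).mono fun v hv t ht => ?_
  rw [ht, inner_smul_right, mul_eq_zero] at h2
  rw [ht, h2.resolve_right hv, zero_smul]

theorem gen_circ {Γ : Set E3} (hΓ : IsCirc Γ) {x : E3} (hx : x ∉ Γ) :
    Gen fun v => ∀ s : ℝ, x + s • v ∉ Γ := by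
  obtain ⟨o, u, ρ, hu, hρ, rfl⟩ := hΓ
  let A : E3 → E3 := fun v => inner ℝ u v • (x - o) - inner ℝ u (x - o) • v
  refine ⟨fun v => ‖A v‖ ^ 2 - ρ ^ 2 * inner ℝ u v ^ 2, fun v w => ?_, ?_, fun v hv s hs => hv ?_⟩
  · refine ⟨Polynomial.C (‖A v‖ ^ 2) + Polynomial.C (2 * inner ℝ (A v) (A w)) * Polynomial.X +
      Polynomial.C (‖A w‖ ^ 2) * Polynomial.X ^ 2 - Polynomial.C (ρ ^ 2) *
        (Polynomial.C (inner ℝ u v) + Polynomial.C (inner ℝ u w) * Polynomial.X) ^ 2, fun s => ?_⟩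
    have e : A (v + s • w) = A v + s • A w := by
      simp only [A, inner_add_right, inner_smul_right]
      module
    simp only [e, norm_add_sq_real, inner_add_right, inner_smul_right, norm_smul, mul_pow,
      Real.norm_eq_abs, sq_abs, Polynomial.eval_sub, Polynomial.eval_add, Polynomial.eval_mul,
      Polynomial.eval_pow, Polynomial.eval_C, Polynomial.eval_X]
    ring
  · by_cases h : inner ℝ u (x - o) = 0
    · refine ⟨u, fun h0 => hx ⟨h, ?_⟩⟩
      have h1 : inner ℝ u u ≠ 0 := fun h => hu (inner_self_eq_zero.1 h)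
      simp only [A, h, zero_smul, sub_zero, norm_smul, mul_pow, Real.norm_eq_abs, sq_abs] at h0
      have h2 : ‖x - o‖ ^ 2 = ρ ^ 2 := mul_left_cancel₀ (pow_ne_zero 2 h1) (by linarith)
      rw [dist_eq_norm]
      exact (pow_left_inj₀ (norm_nonneg _) hρ.le two_ne_zero).1 h2
    · obtain ⟨w, h1, h2, -⟩ := exists_orth u u
      rw [real_inner_comm] at h2
      refine ⟨w, ?_⟩
      simp [A, h2, norm_smul, h1, h]
  · obtain ⟨h1, h2⟩ := hs
    have e : x + s • v - o = x - o + s • v := by abel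
    rw [dist_eq_norm, e] at h2
    rw [e, inner_add_right, inner_smul_right] at h1
    have e2 : A v = inner ℝ u v • (x - o + s • v) := by
      simp only [A, eq_neg_of_add_eq_zero_left h1]
      module
    show ‖A v‖ ^ 2 - _ = 0
    rw [e2, norm_smul, h2, mul_pow, Real.norm_eq_abs, sq_abs]
    ring

theorem isCrv_image {o u v : E3} {ρ : ℝ} (hu : u ≠ 0) (hρ : 0 < ρ) (huv : inner ℝ u v ≠ 0)
    (L : E3 →ₗ[ℝ] E2) (hL : ∀ x, L x = 0 → ∃ t : ℝ, x = t • v) : IsCrv (L '' circ o u ρ) := by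
  obtain ⟨a, b, ha, hb, hab, na, nb, e⟩ := circ_param (o := o) hu hρ
  have ind : ∀ s t : ℝ, s • L a + t • L b = 0 → s = 0 ∧ t = 0 := by
    intro s t h
    obtain ⟨τ, hτ⟩ := hL (s • a + t • b) (by rw [map_add, map_smul, map_smul, h])
    have h1 := congrArg (inner ℝ u) hτ
    rw [inner_add_right, inner_smul_right, inner_smul_right, inner_smul_right, ha, hb, mul_zero,
      mul_zero, add_zero, eq_comm, mul_eq_zero] at h1
    rw [h1.resolve_right huv, zero_smul] at hτ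
    have h2 := congrArg (inner ℝ a) hτ
    have h3 := congrArg (inner ℝ b) hτ
    rw [inner_add_right, inner_smul_right, inner_smul_right, hab, real_inner_self_eq_norm_sq, na,
      inner_zero_right, mul_zero, add_zero] at h2
    rw [inner_add_right, inner_smul_right, inner_smul_right, real_inner_comm, hab,
      real_inner_self_eq_norm_sq, nb, inner_zero_right, mul_zero, zero_add] at h3
    exact ⟨(mul_eq_zero.1 h2).resolve_right (by positivity),
      (mul_eq_zero.1 h3).resolve_right (by positivity)⟩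
  have e2 : L '' circ o u ρ = ell (L o) (L a) (L b) := by
    rw [e]
    ext y
    constructor
    · rintro ⟨_, ⟨α, β, h, rfl⟩, rfl⟩
      exact ⟨α, β, h, by simp⟩
    · rintro ⟨α, β, h, rfl⟩
      exact ⟨_, ⟨α, β, h, rfl⟩, by simp⟩
  rw [e2]
  refine isCrv_ell fun hd => ?_
  have h1 := (ind (L b 1) (-L a 1) (by
    ext i
    fin_cases i <;> simp <;> linarith)).2
  have h2 := (ind (L b 0) (-L a 0) (by
    ext i
    fin_cases i <;> simp <;> linarith)).2
  refine one_ne_zero (ind 1 0 ?_).1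
  ext i
  fin_cases i <;> simp <;> linarith

end CircAux

open CircAux in
/-- `rich 3`.  Project along a generic `v` (`exists_generic`, `exists_pr`): `v ∦ p - q`; `inner u v ≠ 0` for the normal
`u` of every circle (then `L a`, `L b` are independent, so their determinant is `≠ 0`, and
`L '' Γ = ell (L o) (L a) (L b)`, `circ_param`); for `Γ ≠ Γ' = circ o u ρ` and a point `x ∈ Γ \ Γ'` (`eq_of_subset`)
`G v = ‖⟨u,v⟩ (x - o) - ⟨u, x - o⟩ v‖² - ρ² ⟨u,v⟩² ≠ 0` (`G ≢ 0`: if `⟨u, x - o⟩ ≠ 0` take `v ⟂ u`, else `v = u`); then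
`x + s v ∉ Γ'` for all `s`, i.e. `L x ∉ L '' Γ'`.  Two circles share `< 3` points (`eq_of_three`). -/
theorem circles3 : ∃ C : ℝ, 0 < C ∧ ∀ (P : Finset E3) (𝒞 : Finset (Set E3)) (k : ℝ),
    (∀ Γ ∈ 𝒞, IsCirc Γ) → 132 ≤ k → (∀ Γ ∈ 𝒞, k ≤ ((on P Γ).card : ℝ)) →
    (𝒞.card : ℝ) ≤ C * (P.card : ℝ) ^ 3 / k ^ 5 + k := by
  obtain ⟨C, hC, hr⟩ := rich 3 (by norm_num)
  refine ⟨C, hC, fun P 𝒞 k h𝒞 hk hk' => ?_⟩
  choose! o u ρ hu hρ he using h𝒞
  have hc : ∀ Γ ∈ 𝒞, IsCirc Γ := fun Γ h => ⟨_, _, _, hu Γ h, hρ Γ h, he Γ h⟩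
  obtain ⟨w, hw, -⟩ := exists_orth 0 0
  have g0 := gen_inner (u := w) (by rintro rfl; simp at hw)
  have g1 := Gen.all (P ×ˢ P) _ fun a _ => gen_par (a.1 - a.2)
  have g2 := Gen.all 𝒞 _ fun Γ h => gen_inner (hu Γ h)
  have g3 := Gen.all (𝒞 ×ˢ 𝒞) (fun a v => a.1 ≠ a.2 → ∃ x ∈ a.1, ∀ s : ℝ, x + s • v ∉ a.2)
    fun a ha => by
      rw [mem_product] at ha
      by_cases h : a.1 = a.2
      · exact Gen.triv fun v h' => absurd h h'
      · obtain ⟨x, hx, hx'⟩ := Set.not_subset.1 fun hs => h ((hc _ ha.1).eq_of_subset (hc _ ha.2) hs)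
        exact (gen_circ (hc _ ha.2) hx').mono fun v hv _ => ⟨x, hx, hv⟩
  obtain ⟨v, ⟨⟨v0, v1⟩, v2⟩, v3⟩ := (((g0.and g1).and g2).and g3).ex
  have hv : v ≠ 0 := by
    rintro rfl
    simp at v0
  obtain ⟨L, hL⟩ := exists_pr hv
  have hL' : ∀ x, L x = 0 → ∃ t : ℝ, x = t • v := fun x => (pr_eq_zero hv hL x).1
  have inj : Set.InjOn L P := fun p hp q hq h => by
    obtain ⟨t, ht⟩ := hL' (p - q) (by rw [map_sub, h, sub_self])
    exact sub_eq_zero.1 (v1 (p, q) (mem_product.2 ⟨hp, hq⟩) t ht)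
  have := hr 𝒞 (P.image L) (fun Γ => L '' Γ) (fun Γ => (on P Γ).image L) k
    (fun Γ h => ?_) (fun Γ h Γ' h' hne hs => ?_) (fun Γ h => ⟨image_subset_image (filter_subset _ _),
      fun p hp => ?_⟩) (fun Γ h Γ' h' hne => ?_) (by push_cast; linarith) fun Γ h => ?_
  · rwa [card_image_of_injOn inj] at this
  · have := isCrv_image (o := o Γ) (hu Γ h) (hρ Γ h) (v2 Γ h) L hL'
    rwa [← he Γ h] at this
  · obtain ⟨x, hx, hx'⟩ := v3 (Γ, Γ') (mem_product.2 ⟨h, h'⟩) hne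
    obtain ⟨y, hy, e⟩ := hs ⟨x, hx, rfl⟩
    obtain ⟨t, ht⟩ := hL' (y - x) (by rw [map_sub, e, sub_self])
    exact hx' t (by rwa [← ht, add_sub_cancel])
  · obtain ⟨q, hq, rfl⟩ := mem_image.1 hp
    exact ⟨q, (mem_on.1 hq).2, rfl⟩
  · have h1 : (on P Γ).image L ∩ (on P Γ').image L ⊆ (on P Γ ∩ on P Γ').image L := by
      intro z hz
      obtain ⟨p, hp, rfl⟩ := mem_image.1 (mem_inter.1 hz).1
      obtain ⟨q, hq, e⟩ := mem_image.1 (mem_inter.1 hz).2
      obtain rfl := inj (mem_on.1 hq).1 (mem_on.1 hp).1 e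
      exact mem_image_of_mem _ (mem_inter.2 ⟨hp, hq⟩)
    refine ((card_le_card h1).trans card_image_le).trans_lt (not_le.1 fun h3 => hne ?_)
    obtain ⟨p, q, r, hp, hq, hr, hpq, hpr, hqr⟩ := two_lt_card_iff.1 h3
    simp only [mem_inter, mem_on] at hp hq hr
    exact (hc _ h).eq_of_three (hc _ h') hpq hpr hqr ⟨hp.1.2, hq.1.2, hr.1.2⟩ ⟨hp.2.2, hq.2.2, hr.2.2⟩
  · rw [card_image_of_injOn (s := on P Γ) (inj.mono fun x hx => (mem_on.1 hx).1)]
    exact hk' Γ h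

end Crest.Agent.R65.Pen
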