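import Crest.Agent.R65.Pen.Line

/-! Row 65, `d = 3`, pencils: circles in space. -/

set_option autoImplicit false

namespace Crest.Agent.R65.Pen

open Finset
open scoped Classical
open Crest.Agent.R33 (E2 InCell)

namespace CircPAux

theorem eq_zero_of_smul {u d : E3} (hu : u ≠ 0) {c : ℝ} (hd : d = c • u) (h : inner ℝ u d = 0) :
    d = 0 := by
  rw [hd, inner_smul_right] at h
  rcases mul_eq_zero.1 h with h | h
  · rw [hd, h, zero_smul]
  · exact absurd (inner_self_eq_zero.1 h) hu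

theorem chord {o p q : E3} (h : dist p o = dist q o) :
    2 * inner ℝ (p - o) (q - p) + ‖q - p‖ ^ 2 = 0 := by
  rw [dist_eq_norm, dist_eq_norm] at h
  have e : q - o = (p - o) + (q - p) := by abel
  have h1 := norm_add_sq_real (p - o) (q - p)
  rw [← e, ← h] at h1
  linarith

theorem indep {o p q r : E3} (hpq : p ≠ q) (hpr : p ≠ r) (hqr : q ≠ r)
    (h1 : dist p o = dist q o) (h2 : dist p o = dist r o) (s t : ℝ)
    (h : s • (q - p) + t • (r - p) = 0) : s = 0 ∧ t = 0 := by
  have c1 := chord h1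
  have c2 := chord h2
  have hv : q - p ≠ 0 := sub_ne_zero.2 hpq.symm
  have hw : r - p ≠ 0 := sub_ne_zero.2 hpr.symm
  have c3 : s * inner ℝ (p - o) (q - p) + t * inner ℝ (p - o) (r - p) = 0 := by
    rw [← inner_smul_right, ← inner_smul_right, ← inner_add_right, h, inner_zero_right]
  have c4 : s * ‖q - p‖ ^ 2 + t * ‖r - p‖ ^ 2 = 0 := by
    linear_combination s * c1 + t * c2 - 2 * c3
  have c5 : s ^ 2 * ‖q - p‖ ^ 2 = t ^ 2 * ‖r - p‖ ^ 2 := by
    have e : s • (q - p) = -(t • (r - p)) := eq_neg_of_add_eq_zero_left h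
    have e2 : ‖s • (q - p)‖ ^ 2 = ‖t • (r - p)‖ ^ 2 := by rw [e, norm_neg]
    rw [norm_smul, norm_smul, mul_pow, mul_pow, Real.norm_eq_abs, Real.norm_eq_abs, sq_abs,
      sq_abs] at e2
    exact e2
  have c6 : s * (s + t) * ‖q - p‖ ^ 2 = 0 := by linear_combination c5 + t * c4
  have hn : ‖q - p‖ ^ 2 ≠ 0 := pow_ne_zero 2 (norm_ne_zero_iff.2 hv)
  have hs : s = 0 := by
    rcases mul_eq_zero.1 ((mul_eq_zero.1 c6).resolve_right hn) with h0 | h0
    · exact h0
    · have ht : t = -s := by linarith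
      have e : s • (q - r) = 0 := by
        rw [← h, ht, neg_smul, ← sub_eq_add_neg, ← smul_sub]
        congr 1
        abel
      exact (smul_eq_zero.1 e).resolve_right (sub_ne_zero.2 hqr)
  refine ⟨hs, ?_⟩
  rw [hs, zero_smul, zero_add] at h
  exact (smul_eq_zero.1 h).resolve_right hw

theorem orth_sub {o u p q : E3} (hp : inner ℝ u (p - o) = 0) (hq : inner ℝ u (q - o) = 0) :
    inner ℝ u (q - p) = 0 := by
  have e : q - p = (q - o) - (p - o) := by abel
  rw [e, inner_sub_right, hp, hq, sub_zero]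

theorem norm_comb {a b : E3} (hab : inner ℝ a b = 0) (α β : ℝ) :
    ‖α • a + β • b‖ ^ 2 = α ^ 2 * ‖a‖ ^ 2 + β ^ 2 * ‖b‖ ^ 2 := by
  rw [norm_add_sq_real, inner_smul_left, inner_smul_right, hab, norm_smul, norm_smul, mul_pow,
    mul_pow, Real.norm_eq_abs, Real.norm_eq_abs, sq_abs, sq_abs]
  simp

end CircPAux

/-- `a ⟂ u`, `‖a‖ = ρ` (`exists_orth u u`), `b ⟂ u, a`, `‖b‖ = ρ`; a vector `x ⟂ u` is `α a + β b`
(`orth_unique` applied to `x - α a - β b` and `u`, which are orthogonal to `a`, `b`) -/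
theorem circ_param {o u : E3} {ρ : ℝ} (hu : u ≠ 0) (hρ : 0 < ρ) : ∃ a b : E3,
    inner ℝ u a = 0 ∧ inner ℝ u b = 0 ∧ inner ℝ a b = 0 ∧ ‖a‖ = ρ ∧ ‖b‖ = ρ ∧
    circ o u ρ = {x | ∃ α β : ℝ, α ^ 2 + β ^ 2 = 1 ∧ x = o + α • a + β • b} := by
  obtain ⟨a, ha, hau, -⟩ := exists_orth u u
  obtain ⟨b, hb, hbu, hba⟩ := exists_orth u a
  have hua : inner ℝ u a = 0 := by rw [real_inner_comm, hau]
  have hub : inner ℝ u b = 0 := by rw [real_inner_comm, hbu]
  have hab : inner ℝ a b = 0 := by rw [real_inner_comm, hba]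
  have haa : inner ℝ a a = 1 := by rw [real_inner_self_eq_norm_sq, ha]; norm_num
  have hbb : inner ℝ b b = 1 := by rw [real_inner_self_eq_norm_sq, hb]; norm_num
  refine ⟨ρ • a, ρ • b, by rw [inner_smul_right, hua, mul_zero],
    by rw [inner_smul_right, hub, mul_zero],
    by rw [inner_smul_right, real_inner_smul_left, hab, mul_zero, mul_zero],
    by rw [norm_smul, ha, mul_one, Real.norm_eq_abs, abs_of_pos hρ],
    by rw [norm_smul, hb, mul_one, Real.norm_eq_abs, abs_of_pos hρ], ?_⟩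
  ext x
  constructor
  · rintro ⟨h1, h2⟩
    rw [dist_eq_norm] at h2
    have hind : ∀ s t : ℝ, s • a + t • b = 0 → s = 0 ∧ t = 0 := by
      intro s t h
      have e1 : inner ℝ a (s • a + t • b) = s := by
        rw [inner_add_right, inner_smul_right, inner_smul_right, haa, hab]; ring
      have e2 : inner ℝ b (s • a + t • b) = t := by
        rw [inner_add_right, inner_smul_right, inner_smul_right, hbb, hba]; ring
      rw [h, inner_zero_right] at e1 e2
      exact ⟨e1.symm, e2.symm⟩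
    obtain ⟨c, hc⟩ := orth_unique (w := u)
      (w' := (x - o) - (inner ℝ a (x - o) • a + inner ℝ b (x - o) • b)) hind hu hua hub
      (by rw [real_inner_comm, inner_sub_right, inner_add_right, inner_smul_right,
            inner_smul_right, haa, hab]; ring)
      (by rw [real_inner_comm, inner_sub_right, inner_add_right, inner_smul_right,
            inner_smul_right, hbb, hba]; ring)
    have hz := CircPAux.eq_zero_of_smul hu hc
      (by rw [inner_sub_right, inner_add_right, inner_smul_right, inner_smul_right, h1, hua, hub]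
          ring)
    have hx : x - o = inner ℝ a (x - o) • a + inner ℝ b (x - o) • b := sub_eq_zero.1 hz
    have hn := CircPAux.norm_comb hab (inner ℝ a (x - o)) (inner ℝ b (x - o))
    rw [← hx, h2, ha, hb] at hn
    refine ⟨inner ℝ a (x - o) / ρ, inner ℝ b (x - o) / ρ, ?_, ?_⟩
    · field_simp
      linarith
    · rw [smul_smul, smul_smul, div_mul_cancel₀ _ hρ.ne', div_mul_cancel₀ _ hρ.ne', add_assoc,
        ← hx]
      abel
  · rintro ⟨α, β, h, rfl⟩
    have e : o + α • ρ • a + β • ρ • b - o = (α * ρ) • a + (β * ρ) • b := by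
      rw [smul_smul, smul_smul]; abel
    refine ⟨?_, ?_⟩
    · rw [e, inner_add_right, inner_smul_right, inner_smul_right, hua, hub]; ring
    · rw [dist_eq_norm, e]
      have hn := CircPAux.norm_comb hab (α * ρ) (β * ρ)
      rw [ha, hb] at hn
      refine (sq_eq_sq₀ (norm_nonneg _) hρ.le).1 ?_
      rw [hn]
      linear_combination ρ ^ 2 * h

/-- Three points determine the circle: they are not collinear (`card_dist_le`), so `u' ∥ u` (`orth_unique`), and
`o' - o` is orthogonal to `u`, `q - p`, `r - p`. -/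
theorem IsCirc.eq_of_three {Γ Γ' : Set E3} (h : IsCirc Γ) (h' : IsCirc Γ') {p q r : E3} (hpq : p ≠ q)
    (hpr : p ≠ r) (hqr : q ≠ r) (h1 : p ∈ Γ ∧ q ∈ Γ ∧ r ∈ Γ) (h2 : p ∈ Γ' ∧ q ∈ Γ' ∧ r ∈ Γ') :
    Γ = Γ' := by
  obtain ⟨o, u, ρ, hu, -, rfl⟩ := h
  obtain ⟨o', u', ρ', hu', -, rfl⟩ := h'
  obtain ⟨⟨p1, p2⟩, ⟨q1, q2⟩, ⟨r1, r2⟩⟩ := h1
  obtain ⟨⟨p1', p2'⟩, ⟨q1', q2'⟩, ⟨r1', r2'⟩⟩ := h2
  have hind := CircPAux.indep hpq hpr hqr (p2.trans q2.symm) (p2.trans r2.symm)
  have huv := CircPAux.orth_sub p1 q1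
  have huw := CircPAux.orth_sub p1 r1
  obtain ⟨c, hc⟩ := orth_unique hind hu huv huw (CircPAux.orth_sub p1' q1')
    (CircPAux.orth_sub p1' r1')
  have hc0 : c ≠ 0 := by
    rintro rfl
    exact hu' (by rw [hc, zero_smul])
  have hiff : ∀ y : E3, inner ℝ u' y = 0 ↔ inner ℝ u y = 0 := by
    intro y
    rw [hc, real_inner_smul_left, mul_eq_zero, or_iff_right hc0]
  have ed : o' - o = (p - o) - (p - o') := by abel
  obtain ⟨c', hc'⟩ := orth_unique (w' := o' - o) hind hu huv huw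
    (by have a1 := CircPAux.chord (p2.trans q2.symm)
        have a2 := CircPAux.chord (p2'.trans q2'.symm)
        rw [ed, inner_sub_left]
        linarith)
    (by have a1 := CircPAux.chord (p2.trans r2.symm)
        have a2 := CircPAux.chord (p2'.trans r2'.symm)
        rw [ed, inner_sub_left]
        linarith)
  have hd := CircPAux.eq_zero_of_smul hu hc'
    (by rw [ed, inner_sub_right, p1, (hiff _).1 p1', sub_zero])
  have ho : o' = o := sub_eq_zero.1 hd
  subst ho
  have hρ : ρ' = ρ := p2'.symm.trans p2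
  subst hρ
  ext x
  exact and_congr_left' (hiff _).symm

/-- three points from `circ_param` -/
theorem IsCirc.eq_of_subset {Γ Γ' : Set E3} (h : IsCirc Γ) (h' : IsCirc Γ') (hs : Γ ⊆ Γ') :
    Γ = Γ' := by
  obtain ⟨o, u, ρ, hu, hρ, hΓ⟩ := id h
  obtain ⟨a, b, -, -, hab, ha, hb, he⟩ := circ_param (o := o) hu hρ
  rw [← hΓ] at he
  have hm : ∀ α β : ℝ, α ^ 2 + β ^ 2 = 1 → o + α • a + β • b ∈ Γ := by
    intro α β hh
    rw [he]
    exact ⟨α, β, hh, rfl⟩
  have hne : ∀ α β α' β' : ℝ, α ≠ α' → o + α • a + β • b ≠ o + α' • a + β' • b := by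
    intro α β α' β' hh e
    have e1 : (α - α') • a + (β - β') • b = 0 := by
      rw [sub_smul, sub_smul, ← sub_eq_zero.2 e]; abel
    have e2 : inner ℝ a ((α - α') • a + (β - β') • b) = (α - α') * ρ ^ 2 := by
      rw [inner_add_right, inner_smul_right, inner_smul_right, hab, real_inner_self_eq_norm_sq, ha]
      ring
    rw [e1, inner_zero_right] at e2
    exact mul_ne_zero (sub_ne_zero.2 hh) (pow_ne_zero 2 hρ.ne') e2.symm
  have m1 := hm 1 0 (by norm_num)
  have m2 := hm (-1) 0 (by norm_num)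
  have m3 := hm 0 1 (by norm_num)
  exact h.eq_of_three h' (hne 1 0 (-1) 0 (by norm_num)) (hne 1 0 0 1 (by norm_num))
    (hne (-1) 0 0 1 (by norm_num)) ⟨m1, m2, m3⟩ ⟨hs m1, hs m2, hs m3⟩

end Crest.Agent.R65.Pen
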