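import Crest.Agent.R65.Pen.CombA

/-! Row 65, `d = 3`, pencils: counting lemmas. -/

set_option autoImplicit false

namespace Crest.Agent.R65.Pen

open Finset
open scoped Classical
open Crest.Agent.R33 (E2 InCell)

namespace CombAux

theorem layer {ι : Type} (J : Finset ι) (s : ι → ℕ) (g : ℕ → ℝ) (a M : ℕ)
    (hM : ∀ i ∈ J, ∀ k, a < k → k ≤ s i → k ≤ M) :
    ∑ i ∈ J, ∑ k ∈ Ioc a (s i), g k =
      ∑ k ∈ Ioc a M, g k * ((J.filter fun i => (k : ℝ) ≤ (s i : ℝ)).card : ℝ) := by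
  have h1 : ∀ i ∈ J, ∑ k ∈ Ioc a (s i), g k =
      ∑ k ∈ Ioc a M, if (k : ℝ) ≤ (s i : ℝ) then g k else 0 := by
    intro i hi
    rw [← Finset.sum_filter]
    refine Finset.sum_congr ?_ fun _ _ => rfl
    ext k
    simp only [mem_Ioc, mem_filter, Nat.cast_le]
    constructor
    · rintro ⟨h1, h2⟩
      exact ⟨⟨h1, hM i hi k h1 h2⟩, h2⟩
    · rintro ⟨⟨h1, -⟩, h2⟩
      exact ⟨h1, h2⟩
  rw [Finset.sum_congr rfl h1, Finset.sum_comm]
  refine Finset.sum_congr rfl fun k _ => ?_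
  rw [← Finset.sum_filter, Finset.sum_const, nsmul_eq_mul, mul_comm]

theorem tel (f g : ℕ → ℝ) (a : ℕ) (hg : ∀ k, 0 ≤ g k)
    (h : ∀ k, a ≤ k → f (k + 1) ≤ g k - g (k + 1)) (M : ℕ) : ∑ k ∈ Ioc a M, f k ≤ g a := by
  rcases le_or_gt a M with hM | hM
  · have : ∑ k ∈ Ioc a M, f k ≤ g a - g M := by
      induction M, hM using Nat.le_induction with
      | base => simp
      | succ m hm ih =>
        rw [Finset.sum_Ioc_succ_top hm]
        have := h m hm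
        linarith
    have := hg M
    linarith
  · rw [Finset.Ioc_eq_empty (by omega), Finset.sum_empty]
    exact hg a

theorem tel3 (a M : ℕ) (ha : 1 ≤ a) : ∑ k ∈ Ioc a M, 1 / (k : ℝ) ^ 3 ≤ 1 / (a : ℝ) ^ 2 := by
  refine tel (fun k => 1 / (k : ℝ) ^ 3) (fun k => 1 / (k : ℝ) ^ 2) a (fun k => by positivity)
    (fun k hk => ?_) M
  have h1 : (1 : ℝ) ≤ k := by exact_mod_cast ha.trans hk
  push_cast
  rw [div_sub_div _ _ (by positivity) (by positivity), div_le_div_iff₀ (by positivity) (by positivity)]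
  nlinarith [pow_pos (show (0 : ℝ) < k by linarith) 2, pow_pos (show (0 : ℝ) < k by linarith) 3,
    pow_pos (show (0 : ℝ) < k by linarith) 4]

theorem tel4 (a M : ℕ) (ha : 1 ≤ a) : ∑ k ∈ Ioc a M, 1 / (k : ℝ) ^ 4 ≤ 1 / (a : ℝ) ^ 3 := by
  refine tel (fun k => 1 / (k : ℝ) ^ 4) (fun k => 1 / (k : ℝ) ^ 3) a (fun k => by positivity)
    (fun k hk => ?_) M
  have h1 : (1 : ℝ) ≤ k := by exact_mod_cast ha.trans hk
  have h0 : (0 : ℝ) < k := by linarith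
  push_cast
  rw [div_sub_div _ _ (by positivity) (by positivity), div_le_div_iff₀ (by positivity) (by positivity)]
  nlinarith [pow_pos h0 2, pow_pos h0 3, pow_pos h0 4, pow_pos h0 5, pow_pos h0 6]

theorem sum_pow_le (a M e : ℕ) : ∑ k ∈ Ioc a M, (k : ℝ) ^ e ≤ (M : ℝ) ^ (e + 1) := by
  have h1 : ∑ k ∈ Ioc a M, (k : ℝ) ^ e ≤ (Ioc a M).card • (M : ℝ) ^ e := by
    refine Finset.sum_le_card_nsmul _ _ _ fun k hk => ?_
    have : (k : ℝ) ≤ M := by exact_mod_cast (mem_Ioc.mp hk).2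
    exact pow_le_pow_left₀ (Nat.cast_nonneg _) this e
  refine h1.trans ?_
  rw [nsmul_eq_mul, Nat.card_Ioc, pow_succ']
  refine mul_le_mul_of_nonneg_right ?_ (by positivity)
  exact_mod_cast Nat.sub_le M a

theorem le_add_sum (a s : ℕ) : (s : ℝ) ≤ a + ∑ _k ∈ Ioc a s, (1 : ℝ) := by
  rw [Finset.sum_const, nsmul_eq_mul, mul_one, Nat.card_Ioc]
  exact_mod_cast (by omega : s ≤ a + (s - a))

theorem sq_le_add_sum (a s : ℕ) (h : a ≤ s) :
    (s : ℝ) ^ 2 ≤ (a : ℝ) ^ 2 + ∑ k ∈ Ioc a s, 2 * (k : ℝ) := by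
  induction s, h using Nat.le_induction with
  | base => simp
  | succ m hm ih =>
    rw [Finset.sum_Ioc_succ_top hm]
    push_cast
    nlinarith

end CombAux

/-- Szemeredi-Trotter forms from the raw bound.  First part: if `k² ≥ 2n` use `vr`, else `k ≤ 2n/k`.
Second part: the sets with `#T i ≥ K = max τ √(2n)` have total size `≤ 2n` (`vr`); for the others
`#T i ≤ τ + #{k ∈ ℕ : τ < k ≤ #T i} + 1`, sum the raw bound over the integers `τ ≤ k ≤ K`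
(`∑_{k ≥ τ} 1/k³ ≤ 2/τ²`, `∑_{k ≤ √(2n)} k ≤ 2n`); replace `τ + 1` by `2τ`. -/
theorem st_of_rich (C : ℝ) (hC : 0 < C) : ∃ C' : ℝ, 0 < C' ∧ ∀ {α ι : Type} (P : Finset α)
    (I : Finset ι) (T : ι → Finset α), (∀ i ∈ I, T i ⊆ P) →
    (∀ i ∈ I, ∀ j ∈ I, i ≠ j → (T i ∩ T j).card ≤ 1) →
    (∀ k : ℝ, 88 ≤ k → ∀ J ⊆ I, (∀ i ∈ J, k ≤ ((T i).card : ℝ)) →
      (J.card : ℝ) ≤ C * (P.card : ℝ) ^ 2 / k ^ 3 + k) →
    (∀ k : ℝ, 88 ≤ k → (∀ i ∈ I, k ≤ ((T i).card : ℝ)) →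
      (I.card : ℝ) ≤ C' * ((P.card : ℝ) ^ 2 / k ^ 3 + P.card / k)) ∧
    ∀ τ : ℝ, 88 ≤ τ →
      ∑ i ∈ I, ((T i).card : ℝ) ≤ 2 * τ * I.card + C' * ((P.card : ℝ) ^ 2 / τ ^ 2 + P.card) := by
  refine ⟨C + 4, by linarith, fun {α ι} P I T hP h1 h => ⟨fun k hk hI => ?_, fun τ hτ => ?_⟩⟩
  · have hk0 : 0 < k := by linarith
    have hn : (0 : ℝ) ≤ P.card := Nat.cast_nonneg _
    have e1 : 0 ≤ (P.card : ℝ) ^ 2 / k ^ 3 := by positivity
    have e2 : 0 ≤ (P.card : ℝ) / k := by positivity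
    rcases le_or_gt (2 * 1 * (P.card : ℝ)) (k ^ 2) with hc | hc
    · have h2 := vr P I T 1 k hk0 (fun i hi => ⟨hP i hi, hI i hi⟩)
        (fun i hi j hj hij => by exact_mod_cast h1 i hi j hj hij) zero_le_one hc
      have h3 : (I.card : ℝ) * k ≤ ∑ i ∈ I, ((T i).card : ℝ) := by
        rw [← nsmul_eq_mul]
        exact Finset.card_nsmul_le_sum _ _ _ hI
      have h4 : (I.card : ℝ) ≤ 2 * (P.card / k) := by
        rw [← mul_div_assoc, le_div_iff₀ hk0]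
        linarith
      nlinarith [mul_nonneg hC.le e1, mul_nonneg hC.le e2]
    · have h2 := h k hk I subset_rfl hI
      have h4 : k ≤ 2 * (P.card / k) := by
        rw [← mul_div_assoc, le_div_iff₀ hk0]
        nlinarith
      rw [mul_div_assoc] at h2
      nlinarith [mul_nonneg hC.le e1, mul_nonneg hC.le e2]
  · have hτ0 : 0 < τ := by linarith
    have hn : (0 : ℝ) ≤ P.card := Nat.cast_nonneg _
    set K : ℝ := max τ √(2 * P.card) with hK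
    have hK0 : 0 < K := lt_max_of_lt_left hτ0
    have hK2 : 2 * 1 * (P.card : ℝ) ≤ K ^ 2 := by
      rw [mul_one]
      exact (Real.sqrt_le_left hK0.le).mp (le_max_right _ _)
    set a : ℕ := ⌈τ⌉₊ with ha
    have ha1 : τ ≤ a := Nat.le_ceil τ
    have ha2 : (a : ℝ) ≤ 2 * τ := by
      have := Nat.ceil_lt_add_one hτ0.le
      linarith
    have ha3 : 1 ≤ a := by
      have : (1 : ℝ) ≤ a := by linarith
      exact_mod_cast this
    set M : ℕ := Nat.sqrt (2 * P.card) with hM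
    have hM2 : (M : ℝ) ^ 2 ≤ 2 * P.card := by exact_mod_cast Nat.sqrt_le' (2 * P.card)
    rw [← Finset.sum_filter_add_sum_filter_not I fun i => K ≤ ((T i).card : ℝ)]
    have h2 := vr P (I.filter fun i => K ≤ ((T i).card : ℝ)) T 1 K hK0
      (fun i hi => ⟨hP i (mem_filter.mp hi).1, (mem_filter.mp hi).2⟩)
      (fun i hi j hj hij => by exact_mod_cast h1 i (mem_filter.mp hi).1 j (mem_filter.mp hj).1 hij)
      zero_le_one hK2
    set J := I.filter fun i => ¬ K ≤ ((T i).card : ℝ) with hJ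
    have hJI : J ⊆ I := filter_subset _ _
    have h3 : ∑ i ∈ J, ((T i).card : ℝ) ≤ a * J.card + ∑ i ∈ J, ∑ _k ∈ Ioc a (T i).card, (1 : ℝ) := by
      refine (Finset.sum_le_sum fun i _ => CombAux.le_add_sum a (T i).card).trans ?_
      rw [Finset.sum_add_distrib, Finset.sum_const, nsmul_eq_mul, mul_comm]
    have h4 : ∀ i ∈ J, ∀ k, a < k → k ≤ (T i).card → k ≤ M := by
      intro i hi k hk1 hk2
      have e1 : ((T i).card : ℝ) < K := not_le.mp (mem_filter.mp hi).2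
      have e2 : (a : ℝ) < k := by exact_mod_cast hk1
      have e3 : (k : ℝ) ≤ (T i).card := by exact_mod_cast hk2
      have e4 : (k : ℝ) < √(2 * P.card) := by
        rcases lt_max_iff.mp (e3.trans_lt e1) with e | e
        · linarith
        · exact e
      have e5 : (k : ℝ) ^ 2 < 2 * P.card := (Real.lt_sqrt (Nat.cast_nonneg _)).mp e4
      refine Nat.le_sqrt'.mpr ?_
      exact_mod_cast e5.le
    rw [CombAux.layer J (fun i => (T i).card) (fun _ => 1) a M h4] at h3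
    have h5 : ∑ k ∈ Ioc a M, (1 : ℝ) * ((J.filter fun i => (k : ℝ) ≤ ((T i).card : ℝ)).card : ℝ) ≤
        ∑ k ∈ Ioc a M, (C * (P.card : ℝ) ^ 2 * (1 / (k : ℝ) ^ 3) + (k : ℝ) ^ 1) := by
      refine Finset.sum_le_sum fun k hk => ?_
      have e2 : (a : ℝ) < k := by exact_mod_cast (mem_Ioc.mp hk).1
      rw [one_mul, mul_one_div, pow_one]
      exact h k (by linarith) _ ((filter_subset _ _).trans hJI) fun i hi => (mem_filter.mp hi).2
    rw [Finset.sum_add_distrib, ← Finset.mul_sum _ _ (C * (P.card : ℝ) ^ 2)] at h5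
    have h6 := CombAux.tel3 a M ha3
    have h7 := CombAux.sum_pow_le a M 1
    have h8 : 1 / (a : ℝ) ^ 2 ≤ 1 / τ ^ 2 :=
      one_div_le_one_div_of_le (by positivity) (pow_le_pow_left₀ hτ0.le ha1 2)
    have h9 : C * (P.card : ℝ) ^ 2 * ∑ k ∈ Ioc a M, 1 / (k : ℝ) ^ 3 ≤ C * ((P.card : ℝ) ^ 2 / τ ^ 2) := by
      rw [← mul_div_assoc, ← mul_one_div (C * _)]
      exact mul_le_mul_of_nonneg_left (h6.trans h8) (by positivity)
    have h10 : (a : ℝ) * J.card ≤ 2 * τ * I.card :=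
      mul_le_mul ha2 (by exact_mod_cast card_le_card hJI) (Nat.cast_nonneg _) (by positivity)
    have e1 : 0 ≤ (P.card : ℝ) ^ 2 / τ ^ 2 := by positivity
    have e2 := mul_nonneg hC.le hn
    have e3 : (C + 4) * ((P.card : ℝ) ^ 2 / τ ^ 2 + P.card) = C * ((P.card : ℝ) ^ 2 / τ ^ 2) +
        C * P.card + 4 * ((P.card : ℝ) ^ 2 / τ ^ 2) + 4 * P.card := by ring
    have e4 : (M : ℝ) ^ (1 + 1) = (M : ℝ) ^ 2 := by norm_num
    rw [e3]
    linarith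

/-- Layer cake: `s² ≤ κ'² + ∑_{κ' < k ≤ s} 2k` with `κ' = ⌈κ⌉ ≤ 2κ`; `∑_{k ≥ κ} 1/k⁴ ≤ 2/κ³`; if `I` is not empty
`κ ≤ B`. -/
theorem sq_of_rich {ι : Type} (I : Finset ι) (s : ι → ℕ) (A κ B : ℝ) (hA : 0 ≤ A) (hκ : 1 ≤ κ)
    (hB : 0 ≤ B) (hs : ∀ i ∈ I, κ ≤ (s i : ℝ) ∧ (s i : ℝ) ≤ B)
    (h : ∀ k : ℝ, κ ≤ k → ((I.filter fun i => k ≤ (s i : ℝ)).card : ℝ) ≤ A / k ^ 5 + k) :
    ∑ i ∈ I, (s i : ℝ) ^ 2 ≤ 10 * (A / κ ^ 3 + B ^ 3) := by
  have hκ0 : 0 < κ := by linarith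
  rcases I.eq_empty_or_nonempty with rfl | ⟨i₀, hi₀⟩
  · rw [Finset.sum_empty]
    positivity
  set a : ℕ := ⌈κ⌉₊ with ha
  have ha1 : κ ≤ a := Nat.le_ceil κ
  have ha0 : (0 : ℝ) < a := by linarith
  have ha3 : 1 ≤ a := by
    have : (1 : ℝ) ≤ a := by linarith
    exact_mod_cast this
  have has : ∀ i ∈ I, a ≤ s i := fun i hi => Nat.ceil_le.mpr (hs i hi).1
  have haB : (a : ℝ) ≤ B := le_trans (by exact_mod_cast has i₀ hi₀) (hs i₀ hi₀).2
  set M : ℕ := ⌊B⌋₊ with hM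
  have hMB : (M : ℝ) ≤ B := Nat.floor_le hB
  have h3 : ∑ i ∈ I, (s i : ℝ) ^ 2 ≤
      (a : ℝ) ^ 2 * I.card + ∑ i ∈ I, ∑ k ∈ Ioc a (s i), 2 * (k : ℝ) := by
    refine (Finset.sum_le_sum fun i hi => CombAux.sq_le_add_sum a (s i) (has i hi)).trans ?_
    rw [Finset.sum_add_distrib, Finset.sum_const, nsmul_eq_mul, mul_comm]
  rw [CombAux.layer I s (fun k => 2 * (k : ℝ)) a M
    fun i hi k _ hk => hk.trans (Nat.le_floor (hs i hi).2)] at h3
  have h5 : ∑ k ∈ Ioc a M, 2 * (k : ℝ) * ((I.filter fun i => (k : ℝ) ≤ (s i : ℝ)).card : ℝ) ≤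
      ∑ k ∈ Ioc a M, (2 * A * (1 / (k : ℝ) ^ 4) + 2 * (k : ℝ) ^ 2) := by
    refine Finset.sum_le_sum fun k hk => ?_
    have e2 : (a : ℝ) < k := by exact_mod_cast (mem_Ioc.mp hk).1
    have e0 : (0 : ℝ) < k := by linarith
    refine (mul_le_mul_of_nonneg_left (h k (by linarith)) (by positivity)).trans (le_of_eq ?_)
    field_simp
  rw [Finset.sum_add_distrib, ← Finset.mul_sum, ← Finset.mul_sum] at h5
  have h6 := CombAux.tel4 a M ha3
  have h7 := CombAux.sum_pow_le a M 2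
  have h8 : 1 / (a : ℝ) ^ 3 ≤ 1 / κ ^ 3 :=
    one_div_le_one_div_of_le (by positivity) (pow_le_pow_left₀ hκ0.le ha1 3)
  have h9 : 2 * A * ∑ k ∈ Ioc a M, 1 / (k : ℝ) ^ 4 ≤ 2 * (A / κ ^ 3) := by
    rw [← mul_div_assoc, ← mul_one_div (2 * A)]
    exact mul_le_mul_of_nonneg_left (h6.trans h8) (by positivity)
  have h10 : (I.card : ℝ) ≤ A / (a : ℝ) ^ 5 + a := by
    have := h a ha1
    rwa [Finset.filter_true_of_mem fun i hi => by exact_mod_cast has i hi] at this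
  have h11 : (a : ℝ) ^ 2 * I.card ≤ A * (1 / (a : ℝ) ^ 3) + (a : ℝ) ^ 3 := by
    refine (mul_le_mul_of_nonneg_left h10 (by positivity)).trans (le_of_eq ?_)
    field_simp
  have h12 : A * (1 / (a : ℝ) ^ 3) ≤ A / κ ^ 3 := by
    rw [← mul_one_div A]
    exact mul_le_mul_of_nonneg_left h8 hA
  have h13 : (a : ℝ) ^ 3 ≤ B ^ 3 := pow_le_pow_left₀ ha0.le haB 3
  have h14 : (M : ℝ) ^ 3 ≤ B ^ 3 := pow_le_pow_left₀ (Nat.cast_nonneg _) hMB 3
  have e1 : 0 ≤ A / κ ^ 3 := by positivity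
  have e2 : 0 ≤ B ^ 3 := by positivity
  norm_num only at h7
  linarith

end Crest.Agent.R65.Pen
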