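import Crest.Agent.R65.Pen.Defs

/-! Row 65, `d = 3`, pencils: counting lemmas. -/

set_option autoImplicit false

namespace Crest.Agent.R65.Pen

open Finset
open scoped Classical
open Crest.Agent.R33 (E2 InCell)

namespace CombAAux

theorem card_eq {α : Type} (A : Finset α) (p : α → Prop) [DecidablePred p] :
    ((A.filter p).card : ℝ) = ∑ a ∈ A, if p a then (1 : ℝ) else 0 := by
  rw [Finset.card_filter]
  push_cast
  rfl

/-- double counting -/
theorem swap {α β : Type} (A : Finset α) (B : Finset β) (R : α → β → Prop) :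
    ∑ a ∈ A, ((B.filter fun b => R a b).card : ℝ) =
      ∑ b ∈ B, ((A.filter fun a => R a b).card : ℝ) := by
  simp only [card_eq]
  exact Finset.sum_comm

theorem sq_deg {α β : Type} (A : Finset α) (B : Finset β) (R : α → β → Prop) :
    ∑ b ∈ B, ((A.filter fun a => R a b).card : ℝ) ^ 2 =
      ∑ a ∈ A, ∑ a' ∈ A, ((B.filter fun b => R a b ∧ R a' b).card : ℝ) := by
  simp only [card_eq, sq, Finset.sum_mul_sum]
  rw [Finset.sum_comm]
  refine Finset.sum_congr rfl fun a _ => ?_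
  rw [Finset.sum_comm]
  refine Finset.sum_congr rfl fun a' _ => Finset.sum_congr rfl fun b _ => ?_
  by_cases h : R a b <;> by_cases h' : R a' b <;> simp [h, h']

theorem cs {α β : Type} (A : Finset α) (B : Finset β) (R : α → β → Prop) :
    (∑ b ∈ B, ((A.filter fun a => R a b).card : ℝ)) ^ 2 ≤
      B.card * ∑ a ∈ A, ∑ a' ∈ A, ((B.filter fun b => R a b ∧ R a' b).card : ℝ) := by
  rw [← sq_deg]
  exact sq_sum_le_card_mul_sum_sq

end CombAAux

open CombAAux

/-- Very rich sets.  `W = ∑ #T i = ∑_x deg x`, `W² ≤ n ∑ deg² ≤ n (W + b M²)`, `M k ≤ W`. -/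
theorem vr {α ι : Type} (P : Finset α) (I : Finset ι) (T : ι → Finset α) (b k : ℝ) (hk : 0 < k)
    (hT : ∀ i ∈ I, T i ⊆ P ∧ k ≤ ((T i).card : ℝ))
    (hb : ∀ i ∈ I, ∀ j ∈ I, i ≠ j → ((T i ∩ T j).card : ℝ) ≤ b) (hb0 : 0 ≤ b)
    (h : 2 * b * P.card ≤ k ^ 2) : ∑ i ∈ I, ((T i).card : ℝ) ≤ 2 * P.card := by
  obtain ⟨R, hR⟩ : ∃ R : ι → α → Prop, ∀ i x, R i x ↔ x ∈ T i := ⟨_, fun _ _ => Iff.rfl⟩
  have e1 : ∀ i ∈ I, (P.filter fun x => R i x) = T i := fun i hi => by
    ext x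
    simp only [Finset.mem_filter, hR]
    exact ⟨fun h => h.2, fun h => ⟨(hT i hi).1 h, h⟩⟩
  have h1 := cs I P R
  rw [← swap I P R] at h1
  have h2 : ∑ i ∈ I, ((P.filter fun x => R i x).card : ℝ) = ∑ i ∈ I, ((T i).card : ℝ) :=
    Finset.sum_congr rfl fun i hi => by rw [e1 i hi]
  have h3 : ∑ i ∈ I, ∑ j ∈ I, ((P.filter fun x => R i x ∧ R j x).card : ℝ) ≤
      ∑ i ∈ I, (((T i).card : ℝ) + I.card * b) := by
    refine Finset.sum_le_sum fun i hi => ?_
    rw [← Finset.add_sum_erase _ _ hi]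
    refine add_le_add ?_ ?_
    · simp only [and_self]
      rw [e1 i hi]
    · calc ∑ j ∈ I.erase i, ((P.filter fun x => R i x ∧ R j x).card : ℝ)
          ≤ ∑ _j ∈ I.erase i, b := by
            refine Finset.sum_le_sum fun j hj => le_trans ?_
              (hb i hi j (Finset.mem_of_mem_erase hj) (Finset.ne_of_mem_erase hj).symm)
            have : (P.filter fun x => R i x ∧ R j x) ⊆ T i ∩ T j := fun x hx => by
              simp only [Finset.mem_filter, hR] at hx
              exact Finset.mem_inter.2 hx.2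
            exact_mod_cast Finset.card_le_card this
        _ ≤ I.card * b := by
            rw [Finset.sum_const, nsmul_eq_mul]
            exact mul_le_mul_of_nonneg_right
              (by exact_mod_cast Finset.card_le_card (Finset.erase_subset _ _)) hb0
  have h4 : (I.card : ℝ) * k ≤ ∑ i ∈ I, ((T i).card : ℝ) := by
    rw [← nsmul_eq_mul, ← Finset.sum_const]
    exact Finset.sum_le_sum fun i hi => (hT i hi).2
  rw [Finset.sum_add_distrib, Finset.sum_const, nsmul_eq_mul] at h3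
  have h1' := h1.trans (mul_le_mul_of_nonneg_left h3 (Nat.cast_nonneg _))
  rw [h2] at h1'
  set W := ∑ i ∈ I, ((T i).card : ℝ)
  set n : ℝ := (P.card : ℝ)
  set M : ℝ := (I.card : ℝ)
  have hn : 0 ≤ n := Nat.cast_nonneg _
  have hM : 0 ≤ M := Nat.cast_nonneg _
  have h5 : (M * k) ^ 2 ≤ W ^ 2 := pow_le_pow_left₀ (by positivity) h4 2
  have h6 : M ^ 2 * (2 * b * n) ≤ M ^ 2 * k ^ 2 := mul_le_mul_of_nonneg_left h (sq_nonneg _)
  have h7 : W ^ 2 ≤ 2 * n * W := by nlinarith
  by_contra hc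
  push Not at hc
  have : 0 < W := by linarith
  nlinarith

/-- Kővári–Sós–Turán with degenerate triples: `E = ∑_b deg b`, `E² ≤ #B ∑ deg² ≤ #B (x E + Y)`. -/
theorem kst {α β : Type} (A : Finset α) (B : Finset β) (R : α → β → Prop) (Dg : β → α → α → Prop)
    (x Y : ℝ) (hx : 0 ≤ x) (hY : 0 ≤ Y)
    (h1 : ∀ b ∈ B, ∀ a ∈ A, R a b → ((A.filter fun a' => R a' b ∧ Dg b a a').card : ℝ) ≤ x)
    (h2 : ∑ a ∈ A, ∑ a' ∈ A, ((B.filter fun b => R a b ∧ R a' b ∧ ¬ Dg b a a').card : ℝ) ≤ Y) :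
    (((A ×ˢ B).filter fun e => R e.1 e.2).card : ℝ) ≤ B.card * x + √(B.card * Y) := by
  have e1 : (((A ×ˢ B).filter fun e => R e.1 e.2).card : ℝ) =
      ∑ b ∈ B, ((A.filter fun a => R a b).card : ℝ) := by
    simp only [card_eq]
    rw [Finset.sum_product, Finset.sum_comm]
  have h3 := cs A B R
  have h4 : ∑ a ∈ A, ∑ a' ∈ A, ((B.filter fun b => R a b ∧ R a' b).card : ℝ) =
      ∑ a ∈ A, ∑ b ∈ B, (if R a b then ((A.filter fun a' => R a' b ∧ Dg b a a').card : ℝ) else 0) +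
      ∑ a ∈ A, ∑ a' ∈ A, ((B.filter fun b => R a b ∧ R a' b ∧ ¬ Dg b a a').card : ℝ) := by
    rw [← Finset.sum_add_distrib]
    refine Finset.sum_congr rfl fun a _ => ?_
    have : ∑ b ∈ B, (if R a b then ((A.filter fun a' => R a' b ∧ Dg b a a').card : ℝ) else 0) =
        ∑ a' ∈ A, ∑ b ∈ B, (if R a b ∧ R a' b ∧ Dg b a a' then (1 : ℝ) else 0) := by
      rw [Finset.sum_comm]
      refine Finset.sum_congr rfl fun b _ => ?_
      by_cases h : R a b
      · simp only [h, if_true, true_and, card_eq]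
      · simp [h]
    rw [this, ← Finset.sum_add_distrib]
    refine Finset.sum_congr rfl fun a' _ => ?_
    simp only [card_eq]
    rw [← Finset.sum_add_distrib]
    refine Finset.sum_congr rfl fun b _ => ?_
    by_cases h : R a b <;> by_cases h' : R a' b <;> by_cases h'' : Dg b a a' <;> simp [h, h', h'']
  have h5 : ∑ a ∈ A, ∑ b ∈ B,
      (if R a b then ((A.filter fun a' => R a' b ∧ Dg b a a').card : ℝ) else 0) ≤
      x * ∑ b ∈ B, ((A.filter fun a => R a b).card : ℝ) := by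
    rw [Finset.sum_comm, Finset.mul_sum]
    refine Finset.sum_le_sum fun b hb => ?_
    rw [card_eq A fun a => R a b, Finset.mul_sum]
    refine Finset.sum_le_sum fun a ha => ?_
    by_cases h : R a b
    · simpa [h] using h1 b hb a ha h
    · simp [h]
  rw [e1]
  set E := ∑ b ∈ B, ((A.filter fun a => R a b).card : ℝ)
  set n : ℝ := (B.card : ℝ)
  have hn : 0 ≤ n := Nat.cast_nonneg _
  have h6 : E ^ 2 ≤ n * (x * E + Y) :=
    h3.trans (mul_le_mul_of_nonneg_left (by rw [h4]; linarith) hn)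
  have h7 : √(n * Y) ^ 2 = n * Y := Real.sq_sqrt (mul_nonneg hn hY)
  have h8 : 0 ≤ √(n * Y) := Real.sqrt_nonneg _
  have h9 : 0 ≤ n * x := mul_nonneg hn hx
  by_contra hc
  push Not at hc
  nlinarith

end Crest.Agent.R65.Pen
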