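import Crest.Agent.R65.Pen.CongA

/-! Row 65, `d = 3`, pencils: congruent pairs of non-parallel lines. -/

set_option autoImplicit false

namespace Crest.Agent.R65.Pen

open Finset
open scoped Classical
open Crest.Agent.R33 (E2 InCell)

namespace CongAux

theorem deg_of {o u o' u' z v w : E3} (hw : ‖w‖ = 1) (h1 : inner ℝ w u = 0) (h2 : inner ℝ w u' = 0)
    (h3 : inner ℝ w v = 0) : Deg (ln z v) (ln o u) (ln o' u') := by
  refine ⟨w, fun h => by simp [h] at hw, fun x hx => ?_⟩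
  simp only [dir_ln] at hx
  rcases hx with ⟨t, rfl⟩ | ⟨t, rfl⟩ | ⟨t, rfl⟩ <;> simp [inner_smul_right, h1, h2, h3]

theorem sign_of {o u o' u' : E3} (hu : ‖u‖ = 1) (hu' : ‖u'‖ = 1) (h : ln o u = ln o' u') :
    (∃ e : ℝ, (e = 1 ∨ e = -1) ∧ u' = e • u) ∧ ∃ s : ℝ, o' = o + s • u := by
  have h1 : ln 0 u = ln 0 u' := by rw [← dir_ln o u, ← dir_ln o' u', h]
  refine ⟨?_, ?_⟩
  · rcases unit_of_dir_eq hu hu' h1 with h2 | h2
    · exact ⟨1, Or.inl rfl, by simp [h2]⟩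
    · exact ⟨-1, Or.inr rfl, by simp [h2]⟩
  · have : o' ∈ ln o u := h ▸ self_mem_ln o' u'
    exact this

theorem key {c δ : ℝ} {o u z v o₁ u₁ z₁ v₁ w₁ : E3} (hu : ‖u‖ = 1) (hv : ‖v‖ = 1)
    (ha : ln o u = ln o₁ u₁) (hb : ln z v = ln z₁ v₁) (hu₁ : ‖u₁‖ = 1) (hv₁ : ‖v₁‖ = 1)
    (hw₁ : ‖w₁‖ = 1) (hi : ∀ s t : ℝ, s • u₁ + t • v₁ = 0 → s = 0 ∧ t = 0)
    (hc : inner ℝ u₁ v₁ = c) (h1 : inner ℝ w₁ u₁ = 0) (h2 : inner ℝ w₁ v₁ = 0)
    (h3 : inner ℝ w₁ (o₁ - z₁) = δ) :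
    inner ℝ u v ∈ ({c, -c} : Finset ℝ) ∧ ∀ w : E3, ‖w‖ = 1 → inner ℝ w u = 0 → inner ℝ w v = 0 →
      inner ℝ w (o - z) ∈ ({δ, -δ} : Finset ℝ) := by
  obtain ⟨⟨e, he, rfl⟩, s, rfl⟩ := sign_of hu hu₁ ha
  obtain ⟨⟨f, hf, rfl⟩, t, rfl⟩ := sign_of hv hv₁ hb
  simp only [mem_insert, mem_singleton]
  constructor
  · rw [inner_smul_left, inner_smul_right] at hc
    rcases he with rfl | rfl <;> rcases hf with rfl | rfl <;> simp at hc <;>
      first | exact Or.inl hc | exact Or.inr (by linarith)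
  · intro w hw g1 g2
    have w0 : w ≠ 0 := fun h => by simp [h] at hw
    obtain ⟨k, rfl⟩ := orth_unique (w := w) (w' := w₁) hi w0 (by simp [inner_smul_right, g1])
      (by simp [inner_smul_right, g2]) h1 h2
    have hk : |k| = 1 := by simpa [norm_smul, hw] using hw₁
    have e1 : o + s • u - (z + t • v) = (o - z) + (s • u - t • v) := by abel
    rw [e1, inner_smul_left, inner_add_right, inner_sub_right w (s • u), inner_smul_right,
      inner_smul_right, g1, g2] at h3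
    rcases (abs_eq zero_le_one).1 hk with rfl | rfl
    · left; simpa using h3
    · right; simp at h3; linarith

theorem card_pm (x y : ℝ) : (({x, -x} : Finset ℝ) ×ˢ ({y, -y} : Finset ℝ)).card ≤ 4 := by
  rw [card_product]
  exact Nat.mul_le_mul (card_le_two) (card_le_two)

end CongAux

open CongAux in
/-- Fix unit directions `u`, `u'` and base points `o`, `o'` of `a`, `a'`; they are independent if `T ≠ ∅` (else `Deg`,
`exists_orth`).  For `b = ln z v ∈ T`: `⟨u, v⟩ = ± c`, `⟨u', v⟩ = ± c`, so at most `4 · 2` vectors `v`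
(`card_inner_le`).  For fixed `v` fix units `w ⟂ u, v` and `w' ⟂ u', v`; they are independent (`¬ Deg`);
`⟨w, o - z⟩ = ± δ`, `⟨w', o' - z⟩ = ± δ`, and two base points with the same signs differ by a multiple of `v`
(`orth_unique`). -/
theorem nondeg_le {m₁ m₂ : Set E3} (h1 : IsLine m₁) (h2 : IsLine m₂) (hd : dir m₁ ≠ dir m₂)
    (a a' : Set E3) (T : Finset (Set E3))
    (hT : ∀ b ∈ T, Adj m₁ m₂ a b ∧ Adj m₁ m₂ a' b ∧ ¬ Deg b a a') : T.card ≤ 32 := by
  obtain ⟨c, δ, H⟩ := adj_form h1 h2 hd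
  rcases T.eq_empty_or_nonempty with rfl | ⟨b₀, hb₀⟩
  · simp
  obtain ⟨o, u, -, -, -, rfl, -, hu, -⟩ := H a b₀ (hT b₀ hb₀).1
  obtain ⟨o', u', -, -, -, rfl, -, hu', -⟩ := H a' b₀ (hT b₀ hb₀).2.1
  have ex : ∀ b : Set E3, ∃ z v : E3, b ∈ T → b = ln z v ∧ ‖v‖ = 1 := fun b => by
    by_cases hb : b ∈ T
    · obtain ⟨-, -, z, v, -, -, e, -, hv, -⟩ := H _ b (hT b hb).1
      exact ⟨z, v, fun _ => ⟨e, hv⟩⟩
    · exact ⟨0, 0, fun h => absurd h hb⟩
  choose z v hzv using ex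
  have K : ∀ b ∈ T, ∀ p q : E3, ‖q‖ = 1 → Adj m₁ m₂ (ln p q) b →
      inner ℝ q (v b) ∈ ({c, -c} : Finset ℝ) ∧ ∀ w : E3, ‖w‖ = 1 → inner ℝ w q = 0 →
        inner ℝ w (v b) = 0 → inner ℝ w (p - z b) ∈ ({δ, -δ} : Finset ℝ) := by
    intro b hb p q hq hadj
    obtain ⟨o₁, u₁, z₁, v₁, w₁, e1, e2, g1, g2, g3, g4, g5, g6, g7, g8⟩ := H _ b hadj
    exact key hq (hzv b hb).2 e1 ((hzv b hb).1.symm.trans e2) g1 g2 g3 g4 g5 g6 g7 g8
  have ND : ∀ b ∈ T, ∀ w : E3, ‖w‖ = 1 → inner ℝ w u = 0 → inner ℝ w u' = 0 →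
      inner ℝ w (v b) = 0 → False := by
    intro b hb w g1 g2 g3 g4
    refine (hT b hb).2.2 ?_
    rw [(hzv b hb).1]
    exact deg_of g1 g2 g3 g4
  have ind : ∀ s t : ℝ, s • u + t • u' = 0 → s = 0 ∧ t = 0 := by
    intro s t hst
    obtain ⟨w, g1, g2, g3⟩ := exists_orth u (v b₀)
    have ht : t = 0 := by
      by_contra ht
      have := congrArg (inner ℝ w) hst
      rw [inner_add_right, inner_smul_right, inner_smul_right, g2, inner_zero_right] at this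
      exact ND b₀ hb₀ w g1 g2 (by simpa [ht] using this) g3
    subst ht
    have u0 : u ≠ 0 := fun h => by simp [h] at hu
    simpa [u0] using hst
  have c1 : (T.image v).card ≤ 2 * 4 := by
    refine (card_le_mul_card_image_of_maps_to (f := fun x => (inner ℝ u x, inner ℝ u' x))
      (t := ({c, -c} : Finset ℝ) ×ˢ ({c, -c} : Finset ℝ)) ?_ 2 ?_).trans
      (Nat.mul_le_mul_left 2 (card_pm c c))
    · intro x hx
      obtain ⟨b, hb, rfl⟩ := mem_image.1 hx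
      exact mem_product.2 ⟨(K b hb o u hu (hT b hb).1).1, (K b hb o' u' hu' (hT b hb).2.1).1⟩
    · intro y _
      refine card_inner_le ind y.1 y.2 1 _ fun x hx => ?_
      obtain ⟨hx', rfl⟩ := mem_filter.1 hx
      obtain ⟨b, hb, rfl⟩ := mem_image.1 hx'
      exact ⟨rfl, rfl, (hzv b hb).2⟩
  refine (card_le_mul_card_image (f := v) T 4 ?_).trans (by omega)
  intro x hx
  obtain ⟨b₁, hb₁, rfl⟩ := mem_image.1 hx
  obtain ⟨w, g1, g2, g3⟩ := exists_orth u (v b₁)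
  obtain ⟨w', g1', g2', g3'⟩ := exists_orth u' (v b₁)
  have ind' : ∀ s t : ℝ, s • w + t • w' = 0 → s = 0 ∧ t = 0 := by
    intro s t hst
    have ht : t = 0 := by
      by_contra ht
      have := congrArg (fun y => inner ℝ y u) hst
      simp only [inner_add_left, inner_smul_left, g2, inner_zero_left] at this
      exact ND b₁ hb₁ w' g1' (by simpa [ht] using this) g2' g3'
    subst ht
    have w0 : w ≠ 0 := fun h => by simp [h] at g1
    simpa [w0] using hst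
  refine (card_le_card_of_injOn (fun b => (inner ℝ w (o - z b), inner ℝ w' (o' - z b)))
    (t := ({δ, -δ} : Finset ℝ) ×ˢ ({δ, -δ} : Finset ℝ)) ?_ ?_).trans (card_pm δ δ)
  · intro b hb
    obtain ⟨hb, e⟩ := mem_filter.1 (mem_coe.1 hb)
    exact mem_coe.2 (mem_product.2 ⟨(K b hb o u hu (hT b hb).1).2 w g1 g2 (e ▸ g3),
      (K b hb o' u' hu' (hT b hb).2.1).2 w' g1' g2' (e ▸ g3')⟩)
  · intro b hb b' hb' h
    obtain ⟨hb, e⟩ := mem_filter.1 (mem_coe.1 hb)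
    obtain ⟨hb', e'⟩ := mem_filter.1 (mem_coe.1 hb')
    obtain ⟨q1, q2⟩ := Prod.mk.inj h
    rw [inner_sub_right, inner_sub_right] at q1 q2
    have v0 : v b₁ ≠ 0 := fun h => by simpa [h] using (hzv b₁ hb₁).2
    obtain ⟨k, hk⟩ := orth_unique (w := v b₁) (w' := z b - z b') ind' v0
      (by rw [real_inner_comm]; exact g3) (by rw [real_inner_comm]; exact g3')
      (by rw [real_inner_comm, inner_sub_right]; linarith)
      (by rw [real_inner_comm, inner_sub_right]; linarith)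
    rw [(hzv b hb).1, (hzv b' hb').1, e, e']
    exact ln_eq_of_mem ⟨k, by rw [← hk]; abel⟩

end Crest.Agent.R65.Pen
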