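import Crest.Agent.R65.Pen.Line

/-! Row 65, `d = 3`, pencils: congruent pairs of non-parallel lines. -/

set_option autoImplicit false

namespace Crest.Agent.R65.Pen

open Finset
open scoped Classical
open Crest.Agent.R33 (E2 InCell)

/-- Normal form.  `m₁ = ln o₁ u₁`, `m₂ = ln o₂ u₂` (unit), `c = ⟨u₁, u₂⟩`, `w₀ ⟂ u₁, u₂` unit, `δ = ⟨w₀, o₁ - o₂⟩`;
transport by the linear part of `g`. -/
theorem adj_form {m₁ m₂ : Set E3} (h1 : IsLine m₁) (h2 : IsLine m₂) (hd : dir m₁ ≠ dir m₂) :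
    ∃ c δ : ℝ, ∀ a b, Adj m₁ m₂ a b → ∃ o u z v w : E3, a = ln o u ∧ b = ln z v ∧ ‖u‖ = 1 ∧ ‖v‖ = 1 ∧
      ‖w‖ = 1 ∧ (∀ s t : ℝ, s • u + t • v = 0 → s = 0 ∧ t = 0) ∧ inner ℝ u v = c ∧
      inner ℝ w u = 0 ∧ inner ℝ w v = 0 ∧ inner ℝ w (o - z) = δ := by
  obtain ⟨o₁, ho₁⟩ := h1.nonempty
  obtain ⟨o₂, ho₂⟩ := h2.nonempty
  obtain ⟨u₁, hu₁, rfl⟩ := h1.exists_unit ho₁
  obtain ⟨u₂, hu₂, rfl⟩ := h2.exists_unit ho₂
  obtain ⟨w₀, hw₀, hw₁, hw₂⟩ := exists_orth u₁ u₂
  rw [dir_ln, dir_ln] at hd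
  have hu₁0 : u₁ ≠ 0 := by rintro rfl; simp at hu₁
  have hu₂0 : u₂ ≠ 0 := by rintro rfl; simp at hu₂
  refine ⟨inner ℝ u₁ u₂, inner ℝ w₀ (o₁ - o₂), ?_⟩
  rintro a b ⟨g, rfl, rfl⟩
  refine ⟨g o₁, g.linearIsometryEquiv u₁, g o₂, g.linearIsometryEquiv u₂,
    g.linearIsometryEquiv w₀, image_ln _ _ _, image_ln _ _ _, by simpa using hu₁,
    by simpa using hu₂, by simpa using hw₀, ?_, by simp, by simpa using hw₁,
    by simpa using hw₂, ?_⟩
  · intro s t hst
    refine indep_of_dir_ne hu₁0 hu₂0 hd ?_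
    apply g.linearIsometryEquiv.injective
    rw [map_add, map_smul, map_smul, hst, map_zero]
  · have := g.map_vsub o₁ o₂
    simp only [vsub_eq_sub] at this
    rw [← this, LinearIsometryEquiv.inner_map_map]

/-- Degenerate partners.  Fix the data `u, z, v, w` of `(a, b)`.  For `a'` with data `o', u', z', v', w'`:
`v' = ± v`, `Deg` gives `u' ⟂ w` (`orth_unique`), so `w' = ± w`, `⟨v, ± u'⟩ = c`: at most two directions
(`card_inner_le` for `w`, `v`), and `a'` lies in one of the planes `⟨w, x⟩ = ⟨w, z⟩ ± δ`.  For each of the four cases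
`card_par_mul_le` for the points of `P` in the plane. -/
theorem deg_le {m₁ m₂ : Set E3} (h1 : IsLine m₁) (h2 : IsLine m₂) (hd : dir m₁ ≠ dir m₂)
    {P : Finset E3} {B lo : ℝ} (hB : PlaneBd P B) (hlo : 0 < lo) {a b : Set E3} (hab : Adj m₁ m₂ a b)
    (T : Finset (Set E3))
    (hT : ∀ a' ∈ T, lo ≤ ((on P a').card : ℝ) ∧ Adj m₁ m₂ a' b ∧ Deg b a a') :
    (T.card : ℝ) ≤ 4 * B / lo := by
  obtain ⟨c, δ, H⟩ := adj_form h1 h2 hd
  obtain ⟨o, u, z, v, w, rfl, rfl, hu, hv, hw, hind, -, hwu, hwv, -⟩ := H _ _ hab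
  have hw0 : w ≠ 0 := by rintro rfl; simp at hw
  have hmem : ∀ o u : E3, u ∈ dir (ln o u) := fun o u => by
    rw [dir_ln]; exact ⟨1, by simp⟩
  have key : ∀ a' ∈ T, ∃ (x : E3) (d : ℝ), (inner ℝ w x = 0 ∧ inner ℝ v x = c ∧ ‖x‖ = 1) ∧
      (d = inner ℝ w z + δ ∨ d = inner ℝ w z - δ) ∧ IsLine a' ∧ dir a' = ln 0 x ∧
      ∀ p ∈ a', inner ℝ w p = d := by
    intro a' ha'
    obtain ⟨-, hadj, w'', hw''0, hdeg⟩ := hT a' ha'
    obtain ⟨o', u', z', v', w', rfl, hb, hu', hv', hw', hind', hc', hwu', hwv', hδ'⟩ :=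
      H _ _ hadj
    have hu'0 : u' ≠ 0 := by rintro rfl; simp at hu'
    have hw'0 : w' ≠ 0 := by rintro rfl; simp at hw'
    have hdir : ln 0 v = ln 0 v' := by rw [← dir_ln z, ← dir_ln z', hb]
    obtain ⟨k, hk⟩ := orth_unique hind hw0 hwu hwv (hdeg u (Or.inl (hmem _ _)))
      (hdeg v (Or.inr (Or.inr (hmem _ _))))
    have hk0 : k ≠ 0 := by rintro rfl; exact hw''0 (by simpa using hk)
    have hwu'' : inner ℝ w u' = 0 := by
      have := hdeg u' (Or.inr (Or.inl (hmem _ _)))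
      rw [hk, real_inner_smul_left] at this
      exact (mul_eq_zero.1 this).resolve_left hk0
    have hv'' := unit_of_dir_eq hv hv' hdir
    have hwv'' : inner ℝ w v' = 0 := by
      rcases hv'' with h | h <;> rw [h] <;> simp [hwv]
    obtain ⟨e, he⟩ := orth_unique hind' hw'0 hwu' hwv' hwu'' hwv''
    have he1 : e = 1 ∨ e = -1 := by
      have := congrArg norm he
      rw [norm_smul, hw, hw', mul_one, Real.norm_eq_abs] at this
      rcases abs_eq (zero_le_one) |>.1 this.symm with h | h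
      · exact Or.inl h
      · exact Or.inr h
    have hz' : inner ℝ w z' = inner ℝ w z := by
      obtain ⟨t, ht⟩ : z' ∈ ln z v := by rw [hb]; exact self_mem_ln _ _
      rw [ht, inner_add_right, real_inner_smul_right, hwv, mul_zero, add_zero]
    have ho' : inner ℝ w o' = inner ℝ w z + e * δ := by
      have : inner ℝ w (o' - z') = e * δ := by
        rw [he, real_inner_smul_left, hδ']
      rw [inner_sub_right, hz'] at this
      linarith
    have hpl : ∀ p ∈ ln o' u', inner ℝ w p = inner ℝ w z + e * δ := by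
      rintro p ⟨t, rfl⟩
      rw [inner_add_right, real_inner_smul_right, hwu'', mul_zero, add_zero, ho']
    have hd' : inner ℝ w z + e * δ = inner ℝ w z + δ ∨
        inner ℝ w z + e * δ = inner ℝ w z - δ := by
      rcases he1 with rfl | rfl
      · left; ring
      · right; ring
    rcases hv'' with h | h
    · refine ⟨u', _, ⟨hwu'', ?_, hu'⟩, hd', ⟨o', u', hu'0, rfl⟩, dir_ln _ _, hpl⟩
      rw [← h, real_inner_comm, hc']
    · refine ⟨-u', _, ⟨by simp [hwu''], ?_, by simpa using hu'⟩, hd', ⟨o', u', hu'0, rfl⟩, ?_, hpl⟩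
      · rw [h, inner_neg_right] at hc'
        rw [inner_neg_right, real_inner_comm, hc']
      · rw [dir_ln, ← neg_one_smul ℝ u', ln_smul _ _ (by norm_num)]
  choose! x d hx hdd hl hdir hpl using key
  have hwv_ind : ∀ s t : ℝ, s • w + t • v = 0 → s = 0 ∧ t = 0 := by
    intro s t hst
    have e1 := congrArg (inner ℝ w) hst
    have e2 := congrArg (inner ℝ v) hst
    have hvw : inner ℝ v w = 0 := by rw [real_inner_comm, hwv]
    simp only [inner_add_right, real_inner_smul_right, real_inner_self_eq_norm_sq, hw, hv, hwv,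
      hvw, inner_zero_right] at e1 e2
    constructor <;> linarith
  have hX : (T.image x).card ≤ 2 := by
    refine card_inner_le hwv_ind 0 c 1 _ fun y hy => ?_
    obtain ⟨a', ha', rfl⟩ := mem_image.1 hy
    exact hx a' ha'
  have hD : ({inner ℝ w z + δ, inner ℝ w z - δ} : Finset ℝ).card ≤ 2 := card_le_two
  have hB0 : 0 ≤ B := le_trans (Nat.cast_nonneg _) (hB w 0 hw0)
  have hfib := card_eq_sum_card_fiberwise (f := fun a' => (x a', d a')) (s := T)
    (t := T.image x ×ˢ ({inner ℝ w z + δ, inner ℝ w z - δ} : Finset ℝ)) (by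
      intro a' ha'
      have ha'' : a' ∈ T := ha'
      simp only [coe_product, Set.mem_prod, mem_coe, mem_insert, mem_singleton]
      exact ⟨mem_image_of_mem _ ha'', hdd a' ha''⟩)
  have hle : ∀ q : E3 × ℝ,
      (((T.filter fun a' => (x a', d a') = q).card : ℕ) : ℝ) ≤ B / lo := by
    intro q
    rw [le_div_iff₀ hlo]
    refine le_trans (card_par_mul_le (P.filter fun p => inner ℝ w p = q.2) _ (ln 0 q.1) lo ?_)
      (hB w q.2 hw0)
    intro m hm
    obtain ⟨hmT, hq⟩ := mem_filter.1 hm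
    refine ⟨hl m hmT, by rw [hdir m hmT, ← hq], le_trans (hT m hmT).1 ?_⟩
    refine Nat.cast_le.2 (card_le_card fun p hp => ?_)
    obtain ⟨hp1, hp2⟩ := mem_on.1 hp
    exact mem_on.2 ⟨mem_filter.2 ⟨hp1, by rw [hpl m hmT p hp2, ← hq]⟩, hp2⟩
  rw [hfib]
  push_cast
  refine le_trans (sum_le_card_nsmul _ _ (B / lo) fun q _ => hle q) ?_
  rw [card_product, nsmul_eq_mul, mul_div_assoc]
  refine mul_le_mul_of_nonneg_right ?_ (div_nonneg hB0 hlo.le)
  have := Nat.mul_le_mul hX hD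
  exact_mod_cast this

end Crest.Agent.R65.Pen
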