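import Crest.Agent.R65.Pen.IsoC

/-! Row 65, `d = 3`, pencils: pairs of axes in one isometry. -/

set_option autoImplicit false

namespace Crest.Agent.R65.Pen

open Finset
open scoped Classical
open Crest.Agent.R33 (E2 InCell)

namespace CountAux

theorem on_mat_le (P P' : Finset E3) (g : Iso) (m : Set E3) :
    (on (mat P P' g) m).card ≤ (on P' (g '' m)).card := by
  refine card_le_card_of_injOn g (fun p hp => ?_) (g.injective.injOn)
  have hp' := mem_on.1 (mem_coe.1 hp)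
  exact mem_coe.2 (mem_on.2 ⟨(mem_mat.1 hp'.1).2, Set.mem_image_of_mem _ hp'.2⟩)

theorem mem_edges {m₁ m₂ : Set E3} {Λ' : Finset (Set E3)} {g : Iso}
    (h : g '' m₁ ∈ Λ' ∧ g '' m₂ ∈ Λ') : (g '' m₁, g '' m₂) ∈ edges m₁ m₂ Λ' :=
  mem_filter.2 ⟨mem_product.2 h, g, rfl, rfl⟩

theorem sum_wt (P P' : Finset E3) (𝒢 : Finset Iso) (Λ' : Finset (Set E3)) (m₁ m₂ : Set E3) :
    ∑ g ∈ 𝒢, (wt P P' Λ' g m₁ m₂ : ℝ) =
      ∑ g ∈ 𝒢.filter (fun g : Iso => g '' m₁ ∈ Λ' ∧ g '' m₂ ∈ Λ'),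
        ((on (mat P P' g) m₁).card : ℝ) * (on (mat P P' g) m₂).card := by
  rw [sum_filter]
  refine sum_congr rfl fun g _ => ?_
  unfold wt
  split_ifs <;> simp

end CountAux

open CountAux

/-- group the `g` by `(g '' m₁, g '' m₂) ∈ edges` (`iso_np`); `g` maps `on (mat g) mᵢ` injectively into
`on P' (g '' mᵢ)` -/
theorem count_np (P P' : Finset E3) (𝒢 : Finset Iso) (Λ' : Finset (Set E3)) {hi : ℝ}
    (hΛ : ∀ m ∈ Λ', ((on P' m).card : ℝ) ≤ hi) {m₁ m₂ : Set E3} (h1 : IsLine m₁) (h2 : IsLine m₂)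
    (hd : dir m₁ ≠ dir m₂) :
    ∑ g ∈ 𝒢, (wt P P' Λ' g m₁ m₂ : ℝ) ≤ 8 * hi ^ 2 * (edges m₁ m₂ Λ').card := by
  rw [sum_wt]
  set G := 𝒢.filter (fun g : Iso => g '' m₁ ∈ Λ' ∧ g '' m₂ ∈ Λ') with hG
  have hc : G.card ≤ 8 * (edges m₁ m₂ Λ').card :=
    card_le_mul_card_image_of_maps_to (f := fun g : Iso => (g '' m₁, g '' m₂))
      (fun g hg => mem_edges (mem_filter.1 hg).2) 8 fun e _ =>
        iso_np h1 h2 hd e.1 e.2 _ fun g hg => by
          have := (mem_filter.1 hg).2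
          exact ⟨congrArg Prod.fst this, congrArg Prod.snd this⟩
  have hc' : (G.card : ℝ) ≤ 8 * (edges m₁ m₂ Λ').card := by exact_mod_cast hc
  have hs := sum_le_card_nsmul G
    (fun g => ((on (mat P P' g) m₁).card : ℝ) * (on (mat P P' g) m₂).card) (hi ^ 2) fun g hg => by
      have hg' := (mem_filter.1 hg).2
      have e1 : ((on (mat P P' g) m₁).card : ℝ) ≤ hi :=
        le_trans (by exact_mod_cast on_mat_le P P' g m₁) (hΛ _ hg'.1)
      have e2 : ((on (mat P P' g) m₂).card : ℝ) ≤ hi :=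
        le_trans (by exact_mod_cast on_mat_le P P' g m₂) (hΛ _ hg'.2)
      rw [sq]
      exact mul_le_mul e1 e2 (Nat.cast_nonneg _) ((Nat.cast_nonneg _).trans e1)
  rw [nsmul_eq_mul] at hs
  nlinarith [mul_le_mul_of_nonneg_right hc' (sq_nonneg hi)]

/-- write `#on (mat g) m₁ = ∑_{p ∈ on P m₁} 1[g p ∈ P']`; for fixed `p` group the `g` by
`(g '' m₁, g '' m₂, g p)` (`iso_pt`) -/
theorem count_pt (P P' : Finset E3) (𝒢 : Finset Iso) (Λ' : Finset (Set E3)) {hi : ℝ}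
    (hΛ : ∀ m ∈ Λ', ((on P' m).card : ℝ) ≤ hi) {m₁ m₂ : Set E3} (h1 : IsLine m₁) (h2 : IsLine m₂)
    (hne : m₁ ≠ m₂) :
    ∑ g ∈ 𝒢, (wt P P' Λ' g m₁ m₂ : ℝ) ≤
      8 * hi ^ 2 * (on P m₁).card * (edges m₁ m₂ Λ').card := by
  rw [sum_wt]
  set G := 𝒢.filter (fun g : Iso => g '' m₁ ∈ Λ' ∧ g '' m₂ ∈ Λ') with hG
  rcases G.eq_empty_or_nonempty with h0 | ⟨g₀, hg₀⟩
  · rw [h0, sum_empty]
    positivity
  have hhi : 0 ≤ hi := (Nat.cast_nonneg _).trans (hΛ _ (mem_filter.1 hg₀).2.1)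
  have hp : ∀ p ∈ on P m₁, ((G.filter fun g : Iso => g p ∈ P').card : ℝ) ≤
      8 * ((edges m₁ m₂ Λ').card * hi) := by
    intro p hp
    have hpm := (mem_on.1 hp).2
    have hc : (G.filter fun g : Iso => g p ∈ P').card ≤
        8 * ((edges m₁ m₂ Λ').sigma fun e => on P' e.1).card :=
      card_le_mul_card_image_of_maps_to
        (f := fun g : Iso => (⟨(g '' m₁, g '' m₂), g p⟩ : Σ _ : Set E3 × Set E3, E3))
        (fun g hg => mem_sigma.2 ⟨mem_edges (mem_filter.1 (mem_filter.1 hg).1).2,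
          mem_on.2 ⟨(mem_filter.1 hg).2, Set.mem_image_of_mem _ hpm⟩⟩) 8 fun e _ =>
          iso_pt h1 h2 hne hpm e.1.1 e.1.2 e.2 _ fun g hg => by
            have := (mem_filter.1 hg).2
            subst this
            exact ⟨rfl, rfl, rfl⟩
    rw [card_sigma] at hc
    have hc' : ((G.filter fun g : Iso => g p ∈ P').card : ℝ) ≤
        8 * ∑ e ∈ edges m₁ m₂ Λ', ((on P' e.1).card : ℝ) := by exact_mod_cast hc
    have hs := sum_le_card_nsmul (edges m₁ m₂ Λ') (fun e => ((on P' e.1).card : ℝ)) hi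
      fun e he => hΛ _ (mem_product.1 (mem_filter.1 he).1).1
    rw [nsmul_eq_mul] at hs
    linarith
  have e1 : ∀ g ∈ G, ((on (mat P P' g) m₁).card : ℝ) * (on (mat P P' g) m₂).card ≤
      (∑ p ∈ on P m₁, if g p ∈ P' then (1 : ℝ) else 0) * hi := by
    intro g hg
    have e2 : ((on (mat P P' g) m₂).card : ℝ) ≤ hi :=
      le_trans (by exact_mod_cast on_mat_le P P' g m₂) (hΛ _ (mem_filter.1 hg).2.2)
    have e3 : on (mat P P' g) m₁ = (on P m₁).filter fun p => g p ∈ P' := by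
      ext p
      simp only [mem_on, mem_mat, mem_filter]
      tauto
    rw [sum_boole, ← e3]
    exact mul_le_mul_of_nonneg_left e2 (Nat.cast_nonneg _)
  refine (sum_le_sum e1).trans ?_
  rw [← sum_mul, sum_comm]
  simp only [sum_boole]
  have hs := sum_le_card_nsmul (on P m₁) (fun p => ((G.filter fun g : Iso => g p ∈ P').card : ℝ)) _ hp
  rw [nsmul_eq_mul] at hs
  refine (mul_le_mul_of_nonneg_right hs hhi).trans (le_of_eq ?_)
  ring

/-- Every pair `(p₁, p₂) ∈ J × J` has `ax p₁ = ax p₂` (at most `2D` choices of `p₂`, `card_on_line`) or is counted in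
`wt (ax p₁) (ax p₂)`. -/
theorem sq_le_wt {P P' : Finset E3} {D : ℕ} (hP : Few P D) (Λ Λ' : Finset (Set E3))
    (hΛ : ∀ m ∈ Λ, IsLine m) (g : Iso) (J : Finset E3) (hJ : J ⊆ mat P P' g) (ax : E3 → Set E3)
    (hax : ∀ p ∈ J, p ∈ ax p ∧ ax p ∈ Λ ∧ g '' ax p ∈ Λ') :
    (J.card : ℝ) ^ 2 ≤ 2 * D * J.card +
      ∑ m₁ ∈ Λ, ∑ m₂ ∈ Λ.erase m₁, (wt P P' Λ' g m₁ m₂ : ℝ) := by
  have hA : ((J ×ˢ J).filter fun a => ax a.1 = ax a.2).card ≤ 2 * D * J.card := by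
    refine card_le_mul_card_image_of_maps_to (f := Prod.fst)
      (fun a ha => (mem_product.1 (mem_filter.1 ha).1).1) _ fun p hp => ?_
    refine le_trans ?_ (card_on_line hP (hΛ _ (hax p hp).2.1))
    refine card_le_card_of_injOn Prod.snd (fun a ha => ?_) fun a ha b hb hab => ?_
    · obtain ⟨ha1, rfl⟩ := mem_filter.1 (mem_coe.1 ha)
      obtain ⟨ha2, ha3⟩ := mem_filter.1 ha1
      have ha4 := (mem_product.1 ha2).2
      refine mem_coe.2 (mem_on.2 ⟨(mem_mat.1 (hJ ha4)).1, ?_⟩)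
      rw [ha3]
      exact (hax _ ha4).1
    · exact Prod.ext ((mem_filter.1 (mem_coe.1 ha)).2.trans (mem_filter.1 (mem_coe.1 hb)).2.symm) hab
  have hB : ((J ×ˢ J).filter fun a => ¬ ax a.1 = ax a.2).card ≤
      ∑ m₁ ∈ Λ, ∑ m₂ ∈ Λ.erase m₁, wt P P' Λ' g m₁ m₂ := by
    have hsub : ((J ×ˢ J).filter fun a => ¬ ax a.1 = ax a.2) ⊆
        Λ.biUnion fun m₁ => (Λ.erase m₁).biUnion fun m₂ =>
          if g '' m₁ ∈ Λ' ∧ g '' m₂ ∈ Λ' then on (mat P P' g) m₁ ×ˢ on (mat P P' g) m₂ else ∅ := by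
      intro a ha
      obtain ⟨ha1, ha2⟩ := mem_filter.1 ha
      obtain ⟨ha3, ha4⟩ := mem_product.1 ha1
      refine mem_biUnion.2 ⟨ax a.1, (hax _ ha3).2.1, mem_biUnion.2 ⟨ax a.2,
        mem_erase.2 ⟨Ne.symm ha2, (hax _ ha4).2.1⟩, ?_⟩⟩
      rw [if_pos ⟨(hax _ ha3).2.2, (hax _ ha4).2.2⟩]
      exact mem_product.2 ⟨mem_on.2 ⟨hJ ha3, (hax _ ha3).1⟩, mem_on.2 ⟨hJ ha4, (hax _ ha4).1⟩⟩
    refine (card_le_card hsub).trans (card_biUnion_le.trans (sum_le_sum fun m₁ _ =>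
      card_biUnion_le.trans (sum_le_sum fun m₂ _ => ?_)))
    unfold wt
    split_ifs <;> simp
  have hC := card_filter_add_card_filter_not (s := J ×ˢ J) fun a => ax a.1 = ax a.2
  rw [card_product] at hC
  have hD : J.card ^ 2 ≤ 2 * D * J.card + ∑ m₁ ∈ Λ, ∑ m₂ ∈ Λ.erase m₁, wt P P' Λ' g m₁ m₂ := by
    rw [sq, ← hC]
    exact Nat.add_le_add hA hB
  exact_mod_cast hD

end Crest.Agent.R65.Pen
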