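import Crest.Agent.R65.Pen.Cong
import Crest.Agent.R65.Pen.Comb
import Crest.Agent.R65.Pen.FrameA

/-! Row 65, `d = 3`, pencils: number of congruent pairs. -/

set_option autoImplicit false

namespace Crest.Agent.R65.Pen

open Finset
open scoped Classical
open Crest.Agent.R33 (E2 InCell)

namespace EdgesAux

theorem sqrt_le {n c z : ℝ} (hn : 0 ≤ n) (hc : 0 ≤ c) (hz : 0 ≤ z) {Y : ℝ}
    (hY : Y ≤ n ^ 2 * c ^ 2 * z) : √Y ≤ n * (c * √z) := by
  have h0 : 0 ≤ n * (c * √z) := by positivity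
  refine Real.sqrt_le_iff.2 ⟨h0, ?_⟩
  have : (n * (c * √z)) ^ 2 = n ^ 2 * c ^ 2 * z := by
    rw [mul_pow, mul_pow, Real.sq_sqrt hz]; ring
  rw [this]; exact hY

/-- parallel lines have a common unit direction -/
theorem par_form {m₁ m₂ : Set E3} (h1 : IsLine m₁) (h2 : IsLine m₂) (hd : dir m₁ = dir m₂) :
    ∃ o₁ o₂ u : E3, ‖u‖ = 1 ∧ m₁ = ln o₁ u ∧ m₂ = ln o₂ u := by
  obtain ⟨o₁, ho₁⟩ := h1.nonempty
  obtain ⟨o₂, ho₂⟩ := h2.nonempty
  obtain ⟨u, hu, hm⟩ := h1.exists_unit ho₁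
  refine ⟨o₁, o₂, u, hu, hm, eq_ln_of_dir h2 ?_ ho₂⟩
  rw [← hd, hm, dir_ln]

theorem pr_const {U : E3} (hU : U ≠ 0) {L : E3 →ₗ[ℝ] E2}
    (hL : ∀ x : E3, ‖L x‖ ^ 2 = ‖x‖ ^ 2 - (inner ℝ U x) ^ 2 / ‖U‖ ^ 2) {o x : E3}
    (hx : x ∈ ln o U) : L x = L o := by
  obtain ⟨t, rfl⟩ := hx
  have : L (t • U) = 0 := (pr_eq_zero hU hL _).2 ⟨t, rfl⟩
  rw [map_add, this, add_zero]

theorem pr_inj {U : E3} (hU : U ≠ 0) {L : E3 →ₗ[ℝ] E2}
    (hL : ∀ x : E3, ‖L x‖ ^ 2 = ‖x‖ ^ 2 - (inner ℝ U x) ^ 2 / ‖U‖ ^ 2) {x y : E3}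
    (h : L x = L y) : ln x U = ln y U := by
  have h0 : L (x - y) = 0 := by rw [map_sub, h, sub_self]
  obtain ⟨t, ht⟩ := (pr_eq_zero hU hL _).1 h0
  exact ln_eq_of_mem ⟨t, by rw [← ht]; abel⟩

/-- adjacent lines parallel to `U` project to points at a fixed distance -/
theorem key {o₁ o₂ u U : E3} (hu : ‖u‖ = 1) (hU : ‖U‖ = 1) {L : E3 →ₗ[ℝ] E2}
    (hL : ∀ x : E3, ‖L x‖ ^ 2 = ‖x‖ ^ 2 - (inner ℝ U x) ^ 2 / ‖U‖ ^ 2) {a b : Set E3}
    (h : Adj (ln o₁ u) (ln o₂ u) a b) (hdir : dir b = ln 0 U) :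
    ∃ x y : E3, a = ln x U ∧ b = ln y U ∧
      dist (L y) (L x) = √(‖o₂ - o₁‖ ^ 2 - (inner ℝ u (o₂ - o₁)) ^ 2) := by
  obtain ⟨g, ha, hb⟩ := h
  rw [image_ln] at ha hb
  have hG : ‖g.linearIsometryEquiv u‖ = 1 := by rw [LinearIsometryEquiv.norm_map, hu]
  have hdd : ln 0 U = ln 0 (g.linearIsometryEquiv u) := by rw [← hdir, ← hb, dir_ln]
  have hln : ∀ o : E3, ln o (g.linearIsometryEquiv u) = ln o U := by
    intro o
    rcases unit_of_dir_eq hU hG hdd with h | h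
    · rw [h]
    · rw [h, ← neg_one_smul ℝ U, ln_smul o U (by norm_num)]
  have hin : (inner ℝ U (g.linearIsometryEquiv (o₂ - o₁))) ^ 2 = (inner ℝ u (o₂ - o₁)) ^ 2 := by
    rw [← g.linearIsometryEquiv.inner_map_map u (o₂ - o₁)]
    rcases unit_of_dir_eq hU hG hdd with h | h
    · rw [h]
    · rw [h, inner_neg_left, neg_sq]
  refine ⟨g o₁, g o₂, by rw [← ha, hln], by rw [← hb, hln], ?_⟩
  have hv : g o₂ - g o₁ = g.linearIsometryEquiv (o₂ - o₁) := by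
    have := g.map_vsub o₂ o₁
    simpa only [vsub_eq_sub] using this.symm
  rw [dist_eq_norm, ← map_sub, hv, ← Real.sqrt_sq (norm_nonneg (L _)), hL, hin,
    LinearIsometryEquiv.norm_map, hU]
  simp

end EdgesAux

open EdgesAux

/-- `kst` with `Dg = Deg`, `x = 4B/lo`, `Y = 32 #Λ²` -/
theorem edges_np {m₁ m₂ : Set E3} (h1 : IsLine m₁) (h2 : IsLine m₂) (hd : dir m₁ ≠ dir m₂)
    {P : Finset E3} {B lo : ℝ} (hB : PlaneBd P B) (hlo : 0 < lo) (Λ : Finset (Set E3))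
    (hΛ : ∀ m ∈ Λ, lo ≤ ((on P m).card : ℝ)) :
    ((edges m₁ m₂ Λ).card : ℝ) ≤ Λ.card * (4 * B / lo + 6 * √(Λ.card)) := by
  have hB0 : 0 ≤ B := by
    obtain ⟨o, u, hu, -⟩ := h1
    exact le_trans (Nat.cast_nonneg _) (hB u 0 hu)
  have hn : (0 : ℝ) ≤ Λ.card := Nat.cast_nonneg _
  have hk := kst Λ Λ (Adj m₁ m₂) Deg (4 * B / lo) (32 * (Λ.card : ℝ) ^ 2) (by positivity)
    (by positivity)
    (fun b _ a _ hab => deg_le h1 h2 hd hB hlo hab _ fun a' ha' => by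
      rw [mem_filter] at ha'
      exact ⟨hΛ a' ha'.1, ha'.2.1, ha'.2.2⟩)
    (by
      calc ∑ a ∈ Λ, ∑ a' ∈ Λ,
            ((Λ.filter fun b => Adj m₁ m₂ a b ∧ Adj m₁ m₂ a' b ∧ ¬ Deg b a a').card : ℝ)
          ≤ ∑ _a ∈ Λ, ∑ _a' ∈ Λ, (32 : ℝ) := by
            refine sum_le_sum fun a _ => sum_le_sum fun a' _ => ?_
            have := nondeg_le h1 h2 hd a a'
              (Λ.filter fun b => Adj m₁ m₂ a b ∧ Adj m₁ m₂ a' b ∧ ¬ Deg b a a')
              fun b hb => (mem_filter.1 hb).2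
            exact_mod_cast this
        _ = 32 * (Λ.card : ℝ) ^ 2 := by
            simp only [sum_const, nsmul_eq_mul]; ring)
  have hs : √((Λ.card : ℝ) * (32 * (Λ.card : ℝ) ^ 2)) ≤ Λ.card * (6 * √(Λ.card)) :=
    sqrt_le hn (by norm_num) hn (by nlinarith [pow_nonneg hn 3])
  unfold edges
  rw [mul_add]
  exact le_trans hk (by linarith)

theorem par_dir {m₁ m₂ : Set E3} (h1 : IsLine m₁) (h2 : IsLine m₂) (hd : dir m₁ = dir m₂)
    {a b : Set E3} (h : Adj m₁ m₂ a b) : dir a = dir b := by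
  obtain ⟨o₁, o₂, u, -, rfl, rfl⟩ := par_form h1 h2 hd
  obtain ⟨g, rfl, rfl⟩ := h
  rw [image_ln, image_ln, dir_ln, dir_ln]

/-- All three lines are parallel to `u`; project along `u` (`exists_pr`): a line `ln o u` goes to the point `L o`,
and adjacent lines go to points at the distance `ρ = ‖w₀‖ > 0`, `w₀ ⟂ u₁` the vector from `m₁` to `m₂`.  Two circles with
different centres meet in at most two points
(`EuclideanGeometry.eq_of_dist_eq_of_dist_eq_of_finrank_eq_two`). -/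
theorem par_codeg {m₁ m₂ : Set E3} (h1 : IsLine m₁) (h2 : IsLine m₂) (hd : dir m₁ = dir m₂)
    {a a' : Set E3} (hne : a ≠ a') (T : Finset (Set E3))
    (hT : ∀ b ∈ T, Adj m₁ m₂ a b ∧ Adj m₁ m₂ a' b) : T.card ≤ 2 := by
  by_contra hc
  obtain ⟨b₁, hb₁, b₂, hb₂, b₃, hb₃, h12, h13, h23⟩ := two_lt_card.1 (not_le.1 hc)
  have hdir : ∀ b ∈ T, dir b = dir a := fun b hb => (par_dir h1 h2 hd (hT b hb).1).symm
  have hla : IsLine a := by
    obtain ⟨g, hg, -⟩ := (hT b₁ hb₁).1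
    rw [← hg]; exact h1.image g
  obtain ⟨p, hp⟩ := hla.nonempty
  obtain ⟨U, hU, haU⟩ := hla.exists_unit hp
  have hU0 : U ≠ 0 := by
    intro h; rw [h, norm_zero] at hU; exact zero_ne_one hU
  have hda : dir a = ln 0 U := by rw [haU, dir_ln]
  obtain ⟨L, hL⟩ := exists_pr hU0
  obtain ⟨o₁, o₂, u, hu, rfl, rfl⟩ := par_form h1 h2 hd
  set ρ := √(‖o₂ - o₁‖ ^ 2 - (inner ℝ u (o₂ - o₁)) ^ 2) with hρ
  obtain ⟨x₀, -, ha₀, -, -⟩ := key hu hU hL (hT b₁ hb₁).1 ((hdir b₁ hb₁).trans hda)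
  obtain ⟨x₀', -, ha₀', -, -⟩ := key hu hU hL (hT b₁ hb₁).2 ((hdir b₁ hb₁).trans hda)
  have hall : ∀ b ∈ T, ∃ y : E3, b = ln y U ∧ dist (L y) (L x₀) = ρ ∧ dist (L y) (L x₀') = ρ := by
    intro b hb
    obtain ⟨x, y, ha, hby, hd1⟩ := key hu hU hL (hT b hb).1 ((hdir b hb).trans hda)
    obtain ⟨x', y', ha', hby', hd2⟩ := key hu hU hL (hT b hb).2 ((hdir b hb).trans hda)
    have e1 : L x = L x₀ := pr_const hU0 hL (by rw [← ha₀, ha]; exact self_mem_ln _ _)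
    have e2 : L x' = L x₀' := pr_const hU0 hL (by rw [← ha₀', ha']; exact self_mem_ln _ _)
    have e3 : L y' = L y := pr_const hU0 hL (by rw [← hby, hby']; exact self_mem_ln _ _)
    exact ⟨y, hby, by rw [← e1]; exact hd1, by rw [← e2, ← e3]; exact hd2⟩
  obtain ⟨y₁, e₁, d₁, d₁'⟩ := hall b₁ hb₁
  obtain ⟨y₂, e₂, d₂, d₂'⟩ := hall b₂ hb₂
  obtain ⟨y₃, e₃, d₃, d₃'⟩ := hall b₃ hb₃
  have hc0 : L x₀ ≠ L x₀' := fun h => hne (by rw [ha₀, ha₀']; exact pr_inj hU0 hL h)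
  have hp0 : L y₁ ≠ L y₂ := fun h => h12 (by rw [e₁, e₂]; exact pr_inj hU0 hL h)
  have hfr : Module.finrank ℝ E2 = 2 := by simp
  rcases EuclideanGeometry.eq_of_dist_eq_of_dist_eq_of_finrank_eq_two hfr hc0 hp0 d₁ d₂ d₃ d₁' d₂'
    d₃' with h | h
  · exact h13 (by rw [e₁, e₃]; exact pr_inj hU0 hL h.symm)
  · exact h23 (by rw [e₂, e₃]; exact pr_inj hU0 hL h.symm)

/-- `kst` with `Dg b a a' := a' = a`, `x = 1`; only parallel pairs `(a, a')` have common neighbours (`par_dir`), there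
are `≤ #Λ · #P / lo` of them (`card_par_mul_le`), so `Y = 2 #Λ #P / lo` -/
theorem edges_par {m₁ m₂ : Set E3} (h1 : IsLine m₁) (h2 : IsLine m₂) (hd : dir m₁ = dir m₂)
    (P : Finset E3) {lo : ℝ} (hlo : 0 < lo) (Λ : Finset (Set E3))
    (hΛ : ∀ m ∈ Λ, IsLine m ∧ lo ≤ ((on P m).card : ℝ)) :
    ((edges m₁ m₂ Λ).card : ℝ) ≤ Λ.card * (1 + 2 * √(P.card / lo)) := by
  have hn : (0 : ℝ) ≤ Λ.card := Nat.cast_nonneg _
  have hz : (0 : ℝ) ≤ P.card / lo := by positivity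
  have hk := kst Λ Λ (Adj m₁ m₂) (fun _ a a' => a' = a) 1 (Λ.card * (2 * (P.card / lo)))
    zero_le_one (by positivity)
    (fun b _ a _ _ => by
      have : (Λ.filter fun a' => Adj m₁ m₂ a' b ∧ a' = a).card ≤ 1 :=
        card_le_one.2 fun x hx y hy => by
          rw [(mem_filter.1 hx).2.2, (mem_filter.1 hy).2.2]
      exact_mod_cast (by convert this))
    (by
      rw [← nsmul_eq_mul, ← sum_const]
      refine sum_le_sum fun a _ => ?_
      have hpar : (((Λ.filter fun a' => dir a' = dir a).card : ℕ) : ℝ) ≤ P.card / lo := by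
        rw [le_div_iff₀ hlo]
        refine card_par_mul_le P _ (dir a) lo fun m hm => ?_
        rw [mem_filter] at hm
        exact ⟨(hΛ m hm.1).1, hm.2, (hΛ m hm.1).2⟩
      refine le_trans (sum_le_sum (g := fun a' => if dir a' = dir a then (2 : ℝ) else 0)
        fun a' _ => ?_) ?_
      · split_ifs with h
        · by_cases hne : a' = a
          · rw [filter_false_of_mem fun b _ hb => hb.2.2 hne]
            simp
          · have := par_codeg h1 h2 hd (Ne.symm hne)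
              (Λ.filter fun b => Adj m₁ m₂ a b ∧ Adj m₁ m₂ a' b ∧ ¬ a' = a)
              fun b hb => ⟨(mem_filter.1 hb).2.1, (mem_filter.1 hb).2.2.1⟩
            exact_mod_cast (by convert this)
        · rw [filter_false_of_mem fun b _ hb =>
            h ((par_dir h1 h2 hd hb.2.1).trans (par_dir h1 h2 hd hb.1).symm)]
          simp
      · rw [← sum_filter, sum_const, nsmul_eq_mul]
        linarith)
  have hs : √((Λ.card : ℝ) * (Λ.card * (2 * (P.card / lo)))) ≤ Λ.card * (2 * √(P.card / lo)) :=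
    sqrt_le hn (by norm_num) hz (by nlinarith [mul_nonneg (sq_nonneg (Λ.card : ℝ)) hz])
  unfold edges
  rw [mul_add]
  exact le_trans hk (by linarith)

end Crest.Agent.R65.Pen
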