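import Crest.Agent.R65.Pen.FrameA
import Crest.Agent.S0043

/-! Row 65, `d = 3`, pencils: projections, points in a plane. -/

set_option autoImplicit false

namespace Crest.Agent.R65.Pen

open Finset
open scoped Classical
open Crest.Agent.R33 (E2 InCell)

/-- `S0043.result` with `1 - ε = 1200 / 1202`, `δ = 1 / 2`, applied to the image of the points of the plane under
`L` (an isometry on the plane): some point has at least `m ^ (1 - ε)` distances, so `m ^ (1200/1202) ≤ D ≤ t ^ 1200`;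
if `m < N₀` use `N₀ ≤ t₀ ≤ t ^ 1202`. -/
theorem planeBd : ∃ t₀ : ℝ, ∀ t : ℝ, t₀ ≤ t → ∀ (P : Finset E3) (D : ℕ), Few P D →
    (D : ℝ) ≤ t ^ 1200 → PlaneBd P (t ^ 1202) := by
  obtain ⟨N₀, hN⟩ := Crest.Agent.S0043.result (2 / 1202) (by norm_num) (1 / 2) (by norm_num)
  refine ⟨max N₀ 1, fun t ht P D hF hD u d hu => ?_⟩
  obtain ⟨𝒟, h𝒟, hP⟩ := hF
  have ht1 : 1 ≤ t := le_of_max_le_right ht
  have ht0 : (N₀ : ℝ) ≤ t := le_of_max_le_left ht
  obtain ⟨L, hL⟩ := exists_pr hu
  set Q := P.filter fun x => inner ℝ u x = d with hQ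
  have hiso : ∀ p ∈ Q, ∀ q ∈ Q, dist (L p) (L q) = dist p q := by
    intro p hp q hq
    have h := hL (p - q)
    rw [inner_sub_right, (mem_filter.1 hp).2, (mem_filter.1 hq).2, sub_self, map_sub] at h
    rw [dist_eq_norm, dist_eq_norm]
    refine (sq_eq_sq₀ (norm_nonneg _) (norm_nonneg _)).1 ?_
    rw [h]
    ring
  have hc : (Q.image L).card = Q.card := card_image_of_injOn fun p hp q hq h => by
    have := hiso p hp q hq
    rw [h, dist_self] at this
    exact dist_eq_zero.1 this.symm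
  by_contra hlt
  rw [not_le] at hlt
  have h1 : t ≤ t ^ 1202 := le_self_pow₀ ht1 (by norm_num)
  have hm : N₀ ≤ Q.card := by exact_mod_cast (ht0.trans h1).trans hlt.le
  have hm0 : (0 : ℝ) < Q.card := by linarith
  have key := hN Q.card hm (Q.image L) hc
  have hpow : (D : ℝ) < (Q.card : ℝ) ^ (1 - 2 / 1202 : ℝ) := by
    refine hD.trans_lt ?_
    have e : t ^ 1200 = (t ^ 1202) ^ (1 - 2 / 1202 : ℝ) := by
      rw [← Real.rpow_natCast t 1202, ← Real.rpow_mul (by linarith), ← Real.rpow_natCast]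
      norm_num
    rw [e]
    exact Real.rpow_lt_rpow (by positivity) hlt (by norm_num)
  rw [filter_true_of_mem, hc] at key
  · linarith
  intro x hx
  refine lt_of_le_of_lt ?_ hpow
  have : (((Q.image L).erase x).image fun y => dist x y) ⊆ 𝒟 := by
    intro r hr
    obtain ⟨y, hy, rfl⟩ := mem_image.1 hr
    obtain ⟨q, hq, rfl⟩ := mem_image.1 (mem_of_mem_erase hy)
    obtain ⟨p, hp, rfl⟩ := mem_image.1 hx
    rw [hiso p hp q hq]
    exact hP p (mem_filter.1 hp).1 q (mem_filter.1 hq).1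
  exact_mod_cast (card_le_card this).trans h𝒟

end Crest.Agent.R65.Pen
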