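import Crest.Agent.R65.Pen.ST
import Crest.Agent.R65.Pen.FrameA

/-! Row 65, `d = 3`, pencils: coaxial pairs, parallel axes. -/

set_option autoImplicit false

namespace Crest.Agent.R65.Pen

open Finset
open scoped Classical
open Crest.Agent.R33 (E2 InCell)

namespace NuAux

theorem inj_level {u : E3} (hu : u ≠ 0) {L : E3 →ₗ[ℝ] E2}
    (hL : ∀ x : E3, ‖L x‖ ^ 2 = ‖x‖ ^ 2 - (inner ℝ u x) ^ 2 / ‖u‖ ^ 2) {q q' : E3}
    (h : inner ℝ u q = inner ℝ u q') (e : L q = L q') : q = q' := by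
  obtain ⟨t, ht⟩ := (pr_eq_zero hu hL (q - q')).1 (by rw [map_sub, e, sub_self])
  have h1 : inner ℝ u (q - q') = 0 := by rw [inner_sub_right, h, sub_self]
  rw [ht, real_inner_smul_right, real_inner_self_eq_norm_sq] at h1
  have h2 : t = 0 := (mul_eq_zero.1 h1).resolve_right (pow_ne_zero 2 (norm_ne_zero_iff.2 hu))
  rw [h2, zero_smul] at ht
  exact sub_eq_zero.1 ht

theorem dist_level {u : E3} {L : E3 →ₗ[ℝ] E2}
    (hL : ∀ x : E3, ‖L x‖ ^ 2 = ‖x‖ ^ 2 - (inner ℝ u x) ^ 2 / ‖u‖ ^ 2) {o q q' : E3}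
    (h : inner ℝ u q = inner ℝ u q') (e : dist o q = dist o q') :
    dist (L o) (L q) = dist (L o) (L q') := by
  rw [dist_eq_norm, dist_eq_norm] at e
  rw [dist_eq_norm, dist_eq_norm, ← map_sub, ← map_sub,
    ← pow_left_inj₀ (norm_nonneg _) (norm_nonneg _) two_ne_zero, hL, hL, e, inner_sub_right,
    inner_sub_right, h]

theorem level {C : ℝ} (H : ∀ (Z Q : Finset E2) (τ : ℝ), 88 ≤ τ →
      ∑ z ∈ Z, ∑ q ∈ Q, ((Q.filter fun q' => dist z q = dist z q').card : ℝ) ≤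
        Q.card * (2 * τ * Q.card + C * ((Z.card : ℝ) ^ 2 / τ ^ 2 + Z.card)))
    {P : Finset E3} {B τ : ℝ} {Λ : Finset (Set E3)} (hP : PlaneBd P B) (hτ : 88 ≤ τ) {u : E3}
    (hu : u ≠ 0) {o : Set E3 → E3} (ho : ∀ m ∈ Λ, m = ln (o m) u) (d : ℝ) :
    ∑ m ∈ Λ, ∑ q ∈ P.filter (fun x => inner ℝ u x = d), ((on P (orb m q)).card : ℝ) ≤
      (P.filter fun x => inner ℝ u x = d).card *
        (2 * τ * B + C * ((Λ.card : ℝ) ^ 2 / τ ^ 2 + Λ.card)) := by
  obtain ⟨L, hL⟩ := exists_pr hu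
  set Q := P.filter (fun x => inner ℝ u x = d) with hQ
  have iQ : Set.InjOn L (Q : Set E3) := fun q hq q' hq' e =>
    inj_level hu hL ((mem_filter.1 hq).2.trans (mem_filter.1 hq').2.symm) e
  have iΛ : Set.InjOn (fun m => L (o m)) (Λ : Set (Set E3)) := by
    intro m hm m' hm' e
    obtain ⟨t, ht⟩ := (pr_eq_zero hu hL (o m - o m')).1 (by
      rw [map_sub]; exact sub_eq_zero.2 e)
    have : o m ∈ ln (o m') u := ⟨t, by rw [← ht]; abel⟩
    rw [ho m hm, ho m' hm', ← ln_eq_of_mem this, ← ho m hm]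
  have h1 := H (Λ.image fun m => L (o m)) (Q.image L) τ hτ
  rw [sum_image iΛ, card_image_of_injOn iΛ, card_image_of_injOn iQ] at h1
  have hB : (Q.card : ℝ) ≤ B := hP u d hu
  refine le_trans (sum_le_sum fun m hm => ?_) (h1.trans ?_)
  · rw [sum_image iQ]
    refine sum_le_sum fun q hq => ?_
    have hsub : ∀ q' ∈ on P (orb m q), q' ∈ Q ∧ dist (o m) q = dist (o m) q' := by
      intro q' hq'
      obtain ⟨a, b⟩ := mem_on.1 hq'
      have c : Coax (ln (o m) u) q q' := by rw [← ho m hm]; exact b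
      obtain ⟨c1, c2⟩ := coax_ln.1 c
      rw [inner_sub_right, sub_eq_zero] at c1
      exact ⟨mem_filter.2 ⟨a, c1.trans (mem_filter.1 hq).2⟩, c2⟩
    refine Nat.cast_le.2 (card_le_card_of_injOn L (fun q' hq' => ?_)
      (iQ.mono fun q' hq' => (hsub q' hq').1))
    obtain ⟨a, b⟩ := hsub q' hq'
    exact mem_filter.2 ⟨mem_image_of_mem _ a,
      dist_level hL ((mem_filter.1 hq).2.trans (mem_filter.1 a).2.symm) b⟩
  · have : (0 : ℝ) ≤ τ := by linarith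
    gcongr

end NuAux

/-- All lines are `ln (o m) u` for one `u` (`eq_ln_of_dir`), `L` from `exists_pr`, `Z` = image of `Λ` under
`m ↦ L (o m)` (injective: `pr_eq_zero`).  Split `P` by the height `inner u ·`; a level set `Q` has `≤ B` points, `L` is
injective on it, and `q' ∈ orb m q` implies the same height and `dist (L o) (L q) = dist (L o) (L q')` (`coax_ln`).
`iso2` for each level. -/
theorem nu_bound : ∃ C : ℝ, 0 < C ∧ ∀ (P : Finset E3) (B κ τ : ℝ) (Λ : Finset (Set E3)) (w : Set E3),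
    PlaneBd P B → 88 ≤ τ → (∀ m ∈ Λ, IsLine m ∧ dir m = w) →
    ∑ m ∈ Λ, (SS P κ m : ℝ) ≤
      P.card * (2 * τ * B + C * ((Λ.card : ℝ) ^ 2 / τ ^ 2 + Λ.card)) := by
  obtain ⟨C, hC, H⟩ := iso2
  refine ⟨C, hC, fun P B κ τ Λ w hP hτ hΛ => ?_⟩
  obtain ⟨u, hu, hw⟩ : ∃ u : E3, u ≠ 0 ∧ ∀ m ∈ Λ, dir m = ln 0 u := by
    rcases Λ.eq_empty_or_nonempty with rfl | ⟨m₀, hm₀⟩
    · obtain ⟨u, hu⟩ := exists_ne (0 : E3)
      exact ⟨u, hu, by simp⟩
    · obtain ⟨⟨o, u, hu, e⟩, h⟩ := hΛ m₀ hm₀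
      exact ⟨u, hu, fun m hm => by rw [(hΛ m hm).2, ← h, e, dir_ln]⟩
  have hex : ∀ m : Set E3, ∃ p : E3, m ∈ Λ → m = ln p u := by
    intro m
    by_cases hm : m ∈ Λ
    · obtain ⟨p, hp⟩ := (hΛ m hm).1.nonempty
      exact ⟨p, fun _ => eq_ln_of_dir (hΛ m hm).1 (hw m hm) hp⟩
    · exact ⟨0, fun h => absurd h hm⟩
  choose o ho using hex
  have h1 : ∑ m ∈ Λ, (SS P κ m : ℝ) ≤ ∑ m ∈ Λ, ∑ q ∈ P, ((on P (orb m q)).card : ℝ) := by
    refine sum_le_sum fun m _ => ?_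
    rw [SS, Nat.cast_sum]
    exact sum_le_sum_of_subset_of_nonneg (filter_subset _ _) fun _ _ _ => Nat.cast_nonneg _
  have hmap : ∀ x ∈ P, inner ℝ u x ∈ P.image fun x => inner ℝ u x := fun x hx =>
    mem_image_of_mem _ hx
  have h2 : ∑ m ∈ Λ, ∑ q ∈ P, ((on P (orb m q)).card : ℝ) =
      ∑ d ∈ P.image (fun x => inner ℝ u x), ∑ m ∈ Λ,
        ∑ q ∈ P.filter (fun x => inner ℝ u x = d), ((on P (orb m q)).card : ℝ) := by
    rw [sum_comm]
    exact (sum_congr rfl fun m _ => (sum_fiberwise_of_maps_to hmap _).symm).trans sum_comm |>.symm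
      |>.symm |> fun h => sum_comm.trans h
  rw [card_eq_sum_card_fiberwise hmap, Nat.cast_sum, sum_mul]
  refine h1.trans (h2.trans_le (sum_le_sum fun d _ => ?_))
  exact NuAux.level H hP hτ hu ho d

end Crest.Agent.R65.Pen
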