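import Crest.Agent.R65.Pen.Defs

/-! Row 65, `d = 3`, pencils: numerical inequalities. -/

set_option autoImplicit false

namespace Crest.Agent.R65.Pen

open Finset
open scoped Classical
open Crest.Agent.R33 (E2 InCell)

namespace NumAux

theorem nu_abs {A B C T ν : ℝ} (hA : 0 < A) (hB : 0 < B) (hC : 0 < C) (hT : 0 < T) (hν : 0 < ν)
    (h4 : 4 * C * A ≤ T) (H : ∀ τ : ℝ, 88 ≤ τ → ν * T ≤ A * (2 * τ * B + C * (ν ^ 2 / τ ^ 2 + ν))) :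
    ν * T ^ 3 ≤ 64 * C * (A ^ 3 * B ^ 2) ∨ ν * T ≤ 352 * (A * B) := by
  have key : ∀ τ : ℝ, 88 ≤ τ → 4 * C * A * ν / T ≤ τ ^ 2 → ν * T ≤ 4 * τ * (A * B) := by
    intro τ h1 h2
    have hτ : 0 < τ := by linarith
    have h3 : A * C * (ν ^ 2 / τ ^ 2) ≤ ν * T / 4 := by
      rw [div_le_iff₀ hT] at h2
      rw [← mul_div_assoc, div_le_div_iff₀ (by positivity) (by positivity)]
      nlinarith [mul_le_mul_of_nonneg_left h2 hν.le]
    have h5 := mul_le_mul_of_nonneg_left h4 hν.le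
    have := H τ h1
    nlinarith
  have h0 : 0 ≤ 4 * C * A * ν / T := by positivity
  rcases le_total 88 √(4 * C * A * ν / T) with h | h
  · left
    have h1 := key _ h (Real.sq_sqrt h0).ge
    have h2 := pow_le_pow_left₀ (by positivity) h1 2
    rw [mul_pow (4 * _), mul_pow 4, Real.sq_sqrt h0] at h2
    have h3 := mul_le_mul_of_nonneg_right h2 hT.le
    have e : 4 ^ 2 * (4 * C * A * ν / T) * (A * B) ^ 2 * T = ν * (64 * C * (A ^ 3 * B ^ 2)) := by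
      field_simp
      ring
    rw [e, show (ν * T) ^ 2 * T = ν * (ν * T ^ 3) by ring] at h3
    exact le_of_mul_le_mul_left h3 hν
  · right
    have h1 := key 88 le_rfl (Real.sqrt_le_left (by norm_num) |>.1 h)
    linarith

/-- `x ≤ t ^ (b - a)` -/
def R (t x : ℝ) (a b : ℕ) : Prop := 0 ≤ x ∧ x * t ^ a ≤ t ^ b

theorem R.mul {t x y : ℝ} {a b c d : ℕ} (ht : 1 ≤ t) (h : R t x a b) (h' : R t y c d) :
    R t (x * y) (a + c) (b + d) := by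
  refine ⟨mul_nonneg h.1 h'.1, ?_⟩
  have h0 : 0 ≤ t := by linarith
  have := mul_le_mul h.2 h'.2 (mul_nonneg h'.1 (pow_nonneg h0 _)) (pow_nonneg h0 _)
  rw [pow_add, pow_add]
  linarith

theorem R.pow {t x : ℝ} {a b : ℕ} (ht : 1 ≤ t) (h : R t x a b) (n : ℕ) :
    R t (x ^ n) (a * n) (b * n) := by
  refine ⟨pow_nonneg h.1 _, ?_⟩
  rw [pow_mul, pow_mul, ← mul_pow]
  exact pow_le_pow_left₀ (mul_nonneg h.1 (pow_nonneg (by linarith) _)) h.2 n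

theorem R.self {t : ℝ} (ht : 1 ≤ t) (k : ℕ) : R t (t ^ k) 0 k :=
  ⟨pow_nonneg (by linarith) _, by rw [pow_zero, mul_one]⟩

theorem R.le {t x : ℝ} {a b : ℕ} (ht : 1 ≤ t) (h : R t x a b) (c : ℕ) (hc : b ≤ c + a) :
    x ≤ t ^ c := by
  have h1 : t ^ b ≤ t ^ c * t ^ a := by
    rw [← pow_add]
    exact pow_le_pow_right₀ ht hc
  exact le_of_mul_le_mul_right (h.2.trans h1) (pow_pos (by linarith) _)

theorem fin {t J U V W X l l' ν : ℝ} (ht : 104 ≤ t) (hJ : 0 < J) (hl' : 0 ≤ l') (hν : 0 ≤ ν)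
    (hV : 0 ≤ V) (hX : 0 ≤ X) (hW : J ≤ W) (h1 : t ^ 2 * U * J * l ^ 2 * l' ≤ X)
    (h2 : t ^ 4 * J ^ 4 * l ^ 4 * l' ^ 3 ≤ X ^ 2)
    (h4 : t ^ 4 * V ^ 2 * W * J ^ 3 * ν ^ 2 * l' ^ 2 ≤ X ^ 2) :
    8 * (J * t) ^ 2 * l ^ 2 * (l' * (4 * U / J + 6 * √l')) +
      8 * (J * t) ^ 2 * V * ν * (l' * (1 + 2 * √(W / J))) ≤ X * t := by
  have hq : 1 ≤ √(W / J) := Real.one_le_sqrt.2 ((one_le_div hJ).2 hW)
  have hW0 : 0 ≤ W / J := div_nonneg (hJ.le.trans hW) hJ.le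
  have a2 : t ^ 2 * J ^ 2 * l ^ 2 * l' * √l' ≤ X := by
    refine (abs_le_of_sq_le_sq' ?_ hX).2
    rw [mul_pow, Real.sq_sqrt hl']
    linarith
  have a4 : t ^ 2 * J ^ 2 * V * ν * l' * √(W / J) ≤ X := by
    refine (abs_le_of_sq_le_sq' ?_ hX).2
    rw [mul_pow, Real.sq_sqrt hW0]
    refine le_of_eq_of_le ?_ h4
    field_simp
  have a3 : t ^ 2 * J ^ 2 * V * ν * l' ≤ X :=
    (le_mul_of_one_le_right (by positivity) hq).trans a4
  have e : 8 * (J * t) ^ 2 * l ^ 2 * (l' * (4 * U / J + 6 * √l')) =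
      32 * (t ^ 2 * U * J * l ^ 2 * l') + 48 * (t ^ 2 * J ^ 2 * l ^ 2 * l' * √l') := by
    field_simp
    ring
  rw [e]
  have := mul_le_mul_of_nonneg_left ht hX
  linarith

end NumAux

/-- If `ν > 0` and `τ² := 4 C t^1801 ν / t^i ≥ 88²` use this `τ`, else `τ = 88`; the last term is `≤ ν t^i / 4`.
One gets `ν t^(3i) ≤ 256 C t^7807` or `ν t^i ≤ 352 t^3003`. -/
theorem num_nu (C : ℝ) (hC : 0 < C) : ∃ t₀ : ℝ, ∀ t : ℝ, t₀ ≤ t → ∀ (i : ℕ) (ν : ℝ), 2397 ≤ i → 0 ≤ ν →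
    (∀ τ : ℝ, 88 ≤ τ →
      ν * t ^ i ≤ t ^ 1801 * (2 * τ * t ^ 1202 + C * (ν ^ 2 / τ ^ 2 + ν))) →
    ν * t ^ (3 * i) ≤ t ^ 7808 ∨ ν * t ^ i ≤ t ^ 3004 := by
  refine ⟨max 352 (64 * C), fun t ht i ν hi hν H => ?_⟩
  have h1 : 352 ≤ t := (le_max_left _ _).trans ht
  have h2 : 64 * C ≤ t := (le_max_right _ _).trans ht
  have h0 : 0 < t := by linarith
  rcases hν.eq_or_lt with h | h
  · left
    rw [← h, zero_mul]
    positivity
  have h4 : 4 * C * t ^ 1801 ≤ t ^ i := by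
    refine le_trans ?_ (pow_le_pow_right₀ (by linarith) (show 1801 + 1 ≤ i by omega))
    rw [pow_succ' t 1801]
    exact mul_le_mul_of_nonneg_right (by linarith) (by positivity)
  rcases NumAux.nu_abs (pow_pos h0 _) (pow_pos h0 _) hC (pow_pos h0 _) h h4 H with h5 | h5
  · left
    rw [← pow_mul, ← pow_mul, ← pow_mul, ← pow_add, mul_comm i 3] at h5
    refine h5.trans ?_
    rw [show 7808 = 1801 * 3 + 1202 * 2 + 1 by norm_num, pow_succ' t (1801 * 3 + 1202 * 2)]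
    exact mul_le_mul_of_nonneg_right h2 (by positivity)
  · right
    rw [← pow_add] at h5
    refine h5.trans ?_
    rw [show 3004 = 1801 + 1202 + 1 by norm_num, pow_succ' t (1801 + 1202)]
    exact mul_le_mul_of_nonneg_right h1 (by positivity)

/-- `l ≤ t^1219`, `l l' ≤ t^2438`, `ν ≤ t^617`, `ν l' ≤ t^1836`.  Case `j ≤ 800`: `(l² l' √l')² = l (l l')³ ≤ t^8533`,
the three terms are `≤ t^5870, t^5663, t^5956` (`t^1801/t^j ≤ (t^(901 - j/2))²`, or square everything).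
Case `j > 800`: `l' t^(3j) ≤ t^3603` or `l' t^j ≤ t^1802`; the terms are `≤ t^5845, t^5647, t^5940`. -/
theorem num_main : ∃ t₀ : ℝ, ∀ t : ℝ, t₀ ≤ t → ∀ (i j : ℕ) (l l' ν : ℝ), 2397 ≤ i → j ≤ 1201 →
    0 ≤ l → 0 ≤ l' → 0 ≤ ν → l * t ^ i ≤ t ^ 3616 → l' * t ^ 4794 ≤ t ^ 3616 * t ^ i →
    (ν * t ^ (3 * i) ≤ t ^ 7808 ∨ ν * t ^ i ≤ t ^ 3004) →
    (800 < j → l' * t ^ (3 * j) ≤ t ^ 3603 ∨ l' * t ^ j ≤ t ^ 1802) →
    8 * (t ^ (j + 1)) ^ 2 * l ^ 2 * (l' * (4 * t ^ 1202 / t ^ j + 6 * √l')) +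
      8 * (t ^ (j + 1)) ^ 2 * t ^ 2015 * ν * (l' * (1 + 2 * √(t ^ 1801 / t ^ j))) ≤ t ^ 5958 := by
  refine ⟨104, fun t ht i j l l' ν hi hj hl hl' hν h1 h2 h3 h4 => ?_⟩
  have h0 : 0 < t := by linarith
  have ht1 : 1 ≤ t := by linarith
  have rl : NumAux.R t l i 3616 := ⟨hl, h1⟩
  have rl' : NumAux.R t l' 4794 (3616 + i) := ⟨hl', by rwa [pow_add]⟩
  have rν : NumAux.R t ν (3 * i) 7808 ∨ NumAux.R t ν i 3004 := h3.imp (⟨hν, ·⟩) (⟨hν, ·⟩)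
  have rj : 800 < j → NumAux.R t l' (3 * j) 3603 ∨ NumAux.R t l' j 1802 :=
    fun h => (h4 h).imp (⟨hl', ·⟩) (⟨hl', ·⟩)
  have S := NumAux.R.self ht1
  have t1 : ∀ {a b : ℕ}, NumAux.R t l' a b → 2 + 1202 + j + 3616 * 2 + b ≤ 5957 + (i * 2 + a) →
      t ^ 2 * t ^ 1202 * t ^ j * l ^ 2 * l' ≤ t ^ 5957 := fun r h =>
    (((((S 2).mul ht1 (S 1202)).mul ht1 (S j)).mul ht1 (rl.pow ht1 2)).mul ht1 r).le ht1 _
      (by omega)
  have t2 : ∀ {a b : ℕ}, NumAux.R t l' a b →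
      4 + j * 4 + 3616 * 4 + b * 3 ≤ 5957 * 2 + (i * 4 + a * 3) →
      t ^ 4 * (t ^ j) ^ 4 * l ^ 4 * l' ^ 3 ≤ (t ^ 5957) ^ 2 := fun r h => by
    rw [← pow_mul t 5957]
    exact ((((S 4).mul ht1 ((S j).pow ht1 4)).mul ht1 (rl.pow ht1 4)).mul ht1
      (r.pow ht1 3)).le ht1 _ (by omega)
  have t4 : ∀ {a b c d : ℕ}, NumAux.R t ν c d → NumAux.R t l' a b →
      4 + 2015 * 2 + 1801 + j * 3 + d * 2 + b * 2 ≤ 5957 * 2 + (c * 2 + a * 2) →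
      t ^ 4 * (t ^ 2015) ^ 2 * t ^ 1801 * (t ^ j) ^ 3 * ν ^ 2 * l' ^ 2 ≤ (t ^ 5957) ^ 2 :=
    fun r' r h => by
      rw [← pow_mul t 5957]
      exact ((((((S 4).mul ht1 ((S 2015).pow ht1 2)).mul ht1 (S 1801)).mul ht1
        ((S j).pow ht1 3)).mul ht1 (r'.pow ht1 2)).mul ht1 (r.pow ht1 2)).le ht1 _ (by omega)
  rw [pow_succ t j, show 5958 = 5957 + 1 by norm_num, pow_succ t 5957]
  refine NumAux.fin ht (pow_pos h0 _) hl' hν (pow_pos h0 _).le (pow_pos h0 _).le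
    (pow_le_pow_right₀ ht1 (by omega)) ?_ ?_ ?_
  · rcases Nat.lt_or_ge 800 j with h | h
    · rcases rj h with r | r <;> exact t1 r (by omega)
    · exact t1 rl' (by omega)
  · rcases Nat.lt_or_ge 800 j with h | h
    · rcases rj h with r | r <;> exact t2 r (by omega)
    · exact t2 rl' (by omega)
  · rcases Nat.lt_or_ge 800 j with h | h
    · rcases rj h with r | r <;> rcases rν with r' | r' <;> exact t4 r' r (by omega)
    · rcases rν with r' | r' <;> exact t4 r' rl' (by omega)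

end Crest.Agent.R65.Pen
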