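import Crest.Agent.R65.Pen.Circ
import Crest.Agent.R65.Pen.Comb

/-! Row 65, `d = 3`, pencils: coaxial pairs, all axes. -/

set_option autoImplicit false

namespace Crest.Agent.R65.Pen

open Finset
open scoped Classical
open Crest.Agent.R33 (E2 InCell)

/-- For `m ∈ Λ` let `𝒞 m` be the image of `{q ∈ P : κ ≤ #on P (orb m q)}` under `orb m`;
`SS P κ m = ∑_{Γ ∈ 𝒞 m} (#on P Γ)²` (`orb_eq`; the fibre over `Γ` is `on P Γ`), the members are circles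
(`isCirc_orb`), the `𝒞 m` are pairwise disjoint (`axis_unique`).  `sq_of_rich` for their union with `circles3`,
`card_orb_le`. -/
theorem psi : ∃ C : ℝ, 0 < C ∧ ∀ (P : Finset E3) (B κ : ℝ) (Λ : Finset (Set E3)), PlaneBd P B →
    132 ≤ κ → (∀ m ∈ Λ, IsLine m) →
    ∑ m ∈ Λ, (SS P κ m : ℝ) ≤ C * ((P.card : ℝ) ^ 3 / κ ^ 3 + B ^ 3) := by
  obtain ⟨C, hC, h3⟩ := circles3
  refine ⟨10 * C + 10, by positivity, fun P B κ Λ hB hκ hΛ => ?_⟩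
  have B0 : 0 ≤ B := (Nat.cast_nonneg _).trans (hB (EuclideanSpace.single 0 1) 0 (by simp))
  set 𝒞 : Set E3 → Finset (Set E3) := fun m =>
    (P.filter fun q => κ ≤ ((on P (orb m q)).card : ℝ)).image (orb m) with h𝒞
  have hmem : ∀ m ∈ Λ, ∀ Γ ∈ 𝒞 m, ∃ q, Γ = orb m q ∧ IsCirc (orb m q) ∧
      κ ≤ ((on P (orb m q)).card : ℝ) := by
    intro m hm Γ hΓ
    obtain ⟨q, hq, rfl⟩ := mem_image.1 hΓ
    have h1 := (mem_filter.1 hq).2
    have h2 : 1 < (on P (orb m q)).card := by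
      have : (1 : ℝ) < (on P (orb m q)).card := by linarith
      exact_mod_cast this
    obtain ⟨q', h4, h5⟩ := exists_mem_ne h2 q
    exact ⟨q, rfl, isCirc_orb (hΛ m hm) (mem_on.1 h4).2 h5, h1⟩
  have hdis : Set.PairwiseDisjoint (Λ : Set (Set E3)) 𝒞 := by
    intro m hm m' hm' hne
    refine disjoint_left.2 fun Γ h1 h2 => hne ?_
    obtain ⟨q, e, hc, -⟩ := hmem m hm Γ h1
    obtain ⟨q', e', -, -⟩ := hmem m' hm' Γ h2
    exact axis_unique (hΛ m hm) (hΛ m' hm') hc (e.symm.trans e')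
  have h1 : ∀ m ∈ Λ, (SS P κ m : ℝ) ≤ ∑ Γ ∈ 𝒞 m, ((on P Γ).card : ℝ) ^ 2 := by
    intro m _
    have h2 : SS P κ m ≤ ∑ Γ ∈ 𝒞 m, (on P Γ).card ^ 2 := by
      refine (sum_comp (fun Γ => (on P Γ).card) (orb m)).trans_le (sum_le_sum fun Γ _ => ?_)
      rw [smul_eq_mul, sq]
      refine Nat.mul_le_mul_right _ (card_le_card fun q hq => ?_)
      obtain ⟨h4, rfl⟩ := mem_filter.1 hq
      exact mem_on.2 ⟨(mem_filter.1 h4).1, mem_orb_self m q⟩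
    exact_mod_cast h2
  have h2 : ∀ Γ ∈ Λ.biUnion 𝒞, IsCirc Γ ∧ κ ≤ ((on P Γ).card : ℝ) ∧ ((on P Γ).card : ℝ) ≤ B := by
    intro Γ hΓ
    obtain ⟨m, hm, h4⟩ := mem_biUnion.1 hΓ
    obtain ⟨q, rfl, hc, h5⟩ := hmem m hm Γ h4
    exact ⟨hc, h5, card_orb_le hB (hΛ m hm) q⟩
  have h4 := sq_of_rich (Λ.biUnion 𝒞) (fun Γ => (on P Γ).card) (C * (P.card : ℝ) ^ 3) κ B
    (by positivity) (by linarith) B0 (fun Γ hΓ => (h2 Γ hΓ).2) fun k hk =>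
      h3 P _ k (fun Γ hΓ => (h2 Γ (mem_filter.1 hΓ).1).1) (hκ.trans hk)
        fun Γ hΓ => (mem_filter.1 hΓ).2
  rw [sum_biUnion hdis, mul_div_assoc] at h4
  have h5 : 0 ≤ (P.card : ℝ) ^ 3 / κ ^ 3 := div_nonneg (by positivity) (pow_nonneg (by linarith) 3)
  have h6 : 0 ≤ C * B ^ 3 := by positivity
  linarith [sum_le_sum h1]

end Crest.Agent.R65.Pen
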