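import Crest.Agent.R65.Pen.Proj
import Crest.Agent.R65.Pen.Frame
import Crest.Agent.R65.Pen.Psi
import Crest.Agent.R65.Pen.Nu
import Crest.Agent.R65.Pen.Edges
import Crest.Agent.R65.Pen.Count
import Crest.Agent.R65.Pen.Num

/-! Row 65, `d = 3`, pencils: one class of heavy incidences. -/

set_option autoImplicit false

namespace Crest.Agent.R65.Pen

open Finset
open scoped Classical
open Crest.Agent.R33 (E2 InCell)

namespace CoreAux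

theorem quad {I G D T : ℝ} (hG : 0 ≤ G) (hD : 0 ≤ D) (hT : 0 ≤ T)
    (h : I ^ 2 ≤ G * (D * I + T)) : I ≤ D * G + √(G * T) := by
  by_contra hlt
  rw [not_le] at hlt
  have h1 := Real.sqrt_nonneg (G * T)
  have h2 := Real.sq_sqrt (mul_nonneg hG hT)
  have h3 := mul_nonneg hD hG
  nlinarith

/-- splitting the double sum into non-parallel and parallel pairs -/
theorem sum_wt (P P' : Finset E3) (𝒢 : Finset Iso) (Λ Λ' : Finset (Set E3)) {hi E₁ E₂ ν : ℝ}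
    (hΛ : ∀ m ∈ Λ, IsLine m) (hΛ' : ∀ m ∈ Λ', ((on P' m).card : ℝ) ≤ hi) (h1 : 0 ≤ E₁) (h2 : 0 ≤ E₂)
    (hE₁ : ∀ m₁ ∈ Λ, ∀ m₂ ∈ Λ, dir m₁ ≠ dir m₂ → ((edges m₁ m₂ Λ').card : ℝ) ≤ E₁)
    (hE₂ : ∀ m₁ ∈ Λ, ∀ m₂ ∈ Λ, dir m₁ = dir m₂ → ((edges m₁ m₂ Λ').card : ℝ) ≤ E₂)
    (hν : ∀ m ∈ Λ, ((Λ.filter fun m' => dir m' = dir m).card : ℝ) ≤ ν) :
    ∑ g ∈ 𝒢, ∑ m₁ ∈ Λ, ∑ m₂ ∈ Λ.erase m₁, (wt P P' Λ' g m₁ m₂ : ℝ) ≤
      8 * hi ^ 2 * (Λ.card : ℝ) ^ 2 * E₁ +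
        8 * hi ^ 2 * (∑ m ∈ Λ, ((on P m).card : ℝ)) * ν * E₂ := by
  rw [sum_comm]
  have key : ∀ m₁ ∈ Λ, ∑ g ∈ 𝒢, ∑ m₂ ∈ Λ.erase m₁, (wt P P' Λ' g m₁ m₂ : ℝ) ≤
      8 * hi ^ 2 * Λ.card * E₁ + 8 * hi ^ 2 * (on P m₁).card * ν * E₂ := by
    intro m₁ hm₁
    rw [sum_comm]
    have a1 : (0 : ℝ) ≤ 8 * hi ^ 2 * E₁ := by positivity
    have a2 : (0 : ℝ) ≤ 8 * hi ^ 2 * (on P m₁).card * E₂ := by positivity
    calc ∑ m₂ ∈ Λ.erase m₁, ∑ g ∈ 𝒢, (wt P P' Λ' g m₁ m₂ : ℝ)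
        ≤ ∑ m₂ ∈ Λ.erase m₁, (8 * hi ^ 2 * E₁ +
            if dir m₂ = dir m₁ then 8 * hi ^ 2 * (on P m₁).card * E₂ else 0) := by
          refine sum_le_sum fun m₂ hm₂ => ?_
          obtain ⟨hne, hm₂⟩ := mem_erase.1 hm₂
          split_ifs with hd
          · refine (count_pt P P' 𝒢 Λ' hΛ' (hΛ _ hm₁) (hΛ _ hm₂) hne.symm).trans ?_
            have := mul_le_mul_of_nonneg_left (hE₂ _ hm₁ _ hm₂ hd.symm)
              (by positivity : (0 : ℝ) ≤ 8 * hi ^ 2 * (on P m₁).card)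
            linarith
          · refine (count_np P P' 𝒢 Λ' hΛ' (hΛ _ hm₁) (hΛ _ hm₂) (Ne.symm hd)).trans ?_
            have := mul_le_mul_of_nonneg_left (hE₁ _ hm₁ _ hm₂ (Ne.symm hd))
              (by positivity : (0 : ℝ) ≤ 8 * hi ^ 2)
            linarith
      _ ≤ ∑ m₂ ∈ Λ, (8 * hi ^ 2 * E₁ +
            if dir m₂ = dir m₁ then 8 * hi ^ 2 * (on P m₁).card * E₂ else 0) :=
          sum_le_sum_of_subset_of_nonneg (erase_subset _ _) fun m _ _ => by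
            split_ifs <;> linarith
      _ = Λ.card * (8 * hi ^ 2 * E₁) + (Λ.filter fun m' => dir m' = dir m₁).card *
            (8 * hi ^ 2 * (on P m₁).card * E₂) := by
          rw [sum_add_distrib, ← sum_filter, sum_const, sum_const, nsmul_eq_mul, nsmul_eq_mul]
      _ ≤ _ := by
          have := mul_le_mul_of_nonneg_right (hν m₁ hm₁) a2
          linarith
  refine (sum_le_sum key).trans (le_of_eq ?_)
  rw [sum_add_distrib, sum_const, nsmul_eq_mul, mul_sum, sum_mul, sum_mul]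
  ring

theorem card_mul_le {ι : Type} (I : Finset ι) (f : ι → ℝ) {c : ℝ} (h : ∀ i ∈ I, c ≤ f i) :
    (I.card : ℝ) * c ≤ ∑ i ∈ I, f i := by
  have := card_nsmul_le_sum I f c h
  rwa [nsmul_eq_mul] at this

theorem psi_le {C t n : ℝ} (hC : 0 < C) (ht : 1 ≤ t) (hCt : 2 * C ≤ t) (hn0 : 0 ≤ n)
    (hn : n ≤ t ^ 1801) : C * (n ^ 3 / (t ^ 596) ^ 3 + (t ^ 1202) ^ 3) ≤ t ^ 3616 := by
  have ht0 : 0 < t := by linarith
  have h1 : n ^ 3 / (t ^ 596) ^ 3 ≤ t ^ 3615 := by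
    rw [div_le_iff₀ (by positivity)]
    calc n ^ 3 ≤ (t ^ 1801) ^ 3 := pow_le_pow_left₀ hn0 hn 3
      _ = _ := by ring
  have h2 : (t ^ 1202) ^ 3 ≤ t ^ 3615 := by
    rw [← pow_mul]
    exact pow_le_pow_right₀ ht (by norm_num)
  calc _ ≤ C * (t ^ 3615 + t ^ 3615) := by gcongr
    _ = 2 * C * t ^ 3615 := by ring
    _ ≤ t * t ^ 3615 := by gcongr
    _ = _ := by ring

theorem W_le {C t n l : ℝ} (hC : 0 < C) (ht : 1 ≤ t) (hCt : 2 * C + 2 ≤ t) (hn0 : 0 ≤ n)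
    (hn : n ≤ t ^ 1801) (hl : l ≤ t ^ 1219) :
    2 * t ^ 795 * l + C * (n ^ 2 / (t ^ 795) ^ 2 + n) ≤ t ^ 2015 := by
  have ht0 : 0 < t := by linarith
  have h1 : n ^ 2 / (t ^ 795) ^ 2 ≤ t ^ 2014 := by
    rw [div_le_iff₀ (by positivity)]
    calc n ^ 2 ≤ (t ^ 1801) ^ 2 := pow_le_pow_left₀ hn0 hn 2
      _ = t ^ 3602 := by ring
      _ ≤ t ^ 3604 := pow_le_pow_right₀ ht (by norm_num)
      _ = _ := by ring
  have h2 : n ≤ t ^ 2014 := hn.trans (pow_le_pow_right₀ ht (by norm_num))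
  calc _ ≤ 2 * t ^ 795 * t ^ 1219 + C * (t ^ 2014 + t ^ 2014) := by gcongr
    _ = (2 * C + 2) * t ^ 2014 := by ring
    _ ≤ t * t ^ 2014 := by gcongr
    _ = _ := by ring

theorem N_le {C t n l : ℝ} (j : ℕ) (hC : 0 < C) (ht : 1 ≤ t) (hCt : 2 * C ≤ t) (hn0 : 0 ≤ n)
    (hn : n ≤ t ^ 1801) (hl : l ≤ C * (n ^ 2 / (t ^ j) ^ 3 + n / t ^ j)) :
    l * t ^ (3 * j) ≤ t ^ 3603 ∨ l * t ^ j ≤ t ^ 1802 := by
  have ht0 : 0 < t := by linarith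
  have hj : 0 < t ^ j := by positivity
  rcases le_total (n / t ^ j) (n ^ 2 / (t ^ j) ^ 3) with h | h
  · left
    have h1 : l ≤ 2 * C * n ^ 2 / (t ^ j) ^ 3 := by
      have := mul_le_mul_of_nonneg_left h hC.le
      rw [mul_div_assoc]
      linarith
    rw [le_div_iff₀ (by positivity), ← pow_mul, mul_comm j 3] at h1
    calc _ ≤ _ := h1
      _ ≤ t * (t ^ 1801) ^ 2 := by gcongr
      _ = _ := by ring
  · right
    have h1 : l ≤ 2 * C * n / t ^ j := by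
      have := mul_le_mul_of_nonneg_left h hC.le
      rw [mul_div_assoc]
      linarith
    rw [le_div_iff₀ hj] at h1
    calc _ ≤ _ := h1
      _ ≤ t * t ^ 1801 := by gcongr
      _ = _ := by ring

end CoreAux

open CoreAux in
/-- `Λ` = the set of the `ax g p`, `Λ'` = the set of the `g '' ax g p`.  `psi`: `#Λ t^i ≤ t^3616`,
`#Λ' t^4794 ≤ t^3616 t^i`; `ν` = the largest number of parallel members of `Λ` (`nu_bound`, `num_nu`);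
`W = ∑_Λ #on P m ≤ t^2015` (`st3`, `τ = t^795`); `j ≤ 1201` if some `J g` is not empty (`card_on_line`); `st3` for `Λ'` if
`j > 800`.  `sq_le_wt`, `count_np` + `edges_np`, `count_pt` + `edges_par`, `num_main`, Cauchy–Schwarz. -/
theorem core : ∃ t₀ : ℝ, ∀ t : ℝ, t₀ ≤ t → ∀ (P P' : Finset E3) (D : ℕ), Few P D → Few P' D →
    (D : ℝ) ≤ t ^ 1200 → (P.card : ℝ) ≤ t ^ 1801 → (P'.card : ℝ) ≤ t ^ 1801 →
    ∀ (𝒢 : Finset Iso) (J : Iso → Finset E3) (ax : Iso → E3 → Set E3) (i j : ℕ), 2397 ≤ i →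
    (∀ g ∈ 𝒢, J g ⊆ mat P P' g ∧ ∀ p ∈ J g, IsLine (ax g p) ∧ p ∈ ax g p ∧
      t ^ i ≤ (SS P (t ^ 596) (ax g p) : ℝ) ∧
      t ^ 4794 ≤ (SS P' (t ^ 596) (g '' ax g p) : ℝ) * t ^ i ∧
      t ^ j ≤ ((on P' (g '' ax g p)).card : ℝ) ∧ ((on P' (g '' ax g p)).card : ℝ) ≤ t ^ (j + 1)) →
    ∑ g ∈ 𝒢, ((J g).card : ℝ) ≤ 2 * D * 𝒢.card + √(𝒢.card * t ^ 5958) := by
  obtain ⟨C₁, hC₁, hpsi⟩ := psi
  obtain ⟨C₂, hC₂, hnu⟩ := nu_bound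
  obtain ⟨C₃, hC₃, hst⟩ := st3
  obtain ⟨t₁, ht₁⟩ := planeBd
  obtain ⟨t₂, ht₂⟩ := num_nu C₂ hC₂
  obtain ⟨t₃, ht₃⟩ := num_main
  refine ⟨max (max (max t₁ t₂) t₃) (132 + 2 * C₁ + 2 * C₃), ?_⟩
  intro t ht P P' D hP hP' hD hn hn' 𝒢 J ax i j hi hJ
  simp only [max_le_iff] at ht
  obtain ⟨⟨⟨a1, a2⟩, a3⟩, a4⟩ := ht
  have ht1 : (1 : ℝ) ≤ t := by linarith
  have ht0 : (0 : ℝ) < t := by linarith
  have hpow : ∀ k : ℕ, k ≠ 0 → (132 : ℝ) ≤ t ^ k := fun k hk =>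
    le_trans (by linarith) (le_self_pow₀ ht1 hk)
  have hB := ht₁ t a1 P D hP hD
  have hB' := ht₁ t a1 P' D hP' hD
  have hD0 : (0 : ℝ) ≤ 2 * D := by positivity
  by_cases hne : ∀ g ∈ 𝒢, J g = ∅
  · rw [sum_eq_zero fun g hg => by rw [hne g hg, card_empty, Nat.cast_zero]]
    positivity
  set Λ : Finset (Set E3) := (𝒢.sigma J).image fun a => ax a.1 a.2 with hΛ
  set Λ' : Finset (Set E3) := (𝒢.sigma J).image fun a => a.1 '' ax a.1 a.2 with hΛ'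
  have hL : ∀ m ∈ Λ, IsLine m ∧ t ^ i ≤ (SS P (t ^ 596) m : ℝ) := by
    intro m hm
    obtain ⟨⟨g, p⟩, ha, rfl⟩ := mem_image.1 hm
    obtain ⟨hg, hp⟩ := mem_sigma.1 ha
    exact ⟨((hJ g hg).2 p hp).1, ((hJ g hg).2 p hp).2.2.1⟩
  have hL' : ∀ m ∈ Λ', IsLine m ∧ t ^ 4794 ≤ (SS P' (t ^ 596) m : ℝ) * t ^ i ∧
      t ^ j ≤ ((on P' m).card : ℝ) ∧ ((on P' m).card : ℝ) ≤ t ^ (j + 1) := by
    intro m hm
    obtain ⟨⟨g, p⟩, ha, rfl⟩ := mem_image.1 hm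
    obtain ⟨hg, hp⟩ := mem_sigma.1 ha
    exact ⟨((hJ g hg).2 p hp).1.image g, ((hJ g hg).2 p hp).2.2.2⟩
  obtain ⟨g₀, hg₀, p₀, hp₀⟩ : ∃ g ∈ 𝒢, (J g).Nonempty := by
    by_contra h
    exact hne fun g hg => not_nonempty_iff_eq_empty.1 fun h' => h ⟨g, hg, h'⟩
  have hm₀ : ax g₀ p₀ ∈ Λ := mem_image.2 ⟨⟨g₀, p₀⟩, mem_sigma.2 ⟨hg₀, hp₀⟩, rfl⟩
  have hm₀' : g₀ '' ax g₀ p₀ ∈ Λ' := mem_image.2 ⟨⟨g₀, p₀⟩, mem_sigma.2 ⟨hg₀, hp₀⟩, rfl⟩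
  have hj : j ≤ 1201 := by
    have h1 : ((on P' (g₀ '' ax g₀ p₀)).card : ℝ) ≤ 2 * D := by
      exact_mod_cast card_on_line hP' (hL' _ hm₀').1
    have h2 : t ^ j ≤ t ^ 1201 :=
      calc t ^ j ≤ 2 * D := (hL' _ hm₀').2.2.1.trans h1
        _ ≤ t * t ^ 1200 := by gcongr; linarith
        _ = _ := by ring
    exact (pow_le_pow_iff_right₀ (by linarith)).1 h2
  have hl : (Λ.card : ℝ) * t ^ i ≤ t ^ 3616 :=
    ((card_mul_le Λ _ fun m hm => (hL m hm).2).trans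
      (hpsi P _ _ Λ hB (hpow 596 (by norm_num)) fun m hm => (hL m hm).1)).trans
      (psi_le hC₁ ht1 (by linarith) (Nat.cast_nonneg _) hn)
  have hl' : (Λ'.card : ℝ) * t ^ 4794 ≤ t ^ 3616 * t ^ i := by
    refine (card_mul_le Λ' _ fun m hm => (hL' m hm).2.1).trans ?_
    rw [← sum_mul]
    exact mul_le_mul_of_nonneg_right
      ((hpsi P' _ _ Λ' hB' (hpow 596 (by norm_num)) fun m hm => (hL' m hm).1).trans
        (psi_le hC₁ ht1 (by linarith) (Nat.cast_nonneg _) hn')) (by positivity)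
  obtain ⟨m₁, hm₁, hmax⟩ := exists_max_image Λ
    (fun m => (Λ.filter fun m' => dir m' = dir m).card) ⟨_, hm₀⟩
  set ν : ℝ := ((Λ.filter fun m' => dir m' = dir m₁).card : ℝ) with hν
  have hν0 : 0 ≤ ν := Nat.cast_nonneg _
  have hν1 := ht₂ t a2 i ν hi hν0 fun τ hτ => by
    refine (card_mul_le _ _ fun m hm => (hL m (mem_filter.1 hm).1).2).trans
      ((hnu P _ (t ^ 596) τ _ (dir m₁) hB hτ fun m hm =>
        ⟨(hL m (mem_filter.1 hm).1).1, (mem_filter.1 hm).2⟩).trans ?_)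
    have : 0 < τ := by linarith
    exact mul_le_mul_of_nonneg_right hn (by positivity)
  have hl1 : (Λ.card : ℝ) ≤ t ^ 1219 := by
    have h1 : (Λ.card : ℝ) * t ^ 2397 ≤ t ^ 1219 * t ^ 2397 :=
      calc (Λ.card : ℝ) * t ^ 2397 ≤ Λ.card * t ^ i :=
            mul_le_mul_of_nonneg_left (pow_le_pow_right₀ ht1 hi) (Nat.cast_nonneg _)
        _ ≤ t ^ 3616 := hl
        _ = _ := by ring
    exact le_of_mul_le_mul_right h1 (by positivity)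
  have hW : ∑ m ∈ Λ, ((on P m).card : ℝ) ≤ t ^ 2015 :=
    ((hst P Λ fun m hm => (hL m hm).1).2 (t ^ 795)
      (le_trans (by norm_num) (hpow 795 (by norm_num)))).trans
      (W_le hC₃ ht1 (by linarith) (Nat.cast_nonneg _) hn hl1)
  have hN : 800 < j → (Λ'.card : ℝ) * t ^ (3 * j) ≤ t ^ 3603 ∨
      (Λ'.card : ℝ) * t ^ j ≤ t ^ 1802 := fun h =>
    N_le j hC₃ ht1 (by linarith) (Nat.cast_nonneg _) hn'
      ((hst P' Λ' fun m hm => (hL' m hm).1).1 (t ^ j)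
        (le_trans (by norm_num) (hpow j (by omega))) fun m hm => (hL' m hm).2.2.1)
  have hmain := ht₃ t a3 i j Λ.card Λ'.card ν hi hj (Nat.cast_nonneg _) (Nat.cast_nonneg _) hν0
    hl hl' hν1 hN
  have hj0 : (0 : ℝ) < t ^ j := by positivity
  have hwt := sum_wt P P' 𝒢 Λ Λ' (hi := t ^ (j + 1))
    (E₁ := Λ'.card * (4 * t ^ 1202 / t ^ j + 6 * √(Λ'.card)))
    (E₂ := Λ'.card * (1 + 2 * √(t ^ 1801 / t ^ j))) (ν := ν) (fun m hm => (hL m hm).1)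
    (fun m hm => (hL' m hm).2.2.2) (by positivity) (by positivity)
    (fun a ha b hb hd => edges_np (hL a ha).1 (hL b hb).1 hd hB' hj0 Λ'
      fun m hm => (hL' m hm).2.2.1)
    (fun a ha b hb hd => (edges_par (hL a ha).1 (hL b hb).1 hd P' hj0 Λ'
      fun m hm => ⟨(hL' m hm).1, (hL' m hm).2.2.1⟩).trans (by gcongr))
    (fun m hm => by rw [hν]; exact_mod_cast hmax m hm)
  have hT : ∑ g ∈ 𝒢, ∑ m₁ ∈ Λ, ∑ m₂ ∈ Λ.erase m₁, (wt P P' Λ' g m₁ m₂ : ℝ) ≤ t ^ 5958 := by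
    refine hwt.trans (le_trans ?_ hmain)
    gcongr
  have hsq : ∑ g ∈ 𝒢, ((J g).card : ℝ) ^ 2 ≤
      2 * D * ∑ g ∈ 𝒢, ((J g).card : ℝ) + t ^ 5958 := by
    refine (sum_le_sum fun g hg => sq_le_wt hP Λ Λ' (fun m hm => (hL m hm).1) g (J g) (hJ g hg).1
      (ax g) fun p hp => ⟨((hJ g hg).2 p hp).2.1,
        mem_image.2 ⟨⟨g, p⟩, mem_sigma.2 ⟨hg, hp⟩, rfl⟩,
        mem_image.2 ⟨⟨g, p⟩, mem_sigma.2 ⟨hg, hp⟩, rfl⟩⟩).trans ?_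
    rw [sum_add_distrib, ← mul_sum]
    linarith
  refine quad (Nat.cast_nonneg _) hD0 (by positivity) ?_
  exact sq_sum_le_card_mul_sum_sq.trans (mul_le_mul_of_nonneg_left hsq (Nat.cast_nonneg _))

end Crest.Agent.R65.Pen
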