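import Crest.Agent.R65.Pen.Defs
import Crest.Agent.R33.Cross

/-! Row 65, `d = 3`, pencils: lines are curves. -/

set_option autoImplicit false

namespace Crest.Agent.R65.Pen

open Finset
open scoped Classical
open Crest.Agent.R33 (E2 InCell)

namespace CrvLAux

theorem norm_pos {u : E2} (hu : u ≠ 0) : 0 < u 0 ^ 2 + u 1 ^ 2 := by
  by_contra h
  apply hu
  have h0 : u 0 = 0 := by nlinarith [sq_nonneg (u 0), sq_nonneg (u 1)]
  have h1 : u 1 = 0 := by nlinarith [sq_nonneg (u 0), sq_nonneg (u 1)]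
  ext k
  fin_cases k
  · simpa using h0
  · simpa using h1

/-- restriction of a polynomial to a line -/
theorem restrict (f : MvPolynomial (Fin 2) ℝ) (o u : E2) :
    ∃ g : Polynomial ℝ, g.natDegree ≤ 2 * f.totalDegree ∧
      ∀ t : ℝ, g.eval t = ev f (o + t • u) := by
  have h2 : ∀ a b c : ℝ, (Polynomial.C a * Polynomial.X ^ 2 + Polynomial.C b * Polynomial.X +
      Polynomial.C c).natDegree ≤ 2 := fun a b c => Polynomial.natDegree_quadratic_le
  obtain ⟨g, hg1, hg2⟩ := Crest.Agent.R33.cross_hom f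
    (fun k => Polynomial.C 0 * Polynomial.X ^ 2 + Polynomial.C (u k) * Polynomial.X +
      Polynomial.C (o k)) 1 (fun k => h2 _ _ _) (by simp)
  refine ⟨g, hg1, fun t => ?_⟩
  have := hg2 t (fun k => (o + t • u) k) (fun k => by simp; ring)
  rw [this]
  simp [ev]

theorem sub_dvd (Q : MvPolynomial (Fin 2) ℝ) (φ : Fin 2 → MvPolynomial (Fin 2) ℝ)
    (h : ∀ k, Q ∣ MvPolynomial.X k - φ k) (f : MvPolynomial (Fin 2) ℝ) :
    Q ∣ f - MvPolynomial.aeval φ f := by
  induction f using MvPolynomial.induction_on with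
  | C a => simp
  | add p q hp hq =>
    have : p + q - MvPolynomial.aeval φ (p + q) =
        (p - MvPolynomial.aeval φ p) + (q - MvPolynomial.aeval φ q) := by
      rw [map_add]; ring
    rw [this]
    exact dvd_add hp hq
  | mul_X p k hp =>
    have : p * MvPolynomial.X k - MvPolynomial.aeval φ (p * MvPolynomial.X k) =
        (p - MvPolynomial.aeval φ p) * MvPolynomial.X k +
          MvPolynomial.aeval φ p * (MvPolynomial.X k - φ k) := by
      rw [map_mul, MvPolynomial.aeval_X]; ring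
    rw [this]
    exact dvd_add (hp.mul_right _) ((h k).mul_left _)

theorem eval_aeval (x : Fin 2 → ℝ) (φ : Fin 2 → MvPolynomial (Fin 2) ℝ)
    (f : MvPolynomial (Fin 2) ℝ) :
    MvPolynomial.eval x (MvPolynomial.aeval φ f) =
      MvPolynomial.eval (fun k => MvPolynomial.eval x (φ k)) f := by
  induction f using MvPolynomial.induction_on with
  | C a => simp
  | add p q hp hq => simp only [map_add, hp, hq]
  | mul_X p k hp => simp only [map_mul, hp, MvPolynomial.aeval_X, MvPolynomial.eval_X]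

theorem mem_line_iff {o u : E2} (hu : u ≠ 0) (p : E2) :
    (∃ t : ℝ, p = o + t • u) ↔ u 1 * (p 0 - o 0) - u 0 * (p 1 - o 1) = 0 := by
  have hN := norm_pos hu
  constructor
  · rintro ⟨t, rfl⟩
    simp
    ring
  · intro h
    refine ⟨(u 0 * (p 0 - o 0) + u 1 * (p 1 - o 1)) / (u 0 ^ 2 + u 1 ^ 2), ?_⟩
    ext k
    fin_cases k
    · simp
      field_simp
      linear_combination u 1 * h
    · simp
      field_simp
      linear_combination (-u 0) * h

theorem inj {o u : E2} (hu : u ≠ 0) : Function.Injective fun t : ℝ => o + t • u := by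
  intro s t h
  have h' : s • u = t • u := add_left_cancel h
  exact smul_left_injective ℝ hu h'

/-- a line is the line through two of its points -/
theorem line_two {m : Set E2} (hm : IsLine2 m) {p q : E2} (hpq : p ≠ q) (h1 : p ∈ m)
    (h2 : q ∈ m) : m = {x | ∃ t : ℝ, x = p + t • (q - p)} := by
  obtain ⟨o, u, -, rfl⟩ := hm
  obtain ⟨a, rfl⟩ := h1
  obtain ⟨b, rfl⟩ := h2
  have hab : b - a ≠ 0 := fun h => hpq (by rw [sub_eq_zero.1 h])
  have e : o + b • u - (o + a • u) = (b - a) • u := by rw [sub_smul]; abel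
  ext x
  simp only [Set.mem_ofPred_eq, e, smul_smul]
  constructor
  · rintro ⟨t, rfl⟩
    refine ⟨(t - a) / (b - a), ?_⟩
    rw [div_mul_cancel₀ _ hab, sub_smul]
    abel
  · rintro ⟨t, rfl⟩
    exact ⟨a + t * (b - a), by rw [add_smul, add_assoc]⟩

end CrvLAux

open CrvLAux

/-- `cross`, `zero`: substitute `x = o + t u` (`R33.cross_hom` with `C = 1`, `R33.cross_card_sign`,
`Polynomial.card_roots'`).  `dvd`: `Q = u₁ (X₀ - o₀) - u₀ (X₁ - o₁)`; say `u₀ ≠ 0`; for every `f`,
`f - aeval ![X₀, o₁ + (u₁/u₀)(X₀ - o₀)] f` is divisible by `Q` (induction on `f`), and the second polynomial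
vanishes everywhere if `f` vanishes on the line (`MvPolynomial.funext`). -/
theorem isCrv_line {m : Set E2} (hm : IsLine2 m) : IsCrv m := by
  obtain ⟨o, u, hu, rfl⟩ := hm
  refine ⟨fun {j} f => ?_, fun f hf T hT => ?_, ?_, ?_⟩
  · choose g hg1 hg2 using fun i => restrict (f i) o u
    have h1 := Crest.Agent.R33.cross_card_sign g
    have h3 : ∑ i, (g i).natDegree ≤ 2 * ∑ i, (f i).totalDegree := by
      rw [mul_sum]
      exact sum_le_sum fun i _ => hg1 i
    refine le_trans (card_le_card (t := univ.filter fun sg : Fin j → Bool =>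
      ∃ t : ℝ, ∀ i, if sg i then 0 < (g i).eval t else (g i).eval t < 0) fun sg hsg => ?_)
      (h1.trans (by omega))
    obtain ⟨p, ⟨t, rfl⟩, hin⟩ := (mem_filter.1 hsg).2
    refine mem_filter.2 ⟨mem_univ _, t, fun i => ?_⟩
    rw [hg2]
    exact hin i
  · obtain ⟨g, hg1, hg2⟩ := restrict f o u
    obtain ⟨p, ⟨t, rfl⟩, hp⟩ := hf
    have hg0 : g ≠ 0 := by
      rintro rfl
      exact hp (by rw [← hg2]; simp)
    have hsub : T ⊆ g.roots.toFinset.image fun t : ℝ => o + t • u := by
      intro p hp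
      obtain ⟨⟨s, rfl⟩, hz⟩ := hT p hp
      refine mem_image.2 ⟨s, ?_, rfl⟩
      rw [Multiset.mem_toFinset, Polynomial.mem_roots hg0, Polynomial.IsRoot.def, hg2]
      exact hz
    have h1 := (card_le_card hsub).trans card_image_le
    have h2 := Multiset.toFinset_card_le g.roots
    have h3 := Polynomial.card_roots' g
    omega
  · have : {x : E2 | ∃ t : ℝ, x = o + t • u} = Set.range fun t : ℝ => o + t • u := by
      ext x
      simp only [Set.mem_ofPred_eq, Set.mem_range, eq_comm]
    rw [this]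
    exact Set.infinite_range_of_injective (inj hu)
  · have hN := (norm_pos hu).ne'
    refine ⟨MvPolynomial.C (u 1) * (MvPolynomial.X 0 - MvPolynomial.C (o 0)) -
      MvPolynomial.C (u 0) * (MvPolynomial.X 1 - MvPolynomial.C (o 1)), fun p => ?_, fun f hf => ?_⟩
    · rw [Set.mem_ofPred_eq, mem_line_iff hu]
      simp [ev]
    · set N : ℝ := (u 0 ^ 2 + u 1 ^ 2)⁻¹ with hNdef
      have hN1 : (MvPolynomial.C N : MvPolynomial (Fin 2) ℝ) *
          (MvPolynomial.C (u 0) ^ 2 + MvPolynomial.C (u 1) ^ 2) = 1 := by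
        rw [← map_pow, ← map_pow, ← map_add, ← map_mul, hNdef, inv_mul_cancel₀ hN, map_one]
      set T : MvPolynomial (Fin 2) ℝ := MvPolynomial.C N *
        (MvPolynomial.C (u 0) * (MvPolynomial.X 0 - MvPolynomial.C (o 0)) +
          MvPolynomial.C (u 1) * (MvPolynomial.X 1 - MvPolynomial.C (o 1))) with hT
      have hd := sub_dvd (MvPolynomial.C (u 1) * (MvPolynomial.X 0 - MvPolynomial.C (o 0)) -
        MvPolynomial.C (u 0) * (MvPolynomial.X 1 - MvPolynomial.C (o 1)))
        (fun k => MvPolynomial.C (o k) + T * MvPolynomial.C (u k)) (fun k => by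
          fin_cases k
          · refine ⟨MvPolynomial.C N * MvPolynomial.C (u 1), ?_⟩
            simp only [Fin.zero_eta, hT]
            linear_combination (-(MvPolynomial.X 0 - MvPolynomial.C (o 0))) * hN1
          · refine ⟨-(MvPolynomial.C N * MvPolynomial.C (u 0)), ?_⟩
            simp only [Fin.mk_one, hT]
            linear_combination (-(MvPolynomial.X 1 - MvPolynomial.C (o 1))) * hN1) f
      have hz : MvPolynomial.aeval (fun k => MvPolynomial.C (o k) + T * MvPolynomial.C (u k)) f =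
          0 := by
        apply MvPolynomial.funext
        intro x
        rw [eval_aeval, map_zero]
        have := hf (o + MvPolynomial.eval x T • u) ⟨_, rfl⟩
        simpa [ev] using this
      rwa [hz, sub_zero] at hd

theorem isLine2_eq {w : E2} (hw : w ≠ 0) (d : ℝ) : IsLine2 {x : E2 | inner ℝ w x = d} := by
  have hN := (norm_pos hw).ne'
  refine ⟨!₂[d * w 0 / (w 0 ^ 2 + w 1 ^ 2), d * w 1 / (w 0 ^ 2 + w 1 ^ 2)], !₂[-w 1, w 0], ?_, ?_⟩
  · intro h
    have h0 := congrArg (fun v : E2 => v 0) h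
    have h1 := congrArg (fun v : E2 => v 1) h
    simp at h0 h1
    apply hN
    rw [h0, h1]
    norm_num
  · ext x
    have hu : (!₂[-w 1, w 0] : E2) ≠ 0 := by
      intro h
      have h0 := congrArg (fun v : E2 => v 0) h
      have h1 := congrArg (fun v : E2 => v 1) h
      simp at h0 h1
      apply hN
      rw [h0, h1]
      norm_num
    rw [Set.mem_ofPred_eq, Set.mem_ofPred_eq, mem_line_iff hu]
    have e : inner ℝ w x = w 0 * x 0 + w 1 * x 1 := by
      simp [PiLp.inner_apply, Fin.sum_univ_two]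
      ring
    rw [e]
    simp only [Matrix.cons_val_zero, Matrix.cons_val_one]
    have e2 : w 0 * (x 0 - d * w 0 / (w 0 ^ 2 + w 1 ^ 2)) -
        -w 1 * (x 1 - d * w 1 / (w 0 ^ 2 + w 1 ^ 2)) = w 0 * x 0 + w 1 * x 1 - d := by
      field_simp
      ring
    rw [e2, sub_eq_zero]

theorem IsLine2.eq_of_subset {m m' : Set E2} (hm : IsLine2 m) (hm' : IsLine2 m') (h : m ⊆ m') :
    m = m' := by
  obtain ⟨o, u, hu, e⟩ := id hm
  have hp : o + (0 : ℝ) • u ∈ m := e ▸ ⟨0, rfl⟩
  have hq : o + (1 : ℝ) • u ∈ m := e ▸ ⟨1, rfl⟩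
  have hpq : o + (0 : ℝ) • u ≠ o + (1 : ℝ) • u := fun h => zero_ne_one (inj hu h)
  rw [line_two hm hpq hp hq, line_two hm' hpq (h hp) (h hq)]

theorem IsLine2.eq_of_two {m m' : Set E2} (hm : IsLine2 m) (hm' : IsLine2 m') {p q : E2} (hpq : p ≠ q)
    (h1 : p ∈ m) (h2 : q ∈ m) (h3 : p ∈ m') (h4 : q ∈ m') : m = m' := by
  rw [line_two hm hpq h1 h2, line_two hm' hpq h3 h4]

end Crest.Agent.R65.Pen
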