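import Crest.Agent.R33.Defs

/-!
Row 65, `d = 3`: pencils of rich isometries and incidence tools.  Definitions (do not change them).

Lines, circles are *sets*.  `P`, `P'` are finite subsets of `ℝ³` with at most `D` distances
(`0` included).  An isometry `g` matches the points `mat P P' g`; the incidence `(g, p)` is *heavy* if
many members of a family `𝒢` agree with `g` on a line through `p`.
-/

set_option autoImplicit false

namespace Crest.Agent.R65.Pen

open Finset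
open scoped Classical
open Crest.Agent.R33 (E2 InCell)

noncomputable section

/-! ## Plane curves -/

/-- evaluation at a point of the plane -/
def ev (f : MvPolynomial (Fin 2) ℝ) (p : E2) : ℝ := MvPolynomial.eval (fun k => p k) f

/-- what the partition argument needs to know about a curve -/
structure IsCrv (Γ : Set E2) : Prop where
  cross : ∀ {j : ℕ} (f : Fin j → MvPolynomial (Fin 2) ℝ),
    (univ.filter fun sg : Fin j → Bool => ∃ p ∈ Γ, InCell f sg p).card ≤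
      2 * (∑ i, (f i).totalDegree) + 2
  zero : ∀ f : MvPolynomial (Fin 2) ℝ, (∃ p ∈ Γ, ev f p ≠ 0) → ∀ T : Finset E2,
    (∀ p ∈ T, p ∈ Γ ∧ ev f p = 0) → T.card ≤ 2 * f.totalDegree + 1
  inf : Γ.Infinite
  dvd : ∃ Q : MvPolynomial (Fin 2) ℝ, (∀ p, ev Q p = 0 ↔ p ∈ Γ) ∧
    ∀ f : MvPolynomial (Fin 2) ℝ, (∀ p ∈ Γ, ev f p = 0) → Q ∣ f

def IsLine2 (m : Set E2) : Prop := ∃ o u : E2, u ≠ 0 ∧ m = {x | ∃ t : ℝ, x = o + t • u}

/-- an ellipse (if `a`, `b` are independent) -/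
def ell (c a b : E2) : Set E2 := {x | ∃ α β : ℝ, α ^ 2 + β ^ 2 = 1 ∧ x = c + α • a + β • b}

/-! ## Space -/

abbrev E3 := EuclideanSpace ℝ (Fin 3)

abbrev Iso := E3 ≃ᵃⁱ[ℝ] E3

def ln (o u : E3) : Set E3 := {x | ∃ t : ℝ, x = o + t • u}

def IsLine (m : Set E3) : Prop := ∃ o u : E3, u ≠ 0 ∧ m = ln o u

/-- direction space -/
def dir (m : Set E3) : Set E3 := {v | ∃ x ∈ m, ∃ y ∈ m, v = x - y}

def circ (o u : E3) (ρ : ℝ) : Set E3 := {x | inner ℝ u (x - o) = 0 ∧ dist x o = ρ}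

def IsCirc (Γ : Set E3) : Prop := ∃ (o u : E3) (ρ : ℝ), u ≠ 0 ∧ 0 < ρ ∧ Γ = circ o u ρ

/-- at most `D` distances (`0` included) -/
def Few (P : Finset E3) (D : ℕ) : Prop :=
  ∃ 𝒟 : Finset ℝ, 𝒟.card ≤ D ∧ ∀ p ∈ P, ∀ q ∈ P, dist p q ∈ 𝒟

/-- at most `B` points in every plane -/
def PlaneBd (P : Finset E3) (B : ℝ) : Prop :=
  ∀ (u : E3) (d : ℝ), u ≠ 0 → ((P.filter fun x => inner ℝ u x = d).card : ℝ) ≤ B

/-- the points on a set -/
def on (P : Finset E3) (m : Set E3) : Finset E3 := P.filter (· ∈ m)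

/-- `q`, `q'` lie on one circle with axis `m` -/
def Coax (m : Set E3) (q q' : E3) : Prop := ∀ x ∈ m, dist x q = dist x q'

/-- the circle through `q` with axis `m` -/
def orb (m : Set E3) (q : E3) : Set E3 := {x | Coax m q x}

/-- coaxial pairs on circles with at least `κ` points -/
def SS (P : Finset E3) (κ : ℝ) (m : Set E3) : ℕ :=
  ∑ q ∈ P.filter (fun q => κ ≤ ((on P (orb m q)).card : ℝ)), (on P (orb m q)).card

/-- matched points -/
def mat (P P' : Finset E3) (g : Iso) : Finset E3 := P.filter fun p => g p ∈ P'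

/-- the pencil of `g` about the line `m` -/
def pen (𝒢 : Finset Iso) (g : Iso) (m : Set E3) : Finset Iso :=
  𝒢.filter fun h => ∀ x ∈ m, h x = g x

def Heavy (𝒢 : Finset Iso) (σ : ℝ) (g : Iso) (p : E3) : Prop :=
  ∃ m, IsLine m ∧ p ∈ m ∧ σ ≤ ((pen 𝒢 g m).card : ℝ)

/-- the heavy matched points of `g` -/
def hv (P P' : Finset E3) (𝒢 : Finset Iso) (σ : ℝ) (g : Iso) : Finset E3 :=
  (mat P P' g).filter (Heavy 𝒢 σ g)

/-- pairs on matching circles about `m` and `g m` -/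
def MM (P P' : Finset E3) (g : Iso) (m : Set E3) : Finset (E3 × E3) :=
  (P ×ˢ P').filter fun a => ∀ x ∈ m, dist x a.1 = dist (g x) a.2

/-- `(a, b)` is congruent to `(m₁, m₂)` -/
def Adj (m₁ m₂ a b : Set E3) : Prop := ∃ g : Iso, g '' m₁ = a ∧ g '' m₂ = b

/-- congruent pairs in a family -/
def edges (m₁ m₂ : Set E3) (Λ : Finset (Set E3)) : Finset (Set E3 × Set E3) :=
  (Λ ×ˢ Λ).filter fun e => Adj m₁ m₂ e.1 e.2

/-- the three directions are coplanar -/
def Deg (b a a' : Set E3) : Prop :=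
  ∃ w : E3, w ≠ 0 ∧ ∀ v, v ∈ dir a ∨ v ∈ dir a' ∨ v ∈ dir b → inner ℝ w v = 0

/-- weight of the pair of axes `(m₁, m₂)` in `g` -/
def wt (P P' : Finset E3) (Λ' : Finset (Set E3)) (g : Iso) (m₁ m₂ : Set E3) : ℕ :=
  if g '' m₁ ∈ Λ' ∧ g '' m₂ ∈ Λ' then
    (on (mat P P' g) m₁).card * (on (mat P P' g) m₂).card else 0

end

end Crest.Agent.R65.Pen
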