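import Crest.Agent.R65.Pen.Line

/-! Row 65, `d = 3`, pencils: counting isometries. -/

set_option autoImplicit false

namespace Crest.Agent.R65.Pen

open Finset
open scoped Classical
open Crest.Agent.R33 (E2 InCell)

namespace IsoCAux

theorem map_add_lin (g : Iso) (o v : E3) : g (o + v) = g o + g.linearIsometryEquiv v := by
  have h := g.map_vadd o v
  simp only [vadd_eq_add] at h
  rw [add_comm o v, h, add_comm]

theorem lin_eq (g : Iso) (o v : E3) : g.linearIsometryEquiv v = g (o + v) - g o := by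
  rw [map_add_lin]; abel

theorem ext_lin {g h : Iso} (o : E3) (h1 : g.linearIsometryEquiv = h.linearIsometryEquiv)
    (h2 : g o = h o) : g = h := by
  ext1 x
  have e : x = o + (x - o) := by abel
  rw [e, map_add_lin, map_add_lin, h1, h2]

/-- fibres of size at most two over a product of two sets of size at most two -/
theorem card_le_eight {α β γ : Type*} (T : Finset α) (f : α → β) (k : α → γ) (S₁ : Finset β)
    (S₂ : Finset γ) (h1 : S₁.card ≤ 2) (h2 : S₂.card ≤ 2) (hf : ∀ x ∈ T, f x ∈ S₁ ∧ k x ∈ S₂)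
    (hfib : ∀ b c (U : Finset α), (∀ x ∈ U, x ∈ T ∧ f x = b ∧ k x = c) → U.card ≤ 2) :
    T.card ≤ 8 := by
  have h := Finset.card_le_mul_card_image_of_maps_to (s := T) (t := S₁ ×ˢ S₂)
    (f := fun x => (f x, k x)) (fun x hx => mem_product.2 (hf x hx)) 2 (fun b _ =>
      hfib b.1 b.2 _ fun x hx => by simpa [Prod.ext_iff] using hx)
  rw [card_product] at h
  calc T.card ≤ 2 * (S₁.card * S₂.card) := h
    _ ≤ 2 * (2 * 2) := Nat.mul_le_mul_left _ (Nat.mul_le_mul h1 h2)

theorem sub_mem_ln {o u x y : E3} (hx : x ∈ ln o u) (hy : y ∈ ln o u) : ∃ s : ℝ, x - y = s • u := by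
  obtain ⟨s, rfl⟩ := hx
  obtain ⟨t, rfl⟩ := hy
  exact ⟨s - t, by rw [sub_smul]; abel⟩

end IsoCAux

open IsoCAux

/-- `w ⟂ u, v` unit (`exists_orth`); `A w` is a unit vector orthogonal to `u'`, `v'` (`card_inner_le`; `u'`, `v'` are
independent if `T` is not empty), and `A` is determined by `A w` since `u, v, w` span. -/
theorem lin_two {u v : E3} (h : ∀ s t : ℝ, s • u + t • v = 0 → s = 0 ∧ t = 0) (u' v' : E3)
    (T : Finset (E3 ≃ₗᵢ[ℝ] E3)) (hT : ∀ A ∈ T, A u = u' ∧ A v = v') : T.card ≤ 2 := by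
  rcases T.eq_empty_or_nonempty with rfl | ⟨A₀, hA₀⟩
  · simp
  obtain ⟨w, hw, hwu, hwv⟩ := exists_orth u v
  have hw0 : w ≠ 0 := by
    rintro rfl
    simp at hw
  have h' : ∀ s t : ℝ, s • u' + t • v' = 0 → s = 0 ∧ t = 0 := by
    intro s t hst
    apply h s t
    apply A₀.injective
    rw [map_add, map_smul, map_smul, (hT A₀ hA₀).1, (hT A₀ hA₀).2, hst, map_zero]
  have hinj : Set.InjOn (fun A : E3 ≃ₗᵢ[ℝ] E3 => A w) T := by
    intro A hA B hB hAB
    have hAB' : A w = B w := hAB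
    ext1 x
    have key : ∀ y, A y = B y → inner ℝ (A.symm (A x - B x)) y = 0 := by
      intro y hy
      rw [← A.inner_map_map, A.apply_symm_apply, inner_sub_left, A.inner_map_map, hy,
        B.inner_map_map, sub_self]
    have e1 := key u (by rw [(hT A hA).1, (hT B hB).1])
    have e2 := key v (by rw [(hT A hA).2, (hT B hB).2])
    have e3 := key w hAB'
    obtain ⟨c, hc⟩ := orth_unique h hw0 hwu hwv e1 e2
    rw [hc, real_inner_smul_left, real_inner_self_eq_norm_sq, hw] at e3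
    have hc0 : c = 0 := by simpa using e3
    rw [hc0, zero_smul] at hc
    have : A x - B x = 0 := by
      have := congrArg A hc
      rwa [A.apply_symm_apply, map_zero] at this
    exact sub_eq_zero.1 this
  rw [← card_image_of_injOn hinj]
  refine card_inner_le h' 0 0 1 _ fun x hx => ?_
  obtain ⟨A, hA, rfl⟩ := mem_image.1 hx
  refine ⟨?_, ?_, ?_⟩
  · rw [← (hT A hA).1, A.inner_map_map, real_inner_comm, hwu]
  · rw [← (hT A hA).2, A.inner_map_map, real_inner_comm, hwv]
  · rw [A.norm_map, hw]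

/-- the linear parts are prescribed on `u` and `q - o`; an isometry is determined by its linear part and `g o` -/
theorem iso_two {m : Set E3} (hm : IsLine m) {q : E3} (hq : q ∉ m) (g : Iso) (q' : E3)
    (T : Finset Iso) (hT : ∀ h ∈ T, (∀ x ∈ m, h x = g x) ∧ h q = q') : T.card ≤ 2 := by
  obtain ⟨o, u, hu, rfl⟩ := hm
  have ho : o ∈ ln o u := ⟨0, by simp⟩
  have hou : o + u ∈ ln o u := ⟨1, by simp⟩
  have hind : ∀ s t : ℝ, s • u + t • (q - o) = 0 → s = 0 ∧ t = 0 := by
    intro s t hst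
    have ht : t = 0 := by
      by_contra ht
      apply hq
      refine ⟨-(t⁻¹ * s), ?_⟩
      have h1 : q - o = t⁻¹ • (t • (q - o)) := by rw [smul_smul, inv_mul_cancel₀ ht, one_smul]
      have h2 : t • (q - o) = -(s • u) := eq_neg_of_add_eq_zero_right hst
      rw [h2, smul_neg, smul_smul] at h1
      rw [neg_smul, ← h1]; abel
    rw [ht, zero_smul, add_zero] at hst
    exact ⟨(smul_eq_zero.1 hst).resolve_right hu, ht⟩
  have hinj : Set.InjOn (fun h : Iso => h.linearIsometryEquiv) T := by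
    intro h hh k hk hhk
    exact ext_lin o hhk (by rw [(hT h hh).1 o ho, (hT k hk).1 o ho])
  rw [← card_image_of_injOn hinj]
  refine lin_two hind (g (o + u) - g o) (q' - g o) _ fun A hA => ?_
  obtain ⟨h, hh, rfl⟩ := mem_image.1 hA
  refine ⟨?_, ?_⟩
  · rw [lin_eq h o, (hT h hh).1 o ho, (hT h hh).1 _ hou]
  · rw [lin_eq h o, (hT h hh).1 o ho, add_sub_cancel, (hT h hh).2]

/-- unit directions go to `± u'`, `± v'` (`image_ln`, `unit_of_dir_eq`): `4 · 2` linear parts; two members with the same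
linear part differ by a translation lying in `dir a ∩ dir b = 0` -/
theorem iso_np {m₁ m₂ : Set E3} (h1 : IsLine m₁) (h2 : IsLine m₂) (hd : dir m₁ ≠ dir m₂)
    (a b : Set E3) (T : Finset Iso) (hT : ∀ g ∈ T, g '' m₁ = a ∧ g '' m₂ = b) : T.card ≤ 8 := by
  rcases T.eq_empty_or_nonempty with rfl | ⟨g₀, hg₀⟩
  · simp
  obtain ⟨o₁, ho₁⟩ := h1.nonempty
  obtain ⟨o₂, ho₂⟩ := h2.nonempty
  obtain ⟨u, hu, rfl⟩ := h1.exists_unit ho₁
  obtain ⟨v, hv, rfl⟩ := h2.exists_unit ho₂
  have hu0 : u ≠ 0 := by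
    rintro rfl
    simp at hu
  have hv0 : v ≠ 0 := by
    rintro rfl
    simp at hv
  rw [dir_ln, dir_ln] at hd
  have hind : ∀ s t : ℝ, s • u + t • v = 0 → s = 0 ∧ t = 0 := fun s t hst =>
    indep_of_dir_ne hu0 hv0 hd hst
  have hinj : Set.InjOn (fun h : Iso => h.linearIsometryEquiv) T := by
    intro g hg h hh hgh
    have hgh' : g.linearIsometryEquiv = h.linearIsometryEquiv := hgh
    have a1 : h o₁ ∈ ln (g o₁) (g.linearIsometryEquiv u) := by
      rw [← image_ln, (hT g hg).1, ← (hT h hh).1]; exact ⟨o₁, ho₁, rfl⟩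
    have a2 : h o₂ ∈ ln (g o₂) (g.linearIsometryEquiv v) := by
      rw [← image_ln, (hT g hg).2, ← (hT h hh).2]; exact ⟨o₂, ho₂, rfl⟩
    obtain ⟨s, hs⟩ := a1
    obtain ⟨t, ht⟩ := a2
    have e1 : g o₂ = g o₁ + g.linearIsometryEquiv (o₂ - o₁) := by
      rw [← map_add_lin, add_sub_cancel]
    have e2 : h o₂ = h o₁ + g.linearIsometryEquiv (o₂ - o₁) := by
      rw [hgh', ← map_add_lin, add_sub_cancel]
    have e3 : s • u + (-t) • v = 0 := by
      apply g.linearIsometryEquiv.injective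
      rw [map_add, map_smul, map_smul, map_zero, neg_smul]
      rw [e1, e2, hs] at ht
      have : s • g.linearIsometryEquiv u = t • g.linearIsometryEquiv v := by
        have h3 : g o₁ + g.linearIsometryEquiv (o₂ - o₁) + s • g.linearIsometryEquiv u =
            g o₁ + g.linearIsometryEquiv (o₂ - o₁) + t • g.linearIsometryEquiv v := by
          rw [← ht]; abel
        exact add_left_cancel h3
      rw [this, add_neg_cancel]
    have hs0 := (hind _ _ e3).1
    rw [hs0, zero_smul, add_zero] at hs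
    exact ext_lin o₁ hgh' hs.symm
  rw [← card_image_of_injOn hinj]
  have hpm : ∀ (o w : E3), ‖w‖ = 1 → ∀ g : Iso, g '' ln o w = g₀ '' ln o w →
      g.linearIsometryEquiv w ∈ ({g₀.linearIsometryEquiv w, -g₀.linearIsometryEquiv w} : Finset E3) := by
    intro o w hw g hg
    rw [image_ln, image_ln] at hg
    have h3 := congrArg dir hg
    rw [dir_ln, dir_ln] at h3
    have := unit_of_dir_eq (by rw [LinearIsometryEquiv.norm_map, hw])
      (by rw [LinearIsometryEquiv.norm_map, hw]) h3.symm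
    simpa using this
  refine card_le_eight _ (fun A => A u) (fun A => A v)
    {g₀.linearIsometryEquiv u, -g₀.linearIsometryEquiv u}
    {g₀.linearIsometryEquiv v, -g₀.linearIsometryEquiv v} card_le_two card_le_two ?_ ?_
  · intro A hA
    obtain ⟨g, hg, rfl⟩ := mem_image.1 hA
    exact ⟨hpm o₁ u hu g (by rw [(hT g hg).1, (hT g₀ hg₀).1]),
      hpm o₂ v hv g (by rw [(hT g hg).2, (hT g₀ hg₀).2])⟩
  · intro u' v' U hU
    exact lin_two hind u' v' U fun A hA => (hU A hA).2

/-- `p + u ∈ m₁` goes to one of `≤ 2` points of `a`, a point `z ∈ m₂ \ m₁` to one of `≤ 2` points of `b`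
(`card_dist_le`), then `iso_two` -/
theorem iso_pt {m₁ m₂ : Set E3} (h1 : IsLine m₁) (h2 : IsLine m₂) (hne : m₁ ≠ m₂) {p : E3}
    (hp : p ∈ m₁) (a b : Set E3) (p' : E3) (T : Finset Iso)
    (hT : ∀ g ∈ T, g '' m₁ = a ∧ g '' m₂ = b ∧ g p = p') : T.card ≤ 8 := by
  rcases T.eq_empty_or_nonempty with rfl | ⟨g₀, hg₀⟩
  · simp
  have ha : IsLine a := (hT g₀ hg₀).1 ▸ h1.image g₀
  have hb : IsLine b := (hT g₀ hg₀).2.1 ▸ h2.image g₀
  obtain ⟨z, hz2, hz1⟩ : ∃ z ∈ m₂, z ∉ m₁ := by
    by_contra hc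
    push Not at hc
    exact hne (h2.eq_of_subset h1 hc).symm
  obtain ⟨u, hu, hm⟩ := h1.exists_unit hp
  have hpu : p + u ∈ m₁ := by rw [hm]; exact ⟨1, by simp⟩
  refine card_le_eight T (fun g => g (p + u)) (fun g => g z) (T.image fun g => g (p + u))
    (T.image fun g => g z) ?_ ?_
    (fun g hg => ⟨mem_image_of_mem _ hg, mem_image_of_mem _ hg⟩) ?_
  · refine card_dist_le ha p' (dist p (p + u)) _ fun x hx => ?_
    obtain ⟨g, hg, rfl⟩ := mem_image.1 hx
    refine ⟨?_, ?_⟩
    · rw [← (hT g hg).1]; exact ⟨_, hpu, rfl⟩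
    · rw [← (hT g hg).2.2, g.dist_map]
  · refine card_dist_le hb p' (dist p z) _ fun x hx => ?_
    obtain ⟨g, hg, rfl⟩ := mem_image.1 hx
    refine ⟨?_, ?_⟩
    · rw [← (hT g hg).2.1]; exact ⟨_, hz2, rfl⟩
    · rw [← (hT g hg).2.2, g.dist_map]
  · intro y z' U hU
    rcases U.eq_empty_or_nonempty with rfl | ⟨g, hg⟩
    · simp
    refine iso_two h1 hz1 g z' _ fun h hh => ⟨fun x hx => ?_, (hU h hh).2.2⟩
    rw [hm] at hx
    obtain ⟨t, rfl⟩ := hx
    have e1 : h p = g p := by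
      rw [(hT h (hU h hh).1).2.2, (hT g (hU g hg).1).2.2]
    have e2 : h (p + u) = g (p + u) := by
      rw [(hU h hh).2.1, (hU g hg).2.1]
    rw [map_add_lin, map_add_lin, map_smul, map_smul, lin_eq h p, lin_eq g p, e1, e2]

end Crest.Agent.R65.Pen
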