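import Crest.Agent.R65.Pen.LineA

/-! Row 65, `d = 3`, pencils: lines in space. -/

set_option autoImplicit false

namespace Crest.Agent.R65.Pen

open Finset
open scoped Classical
open Crest.Agent.R33 (E2 InCell)

namespace LineAux

theorem dist_sq (o u z : E3) (t : ℝ) :
    dist (o + t • u) z ^ 2 = dist o z ^ 2 + 2 * t * inner ℝ u (o - z) + t ^ 2 * ‖u‖ ^ 2 := by
  have e : o + t • u - z = (o - z) + t • u := by abel
  rw [dist_eq_norm, dist_eq_norm, e, norm_add_sq_real, inner_smul_right, norm_smul, mul_pow,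
    Real.norm_eq_abs, sq_abs, real_inner_comm]
  ring

theorem mem_orth {u v w : E3} :
    w ∈ (Submodule.span ℝ ({u, v} : Set E3))ᗮ ↔ inner ℝ w u = 0 ∧ inner ℝ w v = 0 := by
  rw [Submodule.mem_orthogonal']
  constructor
  · intro h
    exact ⟨h u (Submodule.subset_span (by simp)), h v (Submodule.subset_span (by simp))⟩
  · rintro ⟨h1, h2⟩ x hx
    obtain ⟨s, t, rfl⟩ := Submodule.mem_span_pair.1 hx
    rw [inner_add_right, inner_smul_right, inner_smul_right, h1, h2]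
    ring

theorem finrank_le (u v : E3) : Module.finrank ℝ (Submodule.span ℝ ({u, v} : Set E3)) ≤ 2 := by
  have h := finrank_span_finset_le_card (R := ℝ) ({u, v} : Finset E3)
  rw [Set.finrank, Finset.coe_pair] at h
  exact h.trans Finset.card_le_two

theorem finrank_add (u v : E3) : Module.finrank ℝ (Submodule.span ℝ ({u, v} : Set E3)) +
    Module.finrank ℝ (Submodule.span ℝ ({u, v} : Set E3))ᗮ = 3 := by
  rw [Submodule.finrank_add_finrank_orthogonal]
  simp

end LineAux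

/-- at most two points of a line have a given distance from a given point -/
theorem card_dist_le {m : Set E3} (hm : IsLine m) (z : E3) (ρ : ℝ) (T : Finset E3)
    (hT : ∀ x ∈ T, x ∈ m ∧ dist z x = ρ) : T.card ≤ 2 := by
  obtain ⟨o, u, hu, rfl⟩ := hm
  by_contra hc
  obtain ⟨a, b, c, ha, hb, hc', hab, hac, hbc⟩ := Finset.two_lt_card_iff.1 (not_le.1 hc)
  obtain ⟨⟨s, rfl⟩, h1⟩ := hT a ha
  obtain ⟨⟨t, rfl⟩, h2⟩ := hT b hb
  obtain ⟨⟨r, rfl⟩, h3⟩ := hT c hc'
  have e1 := LineAux.dist_sq o u z s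
  have e2 := LineAux.dist_sq o u z t
  have e3 := LineAux.dist_sq o u z r
  rw [dist_comm, h1] at e1
  rw [dist_comm, h2] at e2
  rw [dist_comm, h3] at e3
  have hst : s - t ≠ 0 := fun h => hab (by rw [sub_eq_zero.1 h])
  have hsr : s - r ≠ 0 := fun h => hac (by rw [sub_eq_zero.1 h])
  have htr : t - r ≠ 0 := fun h => hbc (by rw [sub_eq_zero.1 h])
  have hn : ‖u‖ ^ 2 ≠ 0 := pow_ne_zero 2 (norm_ne_zero_iff.2 hu)
  have f1 : 2 * inner ℝ u (o - z) + (s + t) * ‖u‖ ^ 2 = 0 :=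
    (mul_eq_zero.1 (show (s - t) * _ = 0 by linear_combination e2 - e1)).resolve_left hst
  have f2 : 2 * inner ℝ u (o - z) + (s + r) * ‖u‖ ^ 2 = 0 :=
    (mul_eq_zero.1 (show (s - r) * _ = 0 by linear_combination e3 - e1)).resolve_left hsr
  exact mul_ne_zero htr hn (by linear_combination f1 - f2)

/-- fibres of `dist p₀ ·` (`card_le_mul_card_image`, `card_dist_le`) -/
theorem card_on_line {P : Finset E3} {D : ℕ} (hP : Few P D) {m : Set E3} (hm : IsLine m) :
    (on P m).card ≤ 2 * D := by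
  obtain ⟨𝒟, hD, h⟩ := hP
  rcases (on P m).eq_empty_or_nonempty with h0 | ⟨p, hp⟩
  · simp [h0]
  have hp' := (mem_on.1 hp).1
  refine (Finset.card_le_mul_card_image_of_maps_to (f := fun x => dist p x) (t := 𝒟)
    (fun a ha => h p hp' a (mem_on.1 ha).1) 2 fun b _ => ?_).trans (Nat.mul_le_mul_left 2 hD)
  refine card_dist_le hm p b _ fun x hx => ?_
  obtain ⟨h1, h2⟩ := Finset.mem_filter.1 hx
  exact ⟨(mem_on.1 h1).2, h2⟩

/-- parallel lines are disjoint -/
theorem card_par_mul_le (P : Finset E3) (Λ : Finset (Set E3)) (w : Set E3) (lo : ℝ)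
    (hΛ : ∀ m ∈ Λ, IsLine m ∧ dir m = w ∧ lo ≤ ((on P m).card : ℝ)) :
    (Λ.card : ℝ) * lo ≤ P.card := by
  have hd : (Λ : Set (Set E3)).PairwiseDisjoint (on P) := by
    intro m hm m' hm' hne
    refine Finset.disjoint_left.2 fun p h1 h2 => hne ?_
    obtain ⟨l1, d1, -⟩ := hΛ m hm
    obtain ⟨l2, d2, -⟩ := hΛ m' hm'
    obtain ⟨o, u, -, e⟩ := id l1
    have d3 : dir m = ln 0 u := by rw [e, dir_ln]
    rw [eq_ln_of_dir l1 d3 (mem_on.1 h1).2,
      eq_ln_of_dir l2 (d2.trans (d1.symm.trans d3)) (mem_on.1 h2).2]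
  have h1 : (Λ.biUnion (on P)).card ≤ P.card :=
    Finset.card_le_card (Finset.biUnion_subset.2 fun m _ => Finset.filter_subset _ _)
  rw [Finset.card_biUnion hd] at h1
  calc (Λ.card : ℝ) * lo = ∑ _m ∈ Λ, lo := by simp
    _ ≤ ∑ m ∈ Λ, ((on P m).card : ℝ) := Finset.sum_le_sum fun m hm => (hΛ m hm).2.2
    _ ≤ P.card := by exact_mod_cast h1

theorem coax_ln {o u q q' : E3} :
    Coax (ln o u) q q' ↔ inner ℝ u (q' - q) = 0 ∧ dist o q = dist o q' := by
  have e : inner ℝ u (q' - q) = inner ℝ u (o - q) - inner ℝ u (o - q') := by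
    rw [← inner_sub_right]; congr 1; abel
  constructor
  · intro h
    have h0 : dist o q = dist o q' := h o (self_mem_ln o u)
    have h1 : dist (o + (1 : ℝ) • u) q = dist (o + (1 : ℝ) • u) q' := h _ ⟨1, rfl⟩
    have e1 := LineAux.dist_sq o u q 1
    have e2 := LineAux.dist_sq o u q' 1
    rw [h1, h0] at e1
    exact ⟨by rw [e]; linarith, h0⟩
  · rintro ⟨h1, h0⟩ x ⟨t, rfl⟩
    rw [← sq_eq_sq₀ dist_nonneg dist_nonneg, LineAux.dist_sq, LineAux.dist_sq, h0]
    rw [e] at h1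
    rw [sub_eq_zero.1 h1]

/-- a vector orthogonal to two independent vectors is unique up to a scalar (dimension `3`) -/
theorem orth_unique {u v w w' : E3} (h : ∀ s t : ℝ, s • u + t • v = 0 → s = 0 ∧ t = 0) (hw : w ≠ 0)
    (h1 : inner ℝ w u = 0) (h2 : inner ℝ w v = 0) (h3 : inner ℝ w' u = 0) (h4 : inner ℝ w' v = 0) :
    ∃ c : ℝ, w' = c • w := by
  have hl : LinearIndependent ℝ ![u, v] := LinearIndependent.pair_iff.2 h
  have h5 : Module.finrank ℝ (Submodule.span ℝ ({u, v} : Set E3)) = 2 := by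
    have := finrank_span_eq_card hl
    rwa [Matrix.range_cons_cons_empty, Fintype.card_fin] at this
  have h6 := LineAux.finrank_add u v
  have h7 : Module.finrank ℝ (Submodule.span ℝ ({u, v} : Set E3))ᗮ = 1 := by omega
  have hw0 : (⟨w, LineAux.mem_orth.2 ⟨h1, h2⟩⟩ : (Submodule.span ℝ ({u, v} : Set E3))ᗮ) ≠ 0 :=
    fun h => hw (congrArg Subtype.val h)
  obtain ⟨c, hc⟩ := (finrank_eq_one_iff_of_nonzero' _ hw0).1 h7 ⟨w', LineAux.mem_orth.2 ⟨h3, h4⟩⟩
  exact ⟨c, (congrArg Subtype.val hc).symm⟩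

theorem exists_orth (u v : E3) : ∃ w : E3, ‖w‖ = 1 ∧ inner ℝ w u = 0 ∧ inner ℝ w v = 0 := by
  have h5 := LineAux.finrank_le u v
  have h6 := LineAux.finrank_add u v
  have h7 : (Submodule.span ℝ ({u, v} : Set E3))ᗮ ≠ ⊥ := by
    intro h
    rw [h, finrank_bot] at h6
    omega
  obtain ⟨w, hw, hw0⟩ := Submodule.exists_mem_ne_zero_of_ne_bot h7
  obtain ⟨h1, h2⟩ := LineAux.mem_orth.1 hw
  refine ⟨‖w‖⁻¹ • w, norm_smul_inv_norm hw0, ?_, ?_⟩
  · rw [inner_smul_left, h1, mul_zero]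
  · rw [inner_smul_left, h2, mul_zero]

/-- at most two vectors of a given length have prescribed inner products with two independent vectors -/
theorem card_inner_le {u v : E3} (h : ∀ s t : ℝ, s • u + t • v = 0 → s = 0 ∧ t = 0) (a b ρ : ℝ)
    (T : Finset E3) (hT : ∀ x ∈ T, inner ℝ u x = a ∧ inner ℝ v x = b ∧ ‖x‖ = ρ) : T.card ≤ 2 := by
  rcases T.eq_empty_or_nonempty with rfl | ⟨x₀, h0⟩
  · simp
  obtain ⟨w, hw, h1, h2⟩ := exists_orth u v
  have hw0 : w ≠ 0 := by rintro rfl; simp at hw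
  refine card_dist_le (m := ln x₀ w) ⟨x₀, w, hw0, rfl⟩ 0 ρ T fun x hx => ?_
  obtain ⟨a1, a2, a3⟩ := hT x hx
  obtain ⟨b1, b2, -⟩ := hT x₀ h0
  obtain ⟨c, hc⟩ := orth_unique (w' := x - x₀) h hw0 h1 h2
    (by rw [real_inner_comm, inner_sub_right, a1, b1, sub_self])
    (by rw [real_inner_comm, inner_sub_right, a2, b2, sub_self])
  exact ⟨⟨c, by rw [← hc]; abel⟩, by rw [dist_zero_left, a3]⟩

end Crest.Agent.R65.Pen
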