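import Crest.Agent.R65.Pen.Defs

/-! Row 65, `d = 3`, pencils: lines in space. -/

set_option autoImplicit false

namespace Crest.Agent.R65.Pen

open Finset
open scoped Classical
open Crest.Agent.R33 (E2 InCell)

theorem mem_on {P : Finset E3} {m : Set E3} {p : E3} : p ∈ on P m ↔ p ∈ P ∧ p ∈ m := mem_filter

theorem mem_mat {P P' : Finset E3} {g : Iso} {p : E3} : p ∈ mat P P' g ↔ p ∈ P ∧ g p ∈ P' :=
  mem_filter

theorem self_mem_ln (o u : E3) : o ∈ ln o u := by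
  exact ⟨0, by simp⟩

theorem ln_eq_of_mem {o u p : E3} (h : p ∈ ln o u) : ln p u = ln o u := by
  obtain ⟨s, rfl⟩ := h
  ext x
  constructor
  · rintro ⟨t, rfl⟩
    exact ⟨s + t, by rw [add_smul, add_assoc]⟩
  · rintro ⟨t, rfl⟩
    exact ⟨t - s, by rw [sub_smul]; abel⟩

theorem ln_smul (o u : E3) {c : ℝ} (hc : c ≠ 0) : ln o (c • u) = ln o u := by
  ext x
  constructor
  · rintro ⟨t, rfl⟩
    exact ⟨t * c, by rw [mul_smul]⟩
  · rintro ⟨t, rfl⟩
    exact ⟨t / c, by rw [smul_smul, div_mul_cancel₀ _ hc]⟩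

/-- base point and unit direction can be prescribed -/
theorem IsLine.exists_unit {m : Set E3} (hm : IsLine m) {p : E3} (hp : p ∈ m) :
    ∃ u : E3, ‖u‖ = 1 ∧ m = ln p u := by
  obtain ⟨o, u, hu, rfl⟩ := hm
  have h0 : ‖u‖ ≠ 0 := norm_ne_zero_iff.2 hu
  refine ⟨‖u‖⁻¹ • u, norm_smul_inv_norm hu, ?_⟩
  rw [ln_smul _ _ (inv_ne_zero h0), ln_eq_of_mem hp]

theorem IsLine.nonempty {m : Set E3} (hm : IsLine m) : m.Nonempty := by
  obtain ⟨o, u, -, rfl⟩ := hm
  exact ⟨o, self_mem_ln o u⟩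

theorem dir_ln (o u : E3) : dir (ln o u) = ln 0 u := by
  ext v
  constructor
  · rintro ⟨x, ⟨s, rfl⟩, y, ⟨t, rfl⟩, rfl⟩
    exact ⟨s - t, by rw [sub_smul]; abel⟩
  · rintro ⟨t, rfl⟩
    exact ⟨o + t • u, ⟨t, rfl⟩, o, self_mem_ln o u, by abel⟩

/-- parallel lines have a common direction vector -/
theorem eq_ln_of_dir {m : Set E3} (hm : IsLine m) {u p : E3} (h : dir m = ln 0 u) (hp : p ∈ m) :
    m = ln p u := by
  obtain ⟨o, v, -, rfl⟩ := hm
  rw [dir_ln] at h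
  rw [← ln_eq_of_mem hp]
  have key : ∀ w x : E3, x ∈ ln p w ↔ x - p ∈ ln 0 w := fun w x =>
    exists_congr fun t => by rw [zero_add, sub_eq_iff_eq_add']
  ext x
  rw [key, key, h]

theorem unit_of_dir_eq {u v : E3} (hu : ‖u‖ = 1) (hv : ‖v‖ = 1) (h : ln 0 u = ln 0 v) :
    v = u ∨ v = -u := by
  have h1 : v ∈ ln 0 u := h ▸ ⟨1, by simp⟩
  obtain ⟨t, ht⟩ := h1
  rw [zero_add] at ht
  have h2 : |t| = 1 := by
    rw [ht, norm_smul, hu, mul_one, Real.norm_eq_abs] at hv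
    exact hv
  rcases (abs_eq zero_le_one).1 h2 with rfl | rfl
  · exact Or.inl (by rw [ht, one_smul])
  · exact Or.inr (by rw [ht, neg_smul, one_smul])

/-- non-parallel directions are independent -/
theorem indep_of_dir_ne {u v : E3} (hu : u ≠ 0) (hv : v ≠ 0) (h : ln 0 u ≠ ln 0 v) {s t : ℝ}
    (hst : s • u + t • v = 0) : s = 0 ∧ t = 0 := by
  by_cases hs : s = 0
  · rw [hs, zero_smul, zero_add] at hst
    exact ⟨hs, (smul_eq_zero.1 hst).resolve_right hv⟩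
  · by_cases ht : t = 0
    · rw [ht, zero_smul, add_zero] at hst
      exact absurd ((smul_eq_zero.1 hst).resolve_right hu) hs
    · refine absurd ?_ h
      rw [← ln_smul 0 u hs, eq_neg_of_add_eq_zero_left hst, ← neg_smul,
        ln_smul 0 v (neg_ne_zero.2 ht)]

theorem image_ln (g : Iso) (o u : E3) : g '' ln o u = ln (g o) (g.linearIsometryEquiv u) := by
  have key : ∀ t : ℝ, g (o + t • u) = g o + t • g.linearIsometryEquiv u := fun t => by
    have h := g.map_vadd o (t • u)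
    rw [vadd_eq_add, vadd_eq_add, map_smul] at h
    rw [add_comm o, h, add_comm]
  ext x
  constructor
  · rintro ⟨y, ⟨t, rfl⟩, rfl⟩
    exact ⟨t, key t⟩
  · rintro ⟨t, rfl⟩
    exact ⟨o + t • u, ⟨t, rfl⟩, key t⟩

theorem IsLine.image {m : Set E3} (hm : IsLine m) (g : Iso) : IsLine (g '' m) := by
  obtain ⟨o, u, hu, rfl⟩ := hm
  exact ⟨g o, g.linearIsometryEquiv u, by simpa using hu, image_ln g o u⟩

theorem IsLine.eq_of_two {m m' : Set E3} (hm : IsLine m) (hm' : IsLine m') {p q : E3} (hpq : p ≠ q)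
    (h1 : p ∈ m) (h2 : q ∈ m) (h3 : p ∈ m') (h4 : q ∈ m') : m = m' := by
  have key : ∀ {m : Set E3}, IsLine m → p ∈ m → q ∈ m → m = ln p (q - p) := by
    intro m hm h1 h2
    obtain ⟨u, -, rfl⟩ := hm.exists_unit h1
    obtain ⟨t, rfl⟩ := h2
    have ht : t ≠ 0 := by
      rintro rfl
      exact hpq (by simp)
    rw [add_sub_cancel_left, ln_smul _ _ ht]
  rw [key hm h1 h2, ← key hm' h3 h4]

theorem IsLine.eq_of_subset {m m' : Set E3} (hm : IsLine m) (hm' : IsLine m') (h : m ⊆ m') :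
    m = m' := by
  obtain ⟨o, u, hu, rfl⟩ := id hm
  have h1 : o ∈ ln o u := self_mem_ln o u
  have h2 : o + u ∈ ln o u := ⟨1, by rw [one_smul]⟩
  exact hm.eq_of_two hm' (by simpa using hu) h1 h2 (h h1) (h h2)

end Crest.Agent.R65.Pen
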