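import Crest.Agent.R65.Pen.ST
import Crest.Agent.R65.Pen.FrameA

/-! Row 65, `d = 3`, pencils: Szemeredi-Trotter in space. -/

set_option autoImplicit false

namespace Crest.Agent.R65.Pen

open Finset
open scoped Classical
open Crest.Agent.R33 (E2 InCell)

namespace ProjAux

/-- a vector outside finitely many planes -/
theorem exists_v (S : Finset (E3 × E3)) :
    ∃ v : E3, ∀ a ∈ S, ∀ s t : ℝ, v ≠ s • a.1 + t • a.2 := by
  choose w hw1 hw2 hw3 using fun a : E3 × E3 => exists_orth a.1 a.2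
  obtain ⟨v, hv⟩ := exists_generic S (fun a x => inner ℝ (w a) x) (by
      intro a _ v x
      refine ⟨Polynomial.C (inner ℝ (w a) v) + Polynomial.C (inner ℝ (w a) x) * Polynomial.X, ?_⟩
      intro s
      simp only [inner_add_right, inner_smul_right, Polynomial.eval_add, Polynomial.eval_mul,
        Polynomial.eval_C, Polynomial.eval_X]
      ring) (by
      intro a _
      refine ⟨w a, ?_⟩
      rw [real_inner_self_eq_norm_sq, hw1 a]
      norm_num)
  refine ⟨v, fun a ha s t h => hv a ha ?_⟩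
  rw [h, inner_add_right, inner_smul_right, inner_smul_right, hw2, hw3]
  ring

/-- a good projection -/
theorem exists_L (P : Finset E3) (Λ : Finset (Set E3)) (hΛ : ∀ m ∈ Λ, IsLine m) :
    ∃ L : E3 →ₗ[ℝ] E2, Set.InjOn L (P : Set E3) ∧ (∀ m ∈ Λ, IsLine2 (L '' m)) ∧
      Set.InjOn (fun m : Set E3 => L '' m) (Λ : Set (Set E3)) := by
  have h1 : ∀ m : Set E3, ∃ o u : E3, m ∈ Λ → u ≠ 0 ∧ m = ln o u := by
    intro m
    by_cases hm : m ∈ Λ
    · obtain ⟨o, u, hu, h⟩ := hΛ m hm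
      exact ⟨o, u, fun _ => ⟨hu, h⟩⟩
    · exact ⟨0, 0, fun h => absurd h hm⟩
  choose o u hou using h1
  have h2 : ∀ m m' : Set E3, ∃ x : E3, m ∈ Λ → m' ∈ Λ → m ≠ m' → x ∈ m ∧ x ∉ m' := by
    intro m m'
    by_cases h : m ∈ Λ ∧ m' ∈ Λ ∧ m ≠ m'
    · have : ¬ m ⊆ m' := fun hs => h.2.2 ((hΛ m h.1).eq_of_subset (hΛ m' h.2.1) hs)
      obtain ⟨x, hx1, hx2⟩ := Set.not_subset.1 this
      exact ⟨x, fun _ _ _ => ⟨hx1, hx2⟩⟩
    · exact ⟨0, fun a b c => absurd ⟨a, b, c⟩ h⟩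
  choose x hx using h2
  obtain ⟨v, hv⟩ := exists_v (insert (0, 0) (((P ×ˢ P).image fun a => (a.1 - a.2, 0)) ∪
    ((Λ ×ˢ Λ).image fun a => (x a.1 a.2 - o a.2, u a.2))))
  have hv0 : v ≠ 0 := by
    have := hv (0, 0) (mem_insert_self _ _) 0 0
    simpa using this
  have hvP : ∀ p ∈ P, ∀ q ∈ P, ∀ s : ℝ, v ≠ s • (p - q) := by
    intro p hp q hq s
    have := hv (p - q, 0) (mem_insert_of_mem (mem_union_left _
      (mem_image.2 ⟨(p, q), mem_product.2 ⟨hp, hq⟩, rfl⟩))) s 0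
    simpa using this
  have hvΛ : ∀ m ∈ Λ, ∀ m' ∈ Λ, ∀ s t : ℝ, v ≠ s • (x m m' - o m') + t • u m' := by
    intro m hm m' hm' s t
    exact hv (x m m' - o m', u m') (mem_insert_of_mem (mem_union_right _
      (mem_image.2 ⟨(m, m'), mem_product.2 ⟨hm, hm'⟩, rfl⟩))) s t
  obtain ⟨L, hL⟩ := exists_pr hv0
  have hker := pr_eq_zero hv0 hL
  have himg : ∀ m ∈ Λ, L '' m = {y | ∃ t : ℝ, y = L (o m) + t • L (u m)} := by
    intro m hm
    conv_lhs => rw [(hou m hm).2]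
    ext y
    constructor
    · rintro ⟨z, ⟨t, rfl⟩, rfl⟩
      exact ⟨t, by rw [map_add, map_smul]⟩
    · rintro ⟨t, rfl⟩
      exact ⟨o m + t • u m, ⟨t, rfl⟩, by rw [map_add, map_smul]⟩
  refine ⟨L, ?_, ?_, ?_⟩
  · intro p hp q hq hpq
    by_contra hne
    have : L (p - q) = 0 := by rw [map_sub, hpq, sub_self]
    obtain ⟨t, ht⟩ := (hker _).1 this
    have ht0 : t ≠ 0 := by
      rintro rfl
      exact hne (sub_eq_zero.1 (by simpa using ht))
    exact hvP p hp q hq t⁻¹ (by rw [ht, smul_smul, inv_mul_cancel₀ ht0, one_smul])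
  · intro m hm
    refine ⟨L (o m), L (u m), ?_, himg m hm⟩
    intro h0
    obtain ⟨t, ht⟩ := (hker _).1 h0
    have ht0 : t ≠ 0 := by
      rintro rfl
      exact (hou m hm).1 (by simpa using ht)
    exact hvΛ m hm m hm 0 t⁻¹ (by
      rw [zero_smul, zero_add, ht, smul_smul, inv_mul_cancel₀ ht0, one_smul])
  · intro m hm m' hm' hmm
    by_contra hne
    have hm1 : m ∈ Λ := hm
    have hm2 : m' ∈ Λ := hm'
    obtain ⟨hx1, hx2⟩ := hx m m' hm1 hm2 hne
    have : L (x m m') ∈ L '' m' := by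
      have h3 : L '' m = L '' m' := hmm
      rw [← h3]
      exact ⟨_, hx1, rfl⟩
    rw [himg m' hm2] at this
    obtain ⟨t, ht⟩ := this
    have h0 : L (x m m' - o m' - t • u m') = 0 := by
      rw [map_sub, map_sub, map_smul, ht]
      abel
    obtain ⟨s, hs⟩ := (hker _).1 h0
    have hs0 : s ≠ 0 := by
      rintro rfl
      apply hx2
      rw [(hou m' hm2).2]
      refine ⟨t, ?_⟩
      rw [zero_smul] at hs
      rw [← (hou m' hm2).2]
      linear_combination (norm := module) hs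
    refine hvΛ m hm1 m' hm2 s⁻¹ (-(s⁻¹ * t)) ?_
    have : v = s⁻¹ • (s • v) := by rw [smul_smul, inv_mul_cancel₀ hs0, one_smul]
    rw [this, ← hs]
    module

end ProjAux

/-- Project along a generic `v` (`exists_generic` with linear functionals `inner w ·`; `exists_pr`): `v` not parallel
to `p - q` (`p ≠ q ∈ P`; `w ⟂ p - q`), nor to the direction of a line, and for `m ≠ m'` in `Λ`, `x ∈ m \ m'`,
`m' = ln o' u'`, `w ⟂ x - o', u'`.  Then `L` is injective on `P`, `L '' m` is a line, `m ↦ L '' m` is injective on `Λ`;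
apply `lines2`. -/
theorem lines3 : ∃ C : ℝ, 0 < C ∧ ∀ (P : Finset E3) (Λ : Finset (Set E3)) (k : ℝ),
    (∀ m ∈ Λ, IsLine m) → 88 ≤ k → (∀ m ∈ Λ, k ≤ ((on P m).card : ℝ)) →
    (Λ.card : ℝ) ≤ C * (P.card : ℝ) ^ 2 / k ^ 3 + k := by
  obtain ⟨C, hC, H⟩ := lines2
  refine ⟨C, hC, fun P Λ k hΛ hk hr => ?_⟩
  obtain ⟨L, hP, hl, hi⟩ := ProjAux.exists_L P Λ hΛ
  have := H (P.image L) (Λ.image fun m => L '' m) k ?_ hk ?_
  · rwa [card_image_of_injOn hP, card_image_of_injOn hi] at this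
  · intro m hm
    obtain ⟨m', hm', rfl⟩ := mem_image.1 hm
    exact hl m' hm'
  · intro m hm
    obtain ⟨m', hm', rfl⟩ := mem_image.1 hm
    refine (hr m' hm').trans ?_
    have h1 : (on P m').card = ((on P m').image L).card :=
      (card_image_of_injOn (hP.mono fun p hp => (mem_on.1 hp).1)).symm
    rw [h1]
    refine Nat.cast_le.2 (card_le_card ?_)
    intro y hy
    obtain ⟨p, hp, rfl⟩ := mem_image.1 hy
    exact mem_filter.2 ⟨mem_image_of_mem _ (mem_on.1 hp).1, p, (mem_on.1 hp).2, rfl⟩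

/-- `st_of_rich` -/
theorem st3 : ∃ C : ℝ, 0 < C ∧ ∀ (P : Finset E3) (Λ : Finset (Set E3)), (∀ m ∈ Λ, IsLine m) →
    (∀ k : ℝ, 88 ≤ k → (∀ m ∈ Λ, k ≤ ((on P m).card : ℝ)) →
      (Λ.card : ℝ) ≤ C * ((P.card : ℝ) ^ 2 / k ^ 3 + P.card / k)) ∧
    ∀ τ : ℝ, 88 ≤ τ → ∑ m ∈ Λ, ((on P m).card : ℝ) ≤
      2 * τ * Λ.card + C * ((P.card : ℝ) ^ 2 / τ ^ 2 + P.card) := by
  obtain ⟨C, hC, H⟩ := lines3
  obtain ⟨C', hC', H'⟩ := st_of_rich C hC
  refine ⟨C', hC', fun P Λ hΛ => ?_⟩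
  refine H' P Λ (on P) (fun m _ => filter_subset _ _) ?_ ?_
  · intro m hm m' hm' hne
    refine card_le_one.2 fun p hp q hq => ?_
    by_contra hpq
    have hp' : p ∈ on P m ∧ p ∈ on P m' := by simpa only [mem_inter] using hp
    have hq' : q ∈ on P m ∧ q ∈ on P m' := by simpa only [mem_inter] using hq
    exact hne ((hΛ m hm).eq_of_two (hΛ m' hm') hpq (mem_on.1 hp'.1).2 (mem_on.1 hq'.1).2
      (mem_on.1 hp'.2).2 (mem_on.1 hq'.2).2)
  · intro k hk J hJ hr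
    exact H P J k (fun m hm => hΛ m (hJ hm)) hk hr

end Crest.Agent.R65.Pen
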