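import Crest.Agent.R65.Pen.RichA

/-! Row 65, `d = 3`, pencils: rich curves (polynomial partition). -/

set_option autoImplicit false

namespace Crest.Agent.R65.Pen

open Finset
open scoped Classical
open Crest.Agent.R33 (E2 InCell)

namespace RichAux

theorem le_choose (a s : ℕ) (ha : 1 ≤ a) (hs : a ≤ s) : s ≤ a * s.choose a := by
  obtain ⟨a, rfl⟩ : ∃ b, a = b + 1 := ⟨a - 1, by omega⟩
  obtain ⟨s, rfl⟩ : ∃ t, s = t + 1 := ⟨s - 1, by omega⟩
  have h := Nat.add_one_mul_choose_eq s a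
  have h1 : 0 < s.choose a := Nat.choose_pos (by omega)
  nlinarith

/-- families meeting pairwise in fewer than `a` points have disjoint `a`-subsets -/
theorem sum_choose {α ι : Type} (a : ℕ) (I : Finset ι) (S : ι → Finset α) (N : Finset α)
    (hS : ∀ i ∈ I, S i ⊆ N) (hd : ∀ i ∈ I, ∀ j ∈ I, i ≠ j → (S i ∩ S j).card < a) :
    ∑ i ∈ I, (S i).card.choose a ≤ N.card ^ a := by
  have h1 : ∑ i ∈ I, (S i).card.choose a = (I.biUnion fun i => (S i).powersetCard a).card := by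
    rw [card_biUnion]
    · simp [card_powersetCard]
    · intro i hi j hj hij
      simp only [Function.onFun]
      rw [Finset.disjoint_left]
      intro U hU hU'
      rw [mem_powersetCard] at hU hU'
      have h2 : U ⊆ S i ∩ S j := subset_inter hU.1 hU'.1
      have h3 := card_le_card h2
      have h4 := hd i hi j hj hij
      omega
  rw [h1]
  refine le_trans (card_le_card (t := N.powersetCard a) ?_) ?_
  · intro U hU
    rw [mem_biUnion] at hU
    obtain ⟨i, hi, hU⟩ := hU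
    rw [mem_powersetCard] at hU ⊢
    exact ⟨hU.1.trans (hS i hi), hU.2⟩
  · rw [card_powersetCard]
    exact Nat.choose_le_pow _ _

theorem exists_cell {j : ℕ} (f : Fin j → MvPolynomial (Fin 2) ℝ) (p : E2)
    (hp : ev (∏ i, f i) p ≠ 0) : ∃ sg : Fin j → Bool, InCell f sg p := by
  refine ⟨fun i => decide (0 < MvPolynomial.eval (fun k => p k) (f i)), fun i => ?_⟩
  have hi : MvPolynomial.eval (fun k => p k) (f i) ≠ 0 := by
    intro h0
    apply hp
    unfold ev
    rw [map_prod]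
    exact prod_eq_zero (mem_univ i) h0
  by_cases h : 0 < MvPolynomial.eval (fun k => p k) (f i)
  · simp [h]
  · simp only [h, decide_false, Bool.false_eq_true, if_false]
    exact lt_of_le_of_ne (not_lt.mp h) hi

/-- one curve outside the zero set -/
theorem one_curve (a : ℕ) (ha : 2 ≤ a) {j : ℕ} (f : Fin j → MvPolynomial (Fin 2) ℝ) (Γ : Set E2)
    (hΓ : IsCrv Γ) (T : Finset E2) (hT : ∀ p ∈ T, p ∈ Γ) (h0 : ∃ p ∈ Γ, ev (∏ i, f i) p ≠ 0) :
    T.card ≤ (2 * (∑ i, (f i).totalDegree) + 2) * a +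
      a * ∑ sg : Fin j → Bool, (T.filter (InCell f sg)).card.choose a := by
  set δ := ∑ i, (f i).totalDegree with hδ
  have hdeg : (∏ i, f i).totalDegree ≤ δ := MvPolynomial.totalDegree_finsetProd _ _
  have hZ : (T.filter fun p => ev (∏ i, f i) p = 0).card ≤ 2 * δ + 1 := by
    refine (hΓ.zero _ h0 _ fun p hp => ?_).trans (by omega)
    rw [mem_filter] at hp
    exact ⟨hT p hp.1, hp.2⟩
  have hcov : T ⊆ (T.filter fun p => ev (∏ i, f i) p = 0) ∪
      univ.biUnion fun sg : Fin j → Bool => T.filter (InCell f sg) := by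
    intro p hp
    by_cases h : ev (∏ i, f i) p = 0
    · exact mem_union_left _ (mem_filter.mpr ⟨hp, h⟩)
    · obtain ⟨sg, hsg⟩ := exists_cell f p h
      exact mem_union_right _ (mem_biUnion.mpr ⟨sg, mem_univ _, mem_filter.mpr ⟨hp, hsg⟩⟩)
  have h1 : T.card ≤ 2 * δ + 1 + ∑ sg : Fin j → Bool, (T.filter (InCell f sg)).card :=
    (card_le_card hcov).trans ((card_union_le _ _).trans (add_le_add hZ card_biUnion_le))
  have h2 : ∀ sg : Fin j → Bool, (T.filter (InCell f sg)).card ≤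
      (if ∃ p ∈ Γ, InCell f sg p then a - 1 else 0) +
        a * (T.filter (InCell f sg)).card.choose a := by
    intro sg
    by_cases hs : a ≤ (T.filter (InCell f sg)).card
    · exact (le_choose a _ (by omega) hs).trans (Nat.le_add_left _ _)
    · by_cases hx : ∃ p ∈ Γ, InCell f sg p
      · rw [if_pos hx]; omega
      · have : T.filter (InCell f sg) = ∅ := by
          rw [filter_eq_empty_iff]
          intro p hp hc
          exact hx ⟨p, hT p hp, hc⟩
        rw [this]; simp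
  have h3 : ∑ sg : Fin j → Bool, (if ∃ p ∈ Γ, InCell f sg p then a - 1 else 0) ≤
      (2 * δ + 2) * (a - 1) := by
    rw [← sum_filter, sum_const, smul_eq_mul]
    exact Nat.mul_le_mul_right _ (hΓ.cross f)
  have h4 := sum_le_sum fun sg (_ : sg ∈ (univ : Finset (Fin j → Bool))) => h2 sg
  rw [sum_add_distrib, ← mul_sum] at h4
  have h5 : (2 * δ + 2) * a = (2 * δ + 2) * (a - 1) + (2 * δ + 2) := by
    obtain ⟨b, rfl⟩ : ∃ b, a = b + 1 := ⟨a - 1, by omega⟩
    simp only [Nat.add_sub_cancel]; ring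
  omega

end RichAux

/-- **Rich curves.** `x = (k / (44 a))² ≥ 1`, `2^j ≤ x < 2^(j+1)` (`exists_nat_pow_near`), `f` from
`R33.poly_partition P j`, `δ = ∑ deg f i ≤ 10 √(2^j)`, so `(2δ + 2) a ≤ k / 2`.  At most `δ ≤ k` curves lie in the zero
set of `F = ∏ f i` (`crv_count`).  Another curve has `≤ 2δ + 1` points with `F = 0` (`zero`); its other points lie in
`≤ 2δ + 2` cells (`cross`), so at least `k / 2` of them lie in cells containing `≥ a` points of `T i`; a cell with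
`s ≥ a` such points gives `≥ s` injective `a`-tuples (`s.descFactorial a ≥ s`; or fix `a - 1` ... any count works).
An injective `a`-tuple belongs to at most one `T i`; the number of `a`-tuples in a common cell is
`≤ 2^j (n / 2^j)^a`.  So `#rest · k / 2 ≤ n^a (2 / x)^(a-1)`. -/
theorem rich (a : ℕ) (ha : 2 ≤ a) : ∃ C : ℝ, 0 < C ∧ ∀ {ι : Type} (I : Finset ι) (P : Finset E2)
    (Γ : ι → Set E2) (T : ι → Finset E2) (k : ℝ), (∀ i ∈ I, IsCrv (Γ i)) →
    (∀ i ∈ I, ∀ j ∈ I, i ≠ j → ¬ Γ i ⊆ Γ j) → (∀ i ∈ I, T i ⊆ P ∧ ∀ p ∈ T i, p ∈ Γ i) →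
    (∀ i ∈ I, ∀ j ∈ I, i ≠ j → (T i ∩ T j).card < a) → 44 * (a : ℝ) ≤ k →
    (∀ i ∈ I, k ≤ ((T i).card : ℝ)) →
    (I.card : ℝ) ≤ C * (P.card : ℝ) ^ a / k ^ (2 * a - 1) + k := by
  have ha0 : (0 : ℝ) < a := by exact_mod_cast (by omega : 0 < a)
  have ha2 : (2 : ℝ) ≤ a := by exact_mod_cast ha
  refine ⟨2 * a * (2 * (44 * a) ^ 2) ^ (a - 1), by positivity, ?_⟩
  intro ι I P Γ T k hΓ hne hT hd hk hTk
  have hk0 : 0 < k := by nlinarith
  have hx1 : (1 : ℝ) ≤ (k / (44 * a)) ^ 2 := by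
    apply one_le_pow₀
    rw [le_div_iff₀ (by positivity)]; linarith
  obtain ⟨j, hj1, hj2⟩ := exists_nat_pow_near hx1 (by norm_num : (1 : ℝ) < 2)
  obtain ⟨f, hf0, hfd, hfc⟩ := Crest.Agent.R33.poly_partition P j
  set δ := ∑ i, (f i).totalDegree with hδ
  have hsq : √((2 : ℝ) ^ j) ≤ k / (44 * a) := by
    rw [Real.sqrt_le_left (by positivity)]; exact hj1
  have hδa : (δ : ℝ) * a ≤ 10 * k / 44 := by
    have h1 : (δ : ℝ) ≤ 10 * (k / (44 * a)) := hfd.trans (by linarith)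
    calc (δ : ℝ) * a ≤ 10 * (k / (44 * a)) * a := by gcongr
      _ = 10 * k / 44 := by field_simp
  have hδ0 : (0 : ℝ) ≤ δ := Nat.cast_nonneg _
  have hδk : (δ : ℝ) ≤ k := by nlinarith
  set I0 := I.filter fun i => ∀ p ∈ Γ i, ev (∏ i, f i) p = 0 with hI0
  set I1 := I.filter fun i => ¬ ∀ p ∈ Γ i, ev (∏ i, f i) p = 0 with hI1
  have hsplit : I0.card + I1.card = I.card := card_filter_add_card_filter_not _
  have hc0 : I0.card ≤ δ := by
    refine (crv_count I0 Γ (fun i hi => hΓ i (mem_filter.mp hi).1)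
      (fun i hi l hl => hne i (mem_filter.mp hi).1 l (mem_filter.mp hl).1) (∏ i, f i)
      (prod_ne_zero_iff.mpr fun i _ => hf0 i) fun i hi => (mem_filter.mp hi).2).trans ?_
    exact MvPolynomial.totalDegree_finsetProd _ _
  have hone : ∀ i ∈ I1, k / 2 ≤
      a * ∑ sg : Fin j → Bool, ((((T i).filter (InCell f sg)).card.choose a : ℕ) : ℝ) := by
    intro i hi
    obtain ⟨hiI, hi0⟩ := mem_filter.mp hi
    have h0 : ∃ p ∈ Γ i, ev (∏ i, f i) p ≠ 0 := by
      by_contra hc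
      apply hi0
      intro p hp
      by_contra h
      exact hc ⟨p, hp, h⟩
    have h1 := RichAux.one_curve a ha f (Γ i) (hΓ i hiI) (T i) (hT i hiI).2 h0
    have h2 : ((T i).card : ℝ) ≤ (2 * δ + 2) * a +
        a * ∑ sg : Fin j → Bool, ((((T i).filter (InCell f sg)).card.choose a : ℕ) : ℝ) := by
      exact_mod_cast h1
    have h3 := hTk i hiI
    nlinarith
  have hcell : ∀ sg : Fin j → Bool,
      ∑ i ∈ I1, ((((T i).filter (InCell f sg)).card.choose a : ℕ) : ℝ) ≤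
        ((P.card : ℝ) / 2 ^ j) ^ a := by
    intro sg
    have h1 := RichAux.sum_choose a I1 (fun i => (T i).filter (InCell f sg))
      (P.filter (InCell f sg))
      (fun i hi => filter_subset_filter _ (hT i (mem_filter.mp hi).1).1)
      (fun i hi l hl hil => lt_of_le_of_lt (card_le_card (by
          intro p hp
          simp only [mem_inter, mem_filter] at hp ⊢
          exact ⟨hp.1.1, hp.2.1⟩))
        (hd i (mem_filter.mp hi).1 l (mem_filter.mp hl).1 hil))
    have h2 : ((P.filter (InCell f sg)).card : ℝ) ≤ (P.card : ℝ) / 2 ^ j := by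
      rw [le_div_iff₀ (by positivity)]
      exact_mod_cast hfc sg
    calc ∑ i ∈ I1, ((((T i).filter (InCell f sg)).card.choose a : ℕ) : ℝ)
        ≤ ((P.filter (InCell f sg)).card : ℝ) ^ a := by exact_mod_cast h1
      _ ≤ _ := by gcongr
  have hsum : (I1.card : ℝ) * (k / 2) ≤ a * (2 ^ j * ((P.card : ℝ) / 2 ^ j) ^ a) := by
    calc (I1.card : ℝ) * (k / 2) = ∑ _i ∈ I1, k / 2 := by rw [sum_const, nsmul_eq_mul]
      _ ≤ ∑ i ∈ I1, a * ∑ sg : Fin j → Bool,
          ((((T i).filter (InCell f sg)).card.choose a : ℕ) : ℝ) := sum_le_sum hone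
      _ = a * ∑ sg : Fin j → Bool, ∑ i ∈ I1,
          ((((T i).filter (InCell f sg)).card.choose a : ℕ) : ℝ) := by
        rw [← mul_sum, sum_comm]
      _ ≤ a * ∑ _sg : Fin j → Bool, ((P.card : ℝ) / 2 ^ j) ^ a := by
        gcongr with sg
        exact hcell sg
      _ = _ := by simp
  obtain ⟨b, rfl⟩ : ∃ b, a = b + 1 := ⟨a - 1, by omega⟩
  have e1 : 2 * (b + 1) - 1 = 2 * b + 1 := by omega
  simp only [Nat.add_sub_cancel, e1]
  set A : ℝ := ((b + 1 : ℕ) : ℝ) with hA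
  have hlow : k ^ 2 ≤ 2 * (44 * A) ^ 2 * 2 ^ j := by
    rw [div_pow, div_lt_iff₀ (by positivity), pow_succ (2 : ℝ) j] at hj2
    nlinarith
  have hpow : k ^ (2 * b) ≤ (2 * (44 * A) ^ 2) ^ b * (2 ^ j) ^ b := by
    rw [pow_mul, ← mul_pow]
    gcongr
  have h2j : (0 : ℝ) < 2 ^ j := by positivity
  have e2 : (2 : ℝ) ^ j * ((P.card : ℝ) / 2 ^ j) ^ (b + 1) = (P.card : ℝ) ^ (b + 1) / (2 ^ j) ^ b := by
    rw [div_pow, pow_succ ((2 : ℝ) ^ j) b]
    field_simp
  rw [e2] at hsum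
  have hI1 : (I1.card : ℝ) ≤
      2 * A * (2 * (44 * A) ^ 2) ^ b * (P.card : ℝ) ^ (b + 1) / k ^ (2 * b + 1) := by
    rw [le_div_iff₀ (by positivity)]
    have h1 : (I1.card : ℝ) * k ≤ 2 * A * (P.card : ℝ) ^ (b + 1) / (2 ^ j) ^ b := by
      rw [mul_div_assoc]; linarith
    calc (I1.card : ℝ) * k ^ (2 * b + 1) = (I1.card : ℝ) * k * k ^ (2 * b) := by ring
      _ ≤ 2 * A * (P.card : ℝ) ^ (b + 1) / (2 ^ j) ^ b *
          ((2 * (44 * A) ^ 2) ^ b * (2 ^ j) ^ b) := by gcongr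
      _ = _ := by field_simp
  have h0 : (I0.card : ℝ) ≤ δ := by exact_mod_cast hc0
  have hs : (I.card : ℝ) = I0.card + I1.card := by exact_mod_cast hsplit.symm
  linarith

end Crest.Agent.R65.Pen
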