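import Crest.Agent.R65.Pen.Defs
import Crest.Agent.R33.Part

/-! Row 65, `d = 3`, pencils: rich curves (polynomial partition). -/

set_option autoImplicit false

namespace Crest.Agent.R65.Pen

open Finset
open scoped Classical
open Crest.Agent.R33 (E2 InCell)

namespace RichAAux

theorem fin_zero {Γ : Set E2} (h : IsCrv Γ) (f : MvPolynomial (Fin 2) ℝ) (hf : ∃ p ∈ Γ, ev f p ≠ 0) :
    {p | p ∈ Γ ∧ ev f p = 0}.Finite := by
  by_contra hinf
  obtain ⟨T, hT, hc⟩ := Set.Infinite.exists_subset_card_eq hinf (2 * f.totalDegree + 2)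
  have := h.zero f hf T fun p hp => hT (Finset.mem_coe.2 hp)
  omega

theorem ev_mul (f g : MvPolynomial (Fin 2) ℝ) (p : E2) : ev (f * g) p = ev f p * ev g p :=
  map_mul _ _ _

end RichAAux

/-- Induction on `I`, generalising `f`: `f = Q f₁` (`dvd`), `totalDegree Q ≥ 1` (`Q ≠ 0` has a zero),
`MvPolynomial.totalDegree_mul_of_isDomain`; on another curve `Q` has finitely many zeros (`zero`), so `f₁` has
infinitely many zeros there (`inf`) and vanishes on it (`zero` again). -/
theorem crv_count {ι : Type} (I : Finset ι) (Γ : ι → Set E2) (hΓ : ∀ i ∈ I, IsCrv (Γ i))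
    (hne : ∀ i ∈ I, ∀ j ∈ I, i ≠ j → ¬ Γ i ⊆ Γ j) (f : MvPolynomial (Fin 2) ℝ) (hf : f ≠ 0)
    (h0 : ∀ i ∈ I, ∀ p ∈ Γ i, ev f p = 0) : I.card ≤ f.totalDegree := by
  induction I using Finset.induction_on generalizing f with
  | empty => simp
  | insert i I hi ih =>
    have hi0 := hΓ i (mem_insert_self _ _)
    obtain ⟨Q, hQ, hd⟩ := hi0.dvd
    obtain ⟨f₁, rfl⟩ := hd f (h0 i (mem_insert_self _ _))
    have hQ0 : Q ≠ 0 := left_ne_zero_of_mul hf
    have hf1 : f₁ ≠ 0 := right_ne_zero_of_mul hf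
    have hdeg : 1 ≤ Q.totalDegree := by
      by_contra hlt
      have h1 : Q.totalDegree = 0 := by omega
      rw [MvPolynomial.totalDegree_eq_zero_iff_eq_C] at h1
      obtain ⟨p, hp⟩ := hi0.inf.nonempty
      have h2 := (hQ p).2 hp
      rw [h1, ev, MvPolynomial.eval_C] at h2
      exact hQ0 (by rw [h1, h2, map_zero])
    have h1 := ih (fun j hj => hΓ j (mem_insert_of_mem hj))
      (fun j hj k hk => hne j (mem_insert_of_mem hj) k (mem_insert_of_mem hk)) f₁ hf1 (by
        intro j hj
        have hj0 := hΓ j (mem_insert_of_mem hj)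
        by_contra hc
        push Not at hc
        have hji : j ≠ i := fun e => hi (e ▸ hj)
        obtain ⟨q, hq, hq'⟩ := Set.not_subset.1
          (hne j (mem_insert_of_mem hj) i (mem_insert_self _ _) hji)
        have F1 := RichAAux.fin_zero hj0 Q ⟨q, hq, fun e => hq' ((hQ q).1 e)⟩
        have F2 := RichAAux.fin_zero hj0 f₁ hc
        refine hj0.inf ((F1.union F2).subset fun p hp => ?_)
        have h2 := h0 j (mem_insert_of_mem hj) p hp
        rw [RichAAux.ev_mul] at h2
        rcases mul_eq_zero.1 h2 with h3 | h3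
        · exact Or.inl ⟨hp, h3⟩
        · exact Or.inr ⟨hp, h3⟩)
    rw [card_insert_of_notMem hi, MvPolynomial.totalDegree_mul_of_isDomain hQ0 hf1]
    omega

end Crest.Agent.R65.Pen
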