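import Crest.Agent.R65.Pen.Rich
import Crest.Agent.R65.Pen.CrvL
import Crest.Agent.R65.Pen.Comb

/-! Row 65, `d = 3`, pencils: Szemeredi-Trotter in the plane. -/

set_option autoImplicit false

namespace Crest.Agent.R65.Pen

open Finset
open scoped Classical
open Crest.Agent.R33 (E2 InCell)

namespace STAux

theorem inter_le {inst : DecidableEq E2} {P : Finset E2} {m m' : Set E2} (hm : IsLine2 m) (hm' : IsLine2 m') (h : m ≠ m') :
    (P.filter (· ∈ m) ∩ P.filter (· ∈ m')).card ≤ 1 := by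
  rw [Finset.card_le_one]
  intro p hp q hq
  by_contra hpq
  simp only [mem_inter, mem_filter] at hp hq
  exact h (hm.eq_of_two hm' hpq hp.1.2 hq.1.2 hp.2.2 hq.2.2)

/-- the bisector -/
def bis (q q' : E2) : Set E2 := {z | dist z q = dist z q'}

theorem mem_bis (q q' z : E2) :
    z ∈ bis q q' ↔ inner ℝ (q' - q) z = (‖q'‖ ^ 2 - ‖q‖ ^ 2) / 2 := by
  unfold bis
  rw [Set.mem_ofPred_eq, dist_eq_norm, dist_eq_norm,
    ← sq_eq_sq₀ (norm_nonneg _) (norm_nonneg _), norm_sub_sq_real, norm_sub_sq_real,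
    inner_sub_left, real_inner_comm z q', real_inner_comm z q]
  constructor <;> intro h <;> linarith

theorem isLine2_bis {q q' : E2} (h : q' ≠ q) : IsLine2 (bis q q') := by
  have : bis q q' = {x : E2 | inner ℝ (q' - q) x = (‖q'‖ ^ 2 - ‖q‖ ^ 2) / 2} := by
    ext z; exact mem_bis q q' z
  rw [this]
  exact isLine2_eq (sub_ne_zero.mpr h) _

theorem mid_mem (q q' : E2) : (1 / 2 : ℝ) • (q + q') ∈ bis q q' := by
  rw [mem_bis, inner_smul_right, inner_sub_left, inner_add_right, inner_add_right,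
    real_inner_self_eq_norm_sq, real_inner_self_eq_norm_sq, real_inner_comm q q']
  ring

theorem bis_inj {q a b : E2} (h : bis q a = bis q b) : a = b := by
  have h1 : (1 / 2 : ℝ) • (q + a) ∈ bis q b := h ▸ mid_mem q a
  have h2 : (1 / 2 : ℝ) • (q + b) ∈ bis q a := h ▸ mid_mem q b
  rw [mem_bis, inner_smul_right, inner_sub_left, inner_add_right, inner_add_right,
    real_inner_self_eq_norm_sq] at h1 h2
  have h3 : ‖a - b‖ ^ 2 = 0 := by
    rw [norm_sub_sq_real]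
    have e1 := real_inner_comm q a
    have e2 := real_inner_comm q b
    have e3 := real_inner_comm a b
    linarith
  have : ‖a - b‖ = 0 := by simpa using h3
  exact sub_eq_zero.mp (norm_eq_zero.mp this)

end STAux

/-- `rich 2` with `ι = Set E2`, `Γ = id` -/
theorem lines2 : ∃ C : ℝ, 0 < C ∧ ∀ (P : Finset E2) (Λ : Finset (Set E2)) (k : ℝ),
    (∀ m ∈ Λ, IsLine2 m) → 88 ≤ k → (∀ m ∈ Λ, k ≤ ((P.filter (· ∈ m)).card : ℝ)) →
    (Λ.card : ℝ) ≤ C * (P.card : ℝ) ^ 2 / k ^ 3 + k := by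
  obtain ⟨C, hC, H⟩ := rich 2 le_rfl
  refine ⟨C, hC, fun P Λ k hΛ hk hr => ?_⟩
  have := H Λ P id (fun m => P.filter (· ∈ m)) k (fun m hm => isCrv_line (hΛ m hm))
    (fun m hm m' hm' hne hsub => hne ((hΛ m hm).eq_of_subset (hΛ m' hm') hsub))
    (fun m _ => ⟨filter_subset _ _, fun p hp => (mem_filter.mp hp).2⟩)
    (fun m hm m' hm' hne => Nat.lt_succ_of_le (STAux.inter_le (hΛ m hm) (hΛ m' hm') hne))
    (by push_cast; linarith) hr
  simpa using this

/-- `st_of_rich` -/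
theorem st2 : ∃ C : ℝ, 0 < C ∧ ∀ (P : Finset E2) (Λ : Finset (Set E2)), (∀ m ∈ Λ, IsLine2 m) →
    (∀ k : ℝ, 88 ≤ k → (∀ m ∈ Λ, k ≤ ((P.filter (· ∈ m)).card : ℝ)) →
      (Λ.card : ℝ) ≤ C * ((P.card : ℝ) ^ 2 / k ^ 3 + P.card / k)) ∧
    ∀ τ : ℝ, 88 ≤ τ → ∑ m ∈ Λ, ((P.filter (· ∈ m)).card : ℝ) ≤
      2 * τ * Λ.card + C * ((P.card : ℝ) ^ 2 / τ ^ 2 + P.card) := by
  obtain ⟨C, hC, H⟩ := lines2
  obtain ⟨C', hC', H'⟩ := st_of_rich C hC
  refine ⟨C', hC', fun P Λ hΛ => ?_⟩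
  exact H' P Λ (fun m => P.filter (· ∈ m)) (fun m _ => filter_subset _ _)
    (fun m hm m' hm' hne => STAux.inter_le (hΛ m hm) (hΛ m' hm') hne)
    (fun k hk J hJ hr => H P J k (fun m hm => hΛ m (hJ hm)) hk hr)

/-- Isosceles triples.  Fix `q`; the bisectors `{z | dist z q = dist z q'}`, `q' ∈ Q \ {q}`, are lines
(`isLine2_eq` with `w = q' - q`) and pairwise different (equal bisectors: the midpoint of `q q'` lies on both and
`q' - q ∥ q'' - q`); apply `st2` to the point set `Z`; the diagonal `q' = q` gives `#Z`. -/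
theorem iso2 : ∃ C : ℝ, 0 < C ∧ ∀ (Z Q : Finset E2) (τ : ℝ), 88 ≤ τ →
    ∑ z ∈ Z, ∑ q ∈ Q, ((Q.filter fun q' => dist z q = dist z q').card : ℝ) ≤
      Q.card * (2 * τ * Q.card + C * ((Z.card : ℝ) ^ 2 / τ ^ 2 + Z.card)) := by
  obtain ⟨C, hC, H⟩ := st2
  refine ⟨C + 1, by linarith, fun Z Q τ hτ => ?_⟩
  rw [Finset.sum_comm]
  have key : ∀ q ∈ Q, ∑ z ∈ Z, ((Q.filter fun q' => dist z q = dist z q').card : ℝ) ≤
      2 * τ * Q.card + (C + 1) * ((Z.card : ℝ) ^ 2 / τ ^ 2 + Z.card) := by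
    intro q hq
    have e1 : ∑ z ∈ Z, ((Q.filter fun q' => dist z q = dist z q').card : ℝ) =
        ∑ q' ∈ Q, ((Z.filter (· ∈ STAux.bis q q')).card : ℝ) := by
      simp only [card_filter, Nat.cast_sum]
      rw [Finset.sum_comm]
      rfl
    have e2 : ∑ q' ∈ Q, ((Z.filter (· ∈ STAux.bis q q')).card : ℝ) ≤
        Z.card + ∑ q' ∈ Q.erase q, ((Z.filter (· ∈ STAux.bis q q')).card : ℝ) := by
      rw [← Finset.add_sum_erase Q _ hq]
      have : ((Z.filter (· ∈ STAux.bis q q)).card : ℝ) ≤ Z.card := by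
        exact_mod_cast card_filter_le _ _
      linarith
    have hinj : Set.InjOn (STAux.bis q) (Q.erase q : Set E2) :=
      fun a _ b _ h => STAux.bis_inj h
    have e3 : ∑ q' ∈ Q.erase q, ((Z.filter (· ∈ STAux.bis q q')).card : ℝ) =
        ∑ m ∈ (Q.erase q).image (STAux.bis q), ((Z.filter (· ∈ m)).card : ℝ) := by
      rw [Finset.sum_image (fun a ha b hb h => hinj (by simpa using ha) (by simpa using hb) h)]
    have hl : ∀ m ∈ (Q.erase q).image (STAux.bis q), IsLine2 m := by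
      intro m hm
      obtain ⟨q', hq', rfl⟩ := mem_image.mp hm
      exact STAux.isLine2_bis (ne_of_mem_erase hq')
    have e4 := (H Z _ hl).2 τ hτ
    have e5 : (((Q.erase q).image (STAux.bis q)).card : ℝ) ≤ Q.card := by
      exact_mod_cast card_image_le.trans (card_le_card (erase_subset _ _))
    have e6 : 2 * τ * (((Q.erase q).image (STAux.bis q)).card : ℝ) ≤ 2 * τ * Q.card :=
      mul_le_mul_of_nonneg_left e5 (by linarith)
    have e7 : (0 : ℝ) ≤ (Z.card : ℝ) ^ 2 / τ ^ 2 := by positivity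
    rw [e1]
    rw [e3] at e2
    nlinarith
  calc ∑ q ∈ Q, ∑ z ∈ Z, ((Q.filter fun q' => dist z q = dist z q').card : ℝ)
      ≤ ∑ _q ∈ Q, (2 * τ * Q.card + (C + 1) * ((Z.card : ℝ) ^ 2 / τ ^ 2 + Z.card)) :=
        Finset.sum_le_sum key
    _ = _ := by rw [Finset.sum_const, nsmul_eq_mul]

end Crest.Agent.R65.Pen
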